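import Mathlib.CategoryTheory.Triangulated.Triangulated
import Mathlib.CategoryTheory.Triangulated.Pretriangulated
import Mathlib.CategoryTheory.Limits.Shapes.Products
import Mathlib.CategoryTheory.Limits.Preserves.Shapes.Products

/-!
# Unbundled distinguished triangles; coproducts of triangles

`Dist f g h` says that `X ⟶ Y ⟶ Z ⟶ X⟦1⟧` is a distinguished triangle.
-/

open CategoryTheory Limits Pretriangulated Category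

universe w v u

namespace Vale.Agent.P251.H

variable {C : Type u} [Category.{v} C] [Preadditive C] [HasZeroObject C] [HasShift C ℤ]
  [∀ n : ℤ, (shiftFunctor C n).Additive] [Pretriangulated C]

/-- `X ⟶ Y ⟶ Z ⟶ X⟦1⟧` is a distinguished triangle. -/
def Dist {X Y Z : C} (f : X ⟶ Y) (g : Y ⟶ Z) (h : Z ⟶ X⟦(1 : ℤ)⟧) : Prop :=
  Triangle.mk f g h ∈ distTriang C

lemma exists_cone {X Y : C} (f : X ⟶ Y) :
    ∃ (Z : C) (g : Y ⟶ Z) (h : Z ⟶ X⟦(1 : ℤ)⟧), Dist f g h :=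
  distinguished_cocone_triangle f

lemma exists_fibre {Y Z : C} (g : Y ⟶ Z) :
    ∃ (X : C) (f : X ⟶ Y) (h : Z ⟶ X⟦(1 : ℤ)⟧), Dist f g h :=
  distinguished_cocone_triangle₁ g

lemma exists_mid {X Z : C} (h : Z ⟶ X⟦(1 : ℤ)⟧) :
    ∃ (Y : C) (f : X ⟶ Y) (g : Y ⟶ Z), Dist f g h :=
  distinguished_cocone_triangle₂ h

namespace Dist

variable {X Y Z : C} {f : X ⟶ Y} {g : Y ⟶ Z} {h : Z ⟶ X⟦(1 : ℤ)⟧}

lemma zero₁₂ (D : Dist f g h) : f ≫ g = 0 := comp_distTriang_mor_zero₁₂ _ D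
lemma zero₂₃ (D : Dist f g h) : g ≫ h = 0 := comp_distTriang_mor_zero₂₃ _ D
lemma zero₃₁ (D : Dist f g h) : h ≫ f⟦(1 : ℤ)⟧' = 0 := comp_distTriang_mor_zero₃₁ _ D

lemma rot (D : Dist f g h) : Dist g h (-f⟦(1 : ℤ)⟧') := rot_of_distTriang _ D

/-- exactness of `Hom(-, A)` at `Y` -/
lemma desc₂ (D : Dist f g h) {A : C} (a : Y ⟶ A) (ha : f ≫ a = 0) : ∃ b : Z ⟶ A, g ≫ b = a := by
  obtain ⟨b, hb⟩ := Triangle.yoneda_exact₂ _ D a ha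
  exact ⟨b, hb.symm⟩

/-- exactness of `Hom(-, A)` at `Z` -/
lemma desc₃ (D : Dist f g h) {A : C} (a : Z ⟶ A) (ha : g ≫ a = 0) :
    ∃ b : X⟦(1 : ℤ)⟧ ⟶ A, h ≫ b = a := by
  obtain ⟨b, hb⟩ := Triangle.yoneda_exact₃ _ D a ha
  exact ⟨b, hb.symm⟩

/-- exactness of `Hom(-, A)` at `X⟦1⟧` -/
lemma desc₁ (D : Dist f g h) {A : C} (a : X⟦(1 : ℤ)⟧ ⟶ A) (ha : h ≫ a = 0) :
    ∃ b : Y⟦(1 : ℤ)⟧ ⟶ A, f⟦(1 : ℤ)⟧' ≫ b = a := by
  obtain ⟨b, hb⟩ := D.rot.desc₃ a ha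
  exact ⟨-b, by rw [← hb, Preadditive.comp_neg, Preadditive.neg_comp]⟩

/-- exactness of `Hom(A, -)` at `Y` -/
lemma lift₂ (D : Dist f g h) {A : C} (a : A ⟶ Y) (ha : a ≫ g = 0) : ∃ b : A ⟶ X, b ≫ f = a := by
  obtain ⟨b, hb⟩ := Triangle.coyoneda_exact₂ _ D a ha
  exact ⟨b, hb.symm⟩

/-- exactness of `Hom(A, -)` at `Z` -/
lemma lift₃ (D : Dist f g h) {A : C} (a : A ⟶ Z) (ha : a ≫ h = 0) : ∃ b : A ⟶ Y, b ≫ g = a := by
  obtain ⟨b, hb⟩ := Triangle.coyoneda_exact₃ _ D a ha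
  exact ⟨b, hb.symm⟩

/-- exactness of `Hom(A, -)` at `X⟦1⟧` -/
lemma lift₁ (D : Dist f g h) {A : C} (a : A ⟶ X⟦(1 : ℤ)⟧) (ha : a ≫ f⟦(1 : ℤ)⟧' = 0) :
    ∃ b : A ⟶ Z, b ≫ h = a := by
  obtain ⟨b, hb⟩ := Triangle.coyoneda_exact₁ _ D a ha
  exact ⟨b, hb.symm⟩

/-- morphisms of triangles: third component -/
lemma map₃ (D : Dist f g h) {X' Y' Z' : C} {f' : X' ⟶ Y'} {g' : Y' ⟶ Z'}
    {h' : Z' ⟶ X'⟦(1 : ℤ)⟧} (D' : Dist f' g' h') (a : X ⟶ X') (b : Y ⟶ Y')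
    (comm : f ≫ b = a ≫ f') : ∃ c : Z ⟶ Z', g ≫ c = b ≫ g' ∧ h ≫ a⟦(1 : ℤ)⟧' = c ≫ h' :=
  complete_distinguished_triangle_morphism _ _ D D' a b comm

/-- morphisms of triangles: first component -/
lemma map₁ (D : Dist f g h) {X' Y' Z' : C} {f' : X' ⟶ Y'} {g' : Y' ⟶ Z'}
    {h' : Z' ⟶ X'⟦(1 : ℤ)⟧} (D' : Dist f' g' h') (b : Y ⟶ Y') (c : Z ⟶ Z')
    (comm : g ≫ c = b ≫ g') : ∃ a : X ⟶ X', f ≫ b = a ≫ f' ∧ h ≫ a⟦(1 : ℤ)⟧' = c ≫ h' :=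
  complete_distinguished_triangle_morphism₁ _ _ D D' b c comm

/-- morphisms of triangles: second component -/
lemma map₂ (D : Dist f g h) {X' Y' Z' : C} {f' : X' ⟶ Y'} {g' : Y' ⟶ Z'}
    {h' : Z' ⟶ X'⟦(1 : ℤ)⟧} (D' : Dist f' g' h') (a : X ⟶ X') (c : Z ⟶ Z')
    (comm : h ≫ a⟦(1 : ℤ)⟧' = c ≫ h') : ∃ b : Y ⟶ Y', f ≫ b = a ≫ f' ∧ g ≫ c = b ≫ g' :=
  complete_distinguished_triangle_morphism₂ _ _ D D' a c comm

lemma iso₃ (D : Dist f g h) {Z' : C} {g' : Y ⟶ Z'}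
    {h' : Z' ⟶ X⟦(1 : ℤ)⟧} (D' : Dist f g' h') (c : Z ⟶ Z') (h₂ : g ≫ c = g')
    (h₃ : h = c ≫ h') : IsIso c := by
  let φ : Triangle.mk f g h ⟶ Triangle.mk f g' h' :=
    { hom₁ := 𝟙 X
      hom₂ := 𝟙 Y
      hom₃ := c
      comm₁ := by show f ≫ 𝟙 Y = 𝟙 X ≫ f; simp
      comm₂ := by show g ≫ c = 𝟙 Y ≫ g'; simp [h₂]
      comm₃ := by show h ≫ (𝟙 X)⟦(1 : ℤ)⟧' = c ≫ h'; simp [h₃] }
  exact isIso₃_of_isIso₁₂ φ D D' (inferInstanceAs (IsIso (𝟙 X))) (inferInstanceAs (IsIso (𝟙 Y)))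

lemma of_iso₃ (D : Dist f g h) {Z' : C} {g' : Y ⟶ Z'}
    {h' : Z' ⟶ X⟦(1 : ℤ)⟧} (c : Z' ⟶ Z) [IsIso c] (h₂ : g' ≫ c = g)
    (h₃ : h' = c ≫ h) : Dist f g' h' := by
  let e : Z' ≅ Z := asIso c
  refine isomorphic_distinguished _ D _ (Triangle.isoMk _ _ (Iso.refl X) (Iso.refl Y)
    e ?_ ?_ ?_)
  · show f ≫ 𝟙 Y = 𝟙 X ≫ f; simp
  · show g' ≫ c = 𝟙 Y ≫ g; simp [h₂]
  · show h' ≫ (𝟙 X)⟦(1 : ℤ)⟧' = c ≫ h; simp [h₃]

end Dist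

section shiftCoprod

variable {J : Type w} (X : J → C) [HasCoproduct X] (n : ℤ)

omit [Preadditive C] [HasZeroObject C] [∀ n : ℤ, (shiftFunctor C n).Additive]
  [Pretriangulated C] in
lemma shift_hom_ext {A : C} {f g : (∐ X)⟦n⟧ ⟶ A}
    (h : ∀ j, (Sigma.ι X j)⟦n⟧' ≫ f = (Sigma.ι X j)⟦n⟧' ≫ g) : f = g :=
  Cofan.IsColimit.hom_ext
    (isColimitOfHasCoproductOfPreservesColimit (shiftFunctor C n) X) _ _ h

omit [Preadditive C] [HasZeroObject C] [∀ n : ℤ, (shiftFunctor C n).Additive]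
  [Pretriangulated C] in
lemma exists_shift_desc {A : C} (k : ∀ j, (X j)⟦n⟧ ⟶ A) :
    ∃ f : (∐ X)⟦n⟧ ⟶ A, ∀ j, (Sigma.ι X j)⟦n⟧' ≫ f = k j :=
  ⟨Cofan.IsColimit.desc
    (isColimitOfHasCoproductOfPreservesColimit (shiftFunctor C n) X) k,
    fun j => Cofan.IsColimit.fac
      (isColimitOfHasCoproductOfPreservesColimit (shiftFunctor C n) X) k j⟩

end shiftCoprod

section coprodDist

variable {J : Type w} {X Y Z : J → C} [HasCoproduct X] [HasCoproduct Y] [HasCoproduct Z]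

/-- A coproduct of distinguished triangles is distinguished. -/
lemma Dist.coprod {f : ∀ j, X j ⟶ Y j} {g : ∀ j, Y j ⟶ Z j} {h : ∀ j, Z j ⟶ (X j)⟦(1 : ℤ)⟧}
    (D : ∀ j, Dist (f j) (g j) (h j)) :
    Dist (Limits.Sigma.map f) (Limits.Sigma.map g)
      (Sigma.desc fun j => h j ≫ (Sigma.ι X j)⟦(1 : ℤ)⟧') := by
  obtain ⟨W, f₂, f₃, D'⟩ := exists_cone (Limits.Sigma.map f)
  have hφ : ∀ j, ∃ c : Z j ⟶ W, g j ≫ c = Sigma.ι Y j ≫ f₂ ∧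
      h j ≫ (Sigma.ι X j)⟦(1 : ℤ)⟧' = c ≫ f₃ := fun j =>
    (D j).map₃ D' (Sigma.ι X j) (Sigma.ι Y j) (by simp)
  choose c hc₂ hc₃ using hφ
  let p : (∐ Z) ⟶ W := Sigma.desc c
  have hp : ∀ j, Sigma.ι Z j ≫ p = c j := fun j => by simp [p]
  have c₂ : Limits.Sigma.map g ≫ p = f₂ := by
    refine Limits.Sigma.hom_ext _ _ (fun j => ?_)
    rw [Sigma.ι_map_assoc, hp, hc₂]
  have c₃ : p ≫ f₃ = Sigma.desc fun j => h j ≫ (Sigma.ι X j)⟦(1 : ℤ)⟧' := by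
    refine Limits.Sigma.hom_ext _ _ (fun j => ?_)
    rw [← assoc, hp, ← hc₃]
    simp
  have z₁₂ : Limits.Sigma.map f ≫ Limits.Sigma.map g = 0 := by
    refine Limits.Sigma.hom_ext _ _ (fun j => ?_)
    rw [Sigma.ι_map_assoc, Sigma.ι_map, comp_zero, ← assoc, (D j).zero₁₂, zero_comp]
  have hiso : IsIso p := by
    refine isIso_of_coyoneda_map_bijective _ (fun A => ⟨?_, ?_⟩)
    · intro g₁ g₂ hg
      rw [← sub_eq_zero] at hg ⊢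
      dsimp at hg
      rw [← Preadditive.comp_sub] at hg
      set e := g₁ - g₂ with he
      have h2 : f₂ ≫ e = 0 := by rw [← c₂, assoc, hg, comp_zero]
      obtain ⟨k, hk⟩ := D'.desc₃ e h2
      have h3 : p ≫ f₃ ≫ k = 0 := by rw [hk, hg]
      have h4 : ∀ j, ∃ l : (Y j)⟦(1 : ℤ)⟧ ⟶ A,
          (f j)⟦(1 : ℤ)⟧' ≫ l = (Sigma.ι X j)⟦(1 : ℤ)⟧' ≫ k := by
        intro j
        apply (D j).desc₁
        rw [← assoc, hc₃, assoc, ← hp, assoc, h3, comp_zero]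
      choose l hl using h4
      obtain ⟨m, hm⟩ := exists_shift_desc Y 1 l
      have h5 : k = (Limits.Sigma.map f)⟦(1 : ℤ)⟧' ≫ m := by
        refine shift_hom_ext _ _ (fun j => ?_)
        rw [← hl, ← hm, ← assoc, ← assoc, ← Functor.map_comp, ← Functor.map_comp, Sigma.ι_map]
      rw [← hk, h5, ← assoc, D'.zero₃₁, zero_comp]
    · intro a
      obtain ⟨g', hg'⟩ := D'.desc₂ (Limits.Sigma.map g ≫ a) (by rw [← assoc, z₁₂, zero_comp])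
      have h6 : ∀ j, ∃ b : (X j)⟦(1 : ℤ)⟧ ⟶ A,
          h j ≫ b = Sigma.ι Z j ≫ (a - p ≫ g') := by
        intro j
        apply (D j).desc₃
        have : Limits.Sigma.map g ≫ (a - p ≫ g') = 0 := by
          rw [Preadditive.comp_sub, ← hg', ← c₂, assoc, sub_self]
        rw [← assoc, ← Sigma.ι_map, assoc, this, comp_zero]
      choose b hb using h6
      obtain ⟨m, hm⟩ := exists_shift_desc X 1 b
      refine ⟨g' + f₃ ≫ m, ?_⟩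
      dsimp
      have : a - p ≫ g' = p ≫ f₃ ≫ m := by
        refine Limits.Sigma.hom_ext _ _ (fun j => ?_)
        rw [← hb, ← hm, ← assoc, hc₃, ← assoc (Sigma.ι Z j), hp, assoc]
      rw [Preadditive.comp_add, ← this]
      abel
  exact D'.of_iso₃ p c₂ c₃.symm

end coprodDist

end Vale.Agent.P251.H
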