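import Vale.Agent.P251.H.PQ
import Mathlib.CategoryTheory.Limits.HasLimits
import Mathlib.CategoryTheory.Limits.Shapes.Products
import Mathlib.CategoryTheory.Limits.Shapes.ZeroObjects

/-!
# P251, part H: colimits of pointed quasi-topological spaces

* `Pt Q q₀`: the nonbase points of a pointed type, `Pt.equiv : OnePoint (Pt Q q₀) ≃ Q`.
* `HasColimitsOfSize.{0,0} PQ`; the plots of a colimit are generated by the plots of the terms
  (`isColimit_plot`), every point comes from a term (`isColimit_exists`).
* `HasZeroObject PQ`.
* coproducts: plots factor through finite coproducts.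
-/

open CategoryTheory MonoidalCategory Topology OnePoint Limits

namespace Vale.Agent.P251.H

namespace PQ

section Pt

/-- The nonbase points of a pointed type. -/
abbrev Pt (Q : Type) (q₀ : Q) : Type := {q : Q // q ≠ q₀}

open scoped Classical in
/-- A pointed type is the type of its nonbase points with a point added. -/
noncomputable def Pt.equiv (Q : Type) (q₀ : Q) : OnePoint (Pt Q q₀) ≃ Q where
  toFun x := x.elim q₀ (fun q => q.1)
  invFun q := if h : q = q₀ then ∞ else OnePoint.some (⟨q, h⟩ : Pt Q q₀)
  left_inv x := by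
    induction x using OnePoint.rec with
    | infty => exact dif_pos rfl
    | coe x => exact dif_neg x.2
  right_inv q := by
    by_cases h : q = q₀
    · subst h
      simp only [dite_true]
      rfl
    · simp only [dif_neg h]
      rfl

@[simp] theorem Pt.equiv_infty (Q : Type) (q₀ : Q) : Pt.equiv Q q₀ ∞ = q₀ := rfl

@[simp] theorem Pt.equiv_coe (Q : Type) (q₀ : Q) (q : Pt Q q₀) :
    Pt.equiv Q q₀ (q : OnePoint (Pt Q q₀)) = q.1 := rfl

@[simp] theorem Pt.equiv_symm_base (Q : Type) (q₀ : Q) : (Pt.equiv Q q₀).symm q₀ = ∞ := by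
  rw [Equiv.symm_apply_eq]; rfl

end Pt

section colim

variable {J : Type} [Category.{0} J] (F : J ⥤ PQ)

/-- points of the terms of a diagram, with one base point -/
@[reducible] def ColimPre : Type := OnePoint (Σ j, F.obj j)

/-- inclusion of the points of a term -/
def colimIn (j : J) (x : OnePoint (F.obj j)) : ColimPre F :=
  OnePoint.map (fun y => (⟨j, y⟩ : Σ j, F.obj j)) x

@[simp] theorem colimIn_infty (j : J) : colimIn F j ∞ = ∞ := rfl

/-- the generating relation -/
inductive ColimRel : ColimPre F → ColimPre F → Prop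
  | mk {i j : J} (f : i ⟶ j) (x : OnePoint (F.obj i)) :
      ColimRel (colimIn F i x) (colimIn F j (app (F.map f) x))

/-- the points of the colimit, including the base point -/
abbrev ColimPts : Type := Quot (ColimRel F)

/-- the base point of the colimit -/
def colimBase : ColimPts F := Quot.mk _ ∞

/-- the inclusion of a term, on points -/
noncomputable def colimι (j : J) (x : OnePoint (F.obj j)) :
    OnePoint (Pt (ColimPts F) (colimBase F)) :=
  (Pt.equiv _ _).symm (Quot.mk _ (colimIn F j x))

theorem colimι_infty (j : J) : colimι F j ∞ = ∞ := by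
  unfold colimι
  rw [colimIn_infty]
  exact Pt.equiv_symm_base _ _

theorem colimι_map {i j : J} (f : i ⟶ j) (x : OnePoint (F.obj i)) :
    colimι F j (app (F.map f) x) = colimι F i x := by
  unfold colimι
  congr 1
  exact (Quot.sound (ColimRel.mk f x)).symm

/-- the colimit -/
noncomputable def colimObj : PQ :=
  gen (Pt (ColimPts F) (colimBase F)) (fun K f => ∃ (j : J) (a : K → OnePoint (F.obj j)),
    (F.obj j).plot K a ∧ f = fun k => colimι F j (a k))

/-- the colimit cocone -/
noncomputable def colimCocone : Cocone F where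
  pt := colimObj F
  ι :=
    { app := fun j => ⟨colimι F j, colimι_infty F j,
        fun _ a ha => Gen.base _ ⟨j, a, ha, rfl⟩⟩
      naturality := fun i j f => by
        apply hom_ext; intro x
        exact colimι_map F f x }

/-- the descended function on points -/
def colimDescFun (s : Cocone F) : ColimPts F → OnePoint s.pt :=
  Quot.lift (fun p => p.elim ∞ (fun q => app (s.ι.app q.1) (q.2 : OnePoint (F.obj q.1)))) (by
    rintro _ _ ⟨f, x⟩
    have key : ∀ (j : J) (y : OnePoint (F.obj j)),
        (colimIn F j y).elim ∞ (fun q => app (s.ι.app q.1) (q.2 : OnePoint (F.obj q.1))) =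
          app (s.ι.app j) y := by
      intro j y
      induction y using OnePoint.rec with
      | infty => exact (app_infty _).symm
      | coe y => rfl
    rw [key, key, ← app_comp, s.w])

theorem colimDescFun_mk (s : Cocone F) (j : J) (y : OnePoint (F.obj j)) :
    colimDescFun F s (Quot.mk _ (colimIn F j y)) = app (s.ι.app j) y := by
  induction y using OnePoint.rec with
  | infty => exact (app_infty _).symm
  | coe y => rfl

/-- the universal property of the colimit -/
noncomputable def colimIsColimit : IsColimit (colimCocone F) where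
  desc s := genDesc (fun x => colimDescFun F s (Pt.equiv _ _ x)) rfl (by
    rintro K f ⟨j, a, ha, rfl⟩
    have : (fun k => colimDescFun F s (Pt.equiv _ _ (colimι F j (a k)))) =
        fun k => app (s.ι.app j) (a k) := by
      funext k
      rw [colimι, Equiv.apply_symm_apply, colimDescFun_mk]
    rw [this]
    exact app_plot _ ha)
  fac s j := by
    apply hom_ext; intro x
    change colimDescFun F s (Pt.equiv _ _ (colimι F j x)) = _
    rw [colimι, Equiv.apply_symm_apply, colimDescFun_mk]
  uniq s m h := by
    apply hom_ext'; intro x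
    obtain ⟨q, rfl⟩ := (Pt.equiv (ColimPts F) (colimBase F)).symm.surjective x
    change app m _ = colimDescFun F s (Pt.equiv _ _ ((Pt.equiv _ _).symm q))
    rw [Equiv.apply_symm_apply]
    induction q using Quot.ind with
    | mk p =>
      induction p using OnePoint.rec with
      | infty =>
        have : (Pt.equiv (ColimPts F) (colimBase F)).symm (Quot.mk _ ∞) = ∞ :=
          Pt.equiv_symm_base _ _
        rw [this]
        exact app_infty m
      | coe p =>
        obtain ⟨j, y⟩ := p
        have h1 := congrArg (fun φ => app φ (y : OnePoint (F.obj j))) (h j)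
        exact h1

end colim

instance : HasColimitsOfSize.{0, 0} PQ where
  has_colimits_of_shape _ _ :=
    { has_colimit := fun F => ⟨⟨{ cocone := colimCocone F, isColimit := colimIsColimit F }⟩⟩ }

section isColimit

variable {J : Type} [Category.{0} J] {F : J ⥤ PQ} {c : Cocone F}

/-- Every point of a colimit other than the base point comes from a term. -/
theorem isColimit_exists (hc : IsColimit c) (x : OnePoint c.pt) :
    x = ∞ ∨ ∃ (j : J) (y : OnePoint (F.obj j)), app (c.ι.app j) y = x := by
  let e := hc.coconePointUniqueUpToIso (colimIsColimit F)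
  have he : ∀ j, (colimCocone F).ι.app j ≫ e.inv = c.ι.app j := fun j =>
    hc.comp_coconePointUniqueUpToIso_inv (colimIsColimit F) j
  have hx : app e.inv (app e.hom x) = x := by
    rw [← app_comp, e.hom_inv_id, app_id]
  generalize app e.hom x = z at hx
  subst hx
  obtain ⟨q, rfl⟩ := (Pt.equiv (ColimPts F) (colimBase F)).symm.surjective z
  induction q using Quot.ind with
  | mk p =>
    induction p using OnePoint.rec with
    | infty =>
      left
      have : (Pt.equiv (ColimPts F) (colimBase F)).symm (Quot.mk _ ∞) = ∞ :=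
        Pt.equiv_symm_base _ _
      rw [this]
      exact app_infty e.inv
    | coe p =>
      right
      obtain ⟨j, y⟩ := p
      refine ⟨j, (y : OnePoint (F.obj j)), ?_⟩
      rw [← he j]
      rfl

/-- The plots of a colimit are generated by the plots of the terms. -/
theorem isColimit_plot (hc : IsColimit c) {K : CH} {f : K → OnePoint c.pt}
    (hf : c.pt.plot K f) :
    Gen (fun K f => ∃ (j : J) (a : K → OnePoint (F.obj j)), (F.obj j).plot K a ∧
      f = fun k => app (c.ι.app j) (a k)) K f := by
  let e := hc.coconePointUniqueUpToIso (colimIsColimit F)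
  have he : ∀ j, (colimCocone F).ι.app j ≫ e.inv = c.ι.app j := fun j =>
    hc.comp_coconePointUniqueUpToIso_inv (colimIsColimit F) j
  have hx : f = fun k => app e.inv (app e.hom (f k)) := by
    funext k
    rw [← app_comp, e.hom_inv_id, app_id]
  rw [hx]
  have h1 : Gen (fun K f => ∃ (j : J) (a : K → OnePoint (F.obj j)),
      (F.obj j).plot K a ∧ f = fun k => colimι F j (a k)) K (fun k => app e.hom (f k)) :=
    app_plot e.hom hf
  let φ : OnePoint (Pt (ColimPts F) (colimBase F)) → OnePoint c.pt := Hom.toFun e.inv
  have h2 : ∀ (K : CH) (f : K → OnePoint (Pt (ColimPts F) (colimBase F))),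
      (∃ (j : J) (a : K → OnePoint (F.obj j)), (F.obj j).plot K a ∧
        f = fun k => colimι F j (a k)) →
      Gen (fun K f => ∃ (j : J) (a : K → OnePoint (F.obj j)), (F.obj j).plot K a ∧
        f = fun k => app (c.ι.app j) (a k)) K (fun k => φ (f k)) := by
    rintro K f ⟨j, a, ha, rfl⟩
    refine Gen.base _ ⟨j, a, ha, ?_⟩
    funext k
    rw [← he j]
    rfl
  exact gen_plot_map (X := Pt (ColimPts F) (colimBase F))
    (G := fun K f => ∃ (j : J) (a : K → OnePoint (F.obj j)),
      (F.obj j).plot K a ∧ f = fun k => colimι F j (a k))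
    (Y := gen c.pt (fun K f => ∃ (j : J) (a : K → OnePoint (F.obj j)),
      (F.obj j).plot K a ∧ f = fun k => app (c.ι.app j) (a k))) φ h2 h1

/-- A function on points out of a colimit preserves plots if it does on all terms. -/
theorem isColimit_plot_map (hc : IsColimit c) {Y : PQ} (φ : OnePoint c.pt → OnePoint Y)
    (h : ∀ (K : CH) (j : J) (a : K → OnePoint (F.obj j)), (F.obj j).plot K a →
      Y.plot K (fun k => φ (app (c.ι.app j) (a k))))
    {K : CH} {f : K → OnePoint c.pt} (hf : c.pt.plot K f) : Y.plot K (fun k => φ (f k)) :=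
  gen_plot_map φ (by rintro K f ⟨j, a, ha, rfl⟩; exact h K j a ha) (isColimit_plot hc hf)

/-- Two-variable version of `isColimit_plot_map`. -/
theorem isColimit_plot_prod (hc : IsColimit c) {Y : PQ} (L : CH)
    (φ : OnePoint c.pt → L → OnePoint Y) (h0 : Y.plot L (φ ∞))
    (h : ∀ (K : CH) (j : J) (a : K → OnePoint (F.obj j)), (F.obj j).plot K a →
      Y.plot (CH.prod K L) (fun p => φ (app (c.ι.app j) (a p.1)) p.2))
    {K : CH} {f : K → OnePoint c.pt} (hf : c.pt.plot K f) :
    Y.plot (CH.prod K L) (fun p => φ (f p.1) p.2) :=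
  gen_prod_left L φ (fun x => by
    rcases isColimit_exists hc x with rfl | ⟨j, y, rfl⟩
    · exact h0
    · have := h (CH.of Unit) j (fun _ => y) ((F.obj j).plot_const _ y)
      exact Y.plot_comp (K := CH.prod (CH.of Unit) L) (L := L) (fun l => ((), l)) _
        (by fun_prop) this)
    (by rintro K f ⟨j, a, ha, rfl⟩; exact h K j a ha) (isColimit_plot hc hf)

end isColimit

section coprod

variable {ι : Type} {X : Discrete ι ⥤ PQ} {c : Cocone X}

/-- A plot of a coproduct lies in a finite subcoproduct: it is fixed by every endomorphism which is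
the identity on finitely many (suitable) summands. -/
theorem coproduct_plot_finite (hc : IsColimit c) {K : CH} {f : K → OnePoint c.pt}
    (hf : c.pt.plot K f) :
    ∃ s : Finset ι, ∀ e : c.pt ⟶ c.pt, (∀ i ∈ s, c.ι.app ⟨i⟩ ≫ e = c.ι.app ⟨i⟩) →
      ∀ k, app e (f k) = f k := by
  classical
  have key := isColimit_plot hc hf
  clear hf
  induction key with
  | base f hf =>
    obtain ⟨j, a, -, rfl⟩ := hf
    refine ⟨{j.as}, fun e he k => ?_⟩
    rw [← app_comp]
    exact congrArg (fun φ => app φ (a k)) (he j.as (Finset.mem_singleton_self _))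
  | const K x =>
    rcases isColimit_exists hc x with rfl | ⟨j, y, rfl⟩
    · exact ⟨∅, fun e _ _ => app_infty e⟩
    · refine ⟨{j.as}, fun e he k => ?_⟩
      rw [← app_comp]
      exact congrArg (fun φ => app φ y) (he j.as (Finset.mem_singleton_self _))
  | comp g f _ _ ih =>
    obtain ⟨s, hs⟩ := ih
    exact ⟨s, fun e he k => hs e he (g k)⟩
  | sum f _ _ ih1 ih2 =>
    obtain ⟨s, hs⟩ := ih1
    obtain ⟨t, ht⟩ := ih2
    refine ⟨s ∪ t, fun e he k => ?_⟩
    rcases k with k | k
    · exact hs e (fun i hi => he i (Finset.mem_union_left _ hi)) k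
    · exact ht e (fun i hi => he i (Finset.mem_union_right _ hi)) k
  | surj g f _ hg _ ih =>
    obtain ⟨s, hs⟩ := ih
    refine ⟨s, fun e he k => ?_⟩
    obtain ⟨l, rfl⟩ := hg k
    exact hs e he l

/-- Finite factorization of plots of `∐ X`, in terms of the projection onto a finite
subcoproduct. -/
theorem sigma_plot_finite {ι : Type} [DecidableEq ι] (X : ι → PQ) {K : CH}
    {f : K → OnePoint (∐ X : PQ)} (hf : (∐ X : PQ).plot K f) :
    ∃ s : Finset ι, ∀ k,
      app (Sigma.desc (fun i : s => Sigma.ι X i))
        (app (Sigma.desc (fun i => if h : i ∈ s then Sigma.ι (fun i : s => X i) ⟨i, h⟩ else 0))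
          (f k)) = f k := by
  obtain ⟨s, hs⟩ := coproduct_plot_finite (coproductIsCoproduct X) hf
  refine ⟨s, fun k => ?_⟩
  rw [← app_comp]
  refine hs _ (fun i hi => ?_) k
  change Sigma.ι X i ≫ _ ≫ _ = Sigma.ι X i
  rw [Sigma.ι_desc_assoc, dif_pos hi, Sigma.ι_desc]

end coprod

section zero

/-- the zero object -/
abbrev zeroObj : PQ := gen Empty (fun _ _ => False)

theorem isZero_of_isEmpty (X : PQ) (h : IsEmpty X) : IsZero X := by
  rw [IsZero.iff_id_eq_zero]
  apply hom_ext
  intro x
  exact h.elim x

theorem isZero_zeroObj : IsZero zeroObj := isZero_of_isEmpty _ ⟨fun x : Empty => x.elim⟩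

instance : HasZeroObject PQ := ⟨⟨_, isZero_zeroObj⟩⟩

end zero

end PQ

end Vale.Agent.P251.H
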