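import Vale.Agent.P251.G.Homotopy
import Mathlib.CategoryTheory.Monoidal.Closed.Basic
import Mathlib.CategoryTheory.Monoidal.Braided.Basic
import Mathlib.CategoryTheory.Limits.HasLimits
import Mathlib.CategoryTheory.Limits.Shapes.Products
import Mathlib.CategoryTheory.Limits.Shapes.ZeroObjects

/-!
# P251, part H: the interface between the base category and the homotopy theory

`StabInput M`: a cocomplete closed symmetric monoidal category `M` with zero morphisms, together
with a fully faithful braided monoidal functor `j : LC ⥤ M` (spaces) which preserves the zero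
object and pushouts along injective maps, and a formal desuspension `L` of the unit with
`lam : L ⊗ S ⟶ 𝟙` (`S = j ℝ` the circle) such that

* `ev_bij`: `j (ℝ × K)` is the internal hom from `L` to `j K`;
* `rot`: the two maps `lam ▷ U`, `U ◁ lam : U ⊗ U ⟶ U` (`U = L ⊗ S`) are homotopic;
* `fin`: maps from `L^{⊗ n} ⊗ j K` to a coproduct factor through a finite coproduct.

FROZEN FILE.
-/

open CategoryTheory MonoidalCategory Limits

namespace Vale.Agent.P251.H

open Vale.Agent.P251.G Vale.Agent.P251.G.LC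

universe v u

/-- Tensor powers `X ⊗ (X ⊗ (⋯ ⊗ 𝟙))`. -/
def tpow {M : Type u} [Category.{v} M] [MonoidalCategory M] (X : M) : ℕ → M
  | 0 => 𝟙_ M
  | n + 1 => X ⊗ tpow X n

/-- Every map from `K` to a coproduct factors through a finite subcoproduct. -/
def FinFactor {M : Type u} [Category.{v} M] [HasCoproducts.{0} M] (K : M) : Prop :=
  ∀ {ι : Type} (X : ι → M) (f : K ⟶ ∐ X),
    ∃ (s : Finset ι) (g : K ⟶ ∐ (fun i : s => X i)), g ≫ Sigma.desc (fun i : s => Sigma.ι X i) = f

section

variable {M : Type u} [Category.{v} M] [MonoidalCategory M] [SymmetricCategory M]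

/-- the inclusion `X ⟶ X ⊗ j [0,1]` at time `t` -/
def jincl (j : LC ⥤ M) [j.Monoidal] (t : unitInterval) (X : M) : X ⟶ X ⊗ j.obj II :=
  (ρ_ X).inv ≫ X ◁ (Functor.LaxMonoidal.ε j ≫ j.map (point (X := II) t))

/-- homotopy of morphisms of `M` with respect to the interval `j [0,1]` -/
def JHomotopic (j : LC ⥤ M) [j.Monoidal] {X Y : M} (f g : X ⟶ Y) : Prop :=
  ∃ H : X ⊗ j.obj II ⟶ Y, jincl j 0 X ≫ H = f ∧ jincl j 1 X ≫ H = g

/-- the evaluation `L ⊗ j (ℝ ⊗ K) ⟶ j K` induced by `lam : L ⊗ j ℝ ⟶ 𝟙` -/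
def jev (j : LC ⥤ M) [j.Monoidal] (L : M) (lam : L ⊗ j.obj RR ⟶ 𝟙_ M) (K : LC) :
    L ⊗ j.obj (RR ⊗ K) ⟶ j.obj K :=
  L ◁ Functor.OplaxMonoidal.δ j RR K ≫ (α_ L (j.obj RR) (j.obj K)).inv ≫
    lam ▷ j.obj K ≫ (λ_ (j.obj K)).hom

end

/-- The input of the construction of the stable homotopy category. -/
class StabInput (M : Type u) [Category.{v} M] [MonoidalCategory M] [SymmetricCategory M]
    [MonoidalClosed M] [HasZeroMorphisms M] [HasColimitsOfSize.{0, 0} M] where
  /-- the spaces -/
  j : LC ⥤ M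
  /-- `j` is a braided (strong) monoidal functor -/
  braided : j.Braided
  full : j.Full
  faithful : j.Faithful
  /-- the empty space (with one-point compactification a point) is the zero object -/
  isZero_empty : IsZero (j.obj (LC.of Empty))
  /-- `j` preserves pushouts along injective maps (of one-point compactifications) -/
  pushout {A B C D : LC} (i : A ⟶ B) (f : A ⟶ C) (g : B ⟶ D) (k : C ⟶ D)
    (hi : Function.Injective (app i)) (h : IsPushout i f g k) :
    IsPushout (j.map i) (j.map f) (j.map g) (j.map k)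
  /-- the formal desuspension of the unit -/
  L : M
  /-- the structure map `L ⊗ S¹ ⟶ 𝟙` -/
  lam : L ⊗ j.obj RR ⟶ 𝟙_ M
  /-- `j (ℝ ⊗ K)` is the internal hom from `L` to `j K` -/
  ev_bij (X : M) (K : LC) :
    Function.Bijective (fun x : X ⟶ j.obj (RR ⊗ K) => L ◁ x ≫ jev j L lam K)
  /-- the rotation homotopy -/
  rot : JHomotopic j (lam ▷ (L ⊗ j.obj RR) ≫ (λ_ (L ⊗ j.obj RR)).hom)
    ((L ⊗ j.obj RR) ◁ lam ≫ (ρ_ (L ⊗ j.obj RR)).hom)
  /-- compactness -/
  fin (n : ℕ) (K : LC) : FinFactor (tpow L n ⊗ j.obj K)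

attribute [instance] StabInput.braided StabInput.full StabInput.faithful

namespace StabInput

variable (M : Type u) [Category.{v} M] [MonoidalCategory M] [SymmetricCategory M]
    [MonoidalClosed M] [HasZeroMorphisms M] [HasColimitsOfSize.{0, 0} M] [StabInput M]

/-- the functor from spaces -/
abbrev J : LC ⥤ M := StabInput.j

/-- the interval -/
abbrev I : M := (J M).obj II

/-- the circle `S¹ = ℝ ∪ {∞}` -/
abbrev S : M := (J M).obj RR

/-- the pointed interval `[0, ∞]` with base point `∞` (the cone on a point) -/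
abbrev CI : M := (J M).obj HH

/-- `U = L ⊗ S¹` -/
abbrev U : M := (L : M) ⊗ S M

/-- the structure map `U ⟶ 𝟙` -/
abbrev lamU : U M ⟶ 𝟙_ M := lam

variable {M}

instance : HasZeroObject M := ⟨⟨_, isZero_empty⟩⟩

/-- the inclusion at time `t` into the cylinder `X ⊗ I` -/
abbrev inc (t : unitInterval) (X : M) : X ⟶ X ⊗ I M := jincl (J M) t X

/-- homotopy of morphisms in `M` -/
abbrev MHtpy {X Y : M} (f g : X ⟶ Y) : Prop := JHomotopic (J M) f g

/-- the cells `L^{⊗ n} ⊗ K` -/
abbrev cell (n : ℕ) (K : LC) : M := tpow (L : M) n ⊗ (J M).obj K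

end StabInput

end Vale.Agent.P251.H
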