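import Vale.Agent.P251.G.LC
import Mathlib.Topology.Separation.Hausdorff
import Mathlib.Topology.Compactness.Compact

/-!
# P251, part H (block P2): covers of compact Hausdorff spaces

Topological input for the comparison `LC ⥤ PQ`: continuity is local for finite jointly surjective
families of compact spaces, maps into a smash product lift locally to the product, and the
set-theoretic content of pushouts along closed embeddings in `LC`.
-/

open CategoryTheory MonoidalCategory Filter Topology OnePoint

namespace Vale.Agent.P251.H

open Vale.Agent.P251.G

section cover

/-- A finite jointly surjective family of compact spaces is a quotient map. -/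
theorem isQuotientMap_sigma {K : Type} [TopologicalSpace K] [T2Space K] {ι : Type} [Finite ι]
    {L : ι → Type} [∀ i, TopologicalSpace (L i)] [∀ i, CompactSpace (L i)] (g : ∀ i, L i → K)
    (hg : ∀ i, Continuous (g i)) (hs : ∀ k, ∃ i l, g i l = k) :
    IsQuotientMap (fun p : Σ i, L i => g p.1 p.2) :=
  IsQuotientMap.of_surjective_continuous (fun k => by
    obtain ⟨i, l, h⟩ := hs k
    exact ⟨⟨i, l⟩, h⟩) (continuous_sigma hg)

/-- Continuity is local for finite jointly surjective families of compact spaces. -/
theorem continuous_of_cover {K Y : Type} [TopologicalSpace K] [T2Space K] [TopologicalSpace Y]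
    {ι : Type} [Finite ι] {L : ι → Type} [∀ i, TopologicalSpace (L i)] [∀ i, CompactSpace (L i)]
    (g : ∀ i, L i → K) (hg : ∀ i, Continuous (g i)) (hs : ∀ k, ∃ i l, g i l = k) (f : K → Y)
    (hf : ∀ i, Continuous (f ∘ g i)) : Continuous f := by
  rw [(isQuotientMap_sigma g hg hs).continuous_iff]
  exact continuous_sigma hf

/-- Continuity is local for surjections of compact spaces. -/
theorem continuous_of_surj {K Y L : Type} [TopologicalSpace K] [T2Space K] [TopologicalSpace Y]
    [TopologicalSpace L] [CompactSpace L] (g : L → K) (hg : Continuous g)
    (hs : Function.Surjective g) (f : K → Y) (hf : Continuous (f ∘ g)) : Continuous f := by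
  rw [(IsQuotientMap.of_surjective_continuous hs hg).continuous_iff]
  exact hf

end cover

section pullback

/-- The fibre product of two maps. -/
def FibProd {K L Z : Type} (f : K → Z) (g : L → Z) : Type := {p : K × L // f p.1 = g p.2}

namespace FibProd

variable {K L Z : Type} [TopologicalSpace K] [TopologicalSpace L] [TopologicalSpace Z]
  (f : K → Z) (g : L → Z)

instance : TopologicalSpace (FibProd f g) := instTopologicalSpaceSubtype

instance [T2Space K] [T2Space L] : T2Space (FibProd f g) :=
  inferInstanceAs (T2Space {p : K × L // f p.1 = g p.2})

theorem compactSpace [CompactSpace K] [CompactSpace L] [T2Space Z] (hf : Continuous f)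
    (hg : Continuous g) : CompactSpace (FibProd f g) :=
  isCompact_iff_compactSpace.mp
    (isClosed_eq (hf.comp continuous_fst) (hg.comp continuous_snd)).isCompact

/-- the first projection -/
def fst : FibProd f g → K := fun p => p.1.1

/-- the second projection -/
def snd : FibProd f g → L := fun p => p.1.2

omit [TopologicalSpace Z] in
theorem continuous_fst : Continuous (fst f g) :=
  _root_.continuous_fst.comp continuous_subtype_val

omit [TopologicalSpace Z] in
theorem continuous_snd : Continuous (snd f g) :=
  _root_.continuous_snd.comp continuous_subtype_val

omit [TopologicalSpace K] [TopologicalSpace L] [TopologicalSpace Z] in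
theorem condition (p : FibProd f g) : f (fst f g p) = g (snd f g p) := p.2

omit [TopologicalSpace K] [TopologicalSpace L] [TopologicalSpace Z] in
theorem surjective_fst (h : ∀ k, ∃ l, f k = g l) : Function.Surjective (fst f g) := by
  intro k
  obtain ⟨l, hl⟩ := h k
  exact ⟨⟨(k, l), hl⟩, rfl⟩

end FibProd

end pullback

section smash

variable {X Y : Type} [TopologicalSpace X] [TopologicalSpace Y] [LocallyCompactSpace X]
  [LocallyCompactSpace Y] [T2Space X] [T2Space Y]

omit [TopologicalSpace X] [TopologicalSpace Y] [LocallyCompactSpace X]
  [LocallyCompactSpace Y] [T2Space X] [T2Space Y] in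
theorem smash_surjective (z : OnePoint (X × Y)) :
    ∃ p : OnePoint X × OnePoint Y, z = LC.smash p.1 p.2 := by
  induction z using OnePoint.rec with
  | infty => exact ⟨(∞, ∞), rfl⟩
  | coe p => exact ⟨((p.1 : OnePoint X), (p.2 : OnePoint Y)), rfl⟩

/-- Every continuous map from a compact Hausdorff space to the smash product of two one-point
compactifications lifts to the product after pulling back along a surjection of compact Hausdorff
spaces. -/
theorem exists_smash_lift {K : Type} [TopologicalSpace K] [CompactSpace K] [T2Space K]
    (h : K → OnePoint (X × Y)) (hh : Continuous h) :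
    ∃ (L : Type) (_ : TopologicalSpace L) (_ : CompactSpace L) (_ : T2Space L) (g : L → K)
      (a : L → OnePoint X) (b : L → OnePoint Y), Continuous g ∧ Function.Surjective g ∧
        Continuous a ∧ Continuous b ∧ ∀ l, h (g l) = LC.smash (a l) (b l) := by
  let m : OnePoint X × OnePoint Y → OnePoint (X × Y) := fun p => LC.smash p.1 p.2
  have hm : Continuous m := LC.continuous_smash
  refine ⟨FibProd h m, inferInstance, FibProd.compactSpace h m hh hm, inferInstance,
    FibProd.fst h m, fun p => (FibProd.snd h m p).1, fun p => (FibProd.snd h m p).2,
    FibProd.continuous_fst h m, FibProd.surjective_fst h m (fun k => smash_surjective (h k)),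
    continuous_fst.comp (FibProd.continuous_snd h m),
    continuous_snd.comp (FibProd.continuous_snd h m), fun p => p.2⟩

end smash

end Vale.Agent.P251.H
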