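import Vale.Agent.P251.H.PQ
import Vale.Agent.P251.H.PQTop
import Mathlib.CategoryTheory.Monoidal.Functor
import Mathlib.CategoryTheory.Limits.Shapes.Pullback.IsPullback.Basic
import Mathlib.CategoryTheory.Limits.Shapes.ZeroObjects

/-!
# P251, part H (block P2): the functor `LC ⥤ PQ`

`LCPQ : LC ⥤ PQ` sends a locally compact Hausdorff space `X` to the quasi-topological space with
plots the continuous maps into `OnePoint X`.  It is fully faithful, braided strong monoidal
(strictly so on underlying types), and sends pushouts along closed embeddings to pushouts.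
-/

open CategoryTheory MonoidalCategory Topology OnePoint Limits

namespace Vale.Agent.P251.H

open Vale.Agent.P251.G (LC)
open Vale.Agent.P251.G.LC (smash smash_coe_coe smash_infty_left smash_infty_right)

namespace PQ

/-- The functor `LC ⥤ PQ`. -/
def LCPQ : LC ⥤ PQ where
  obj X := ofLC X
  map f := ⟨LC.app f, LC.app_infty f, fun _ _ h => (LC.continuous_app f).comp h⟩

@[simp] theorem LCPQ_obj (X : LC) : LCPQ.obj X = ofLC X := rfl

@[simp] theorem app_LCPQ_map {X Y : LC} (f : X ⟶ Y) (x : OnePoint X) :
    app (LCPQ.map f) x = LC.app f x := rfl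

theorem plot_ofLC (X : LC) {K : CH} (f : K → OnePoint X) : (ofLC X).plot K f ↔ Continuous f :=
  Iff.rfl

theorem plot_LCPQ (X : LC) {K : CH} (f : K → OnePoint X) :
    (LCPQ.obj X).plot K f ↔ Continuous f := Iff.rfl

/-- A morphism between spaces in `PQ` is continuous. -/
theorem continuous_app_ofLC {X Y : LC} (f : LCPQ.obj X ⟶ LCPQ.obj Y) :
    @Continuous (OnePoint X) (OnePoint Y) _ _ (app f) :=
  app_plot f (K := CH.of (OnePoint X)) (a := fun x => x) continuous_id

/-- the inverse of `LCPQ.map` -/
def preLC {X Y : LC} (f : LCPQ.obj X ⟶ LCPQ.obj Y) : X ⟶ Y :=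
  LC.Hom.mk ⟨app f, continuous_app_ofLC f⟩ (app_infty f)

theorem app_preLC {X Y : LC} (f : LCPQ.obj X ⟶ LCPQ.obj Y) (x : OnePoint X) :
    LC.app (preLC f) x = app f x := rfl

/-- `LC ⥤ PQ` is fully faithful. -/
def fullyFaithfulLCPQ : LCPQ.FullyFaithful where
  preimage f := preLC f
  map_preimage _ := rfl
  preimage_map _ := rfl

instance : LCPQ.Full := fullyFaithfulLCPQ.full

instance : LCPQ.Faithful := fullyFaithfulLCPQ.faithful

instance : LCPQ.PreservesZeroMorphisms where
  map_zero _ _ := rfl

section monoidal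

/-- plots of a smash product of spaces are continuous -/
theorem continuous_of_tensor_plot {X Y : LC} {K : CH} {f : K → OnePoint (X × Y)}
    (hf : (tensor (ofLC X) (ofLC Y)).plot K f) :
    @Continuous K (OnePoint (X × Y)) _ _ f :=
  gen_plot_map (X := X × Y) (Y := ofLC (LC.of (X × Y))) (fun p => p) (by
    rintro K f ⟨a, b, ha, hb, rfl⟩
    exact LC.continuous_smash.comp (Continuous.prodMk ha hb)) hf

/-- continuous maps are plots of a smash product of spaces -/
theorem tensor_plot_of_continuous {X Y : LC} {K : CH} {f : K → OnePoint (X × Y)}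
    (hf : @Continuous K (OnePoint (X × Y)) _ _ f) :
    (tensor (ofLC X) (ofLC Y)).plot K f := by
  obtain ⟨L, _, _, _, g, a, b, hg, hs, ha, hb, h⟩ := exists_smash_lift f hf
  refine (tensor (ofLC X) (ofLC Y)).plot_surj (L := CH.of L) g f hg hs ?_
  have : (fun l => f (g l)) = fun l => smash (a l) (b l) := funext h
  rw [this]
  exact tensor_plot (ofLC X) (ofLC Y) (K := CH.of L) ha hb

theorem tensor_plot_iff {X Y : LC} {K : CH} {f : K → OnePoint (X × Y)} :
    (tensor (ofLC X) (ofLC Y)).plot K f ↔ @Continuous K (OnePoint (X × Y)) _ _ f :=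
  ⟨continuous_of_tensor_plot, tensor_plot_of_continuous⟩

/-- The tensorator of `LC ⥤ PQ`: the identity of `X × Y`. -/
def μLC (X Y : LC) : LCPQ.obj X ⊗ LCPQ.obj Y ≅ LCPQ.obj (X ⊗ Y) where
  hom := ⟨fun x => x, rfl, fun _ _ h => continuous_of_tensor_plot h⟩
  inv := ⟨fun x => x, rfl, fun _ _ h => tensor_plot_of_continuous h⟩
  hom_inv_id := rfl
  inv_hom_id := rfl

@[simp] theorem app_μLC_hom (X Y : LC) (x : OnePoint (X × Y)) :
    app (μLC X Y).hom x = x := rfl

@[simp] theorem app_μLC_inv (X Y : LC) (x : OnePoint (X × Y)) :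
    app (μLC X Y).inv x = x := rfl

/-- The unit comparison of `LC ⥤ PQ`: the identity of `Unit`. -/
def εLC : 𝟙_ PQ ≅ LCPQ.obj (𝟙_ LC) where
  hom := ⟨fun x => x, rfl, fun _ _ h => h⟩
  inv := ⟨fun x => x, rfl, fun _ _ h => h⟩
  hom_inv_id := rfl
  inv_hom_id := rfl

@[simp] theorem app_εLC_hom (x : OnePoint Unit) : app εLC.hom x = x := rfl

@[simp] theorem app_εLC_inv (x : OnePoint Unit) : app εLC.inv x = x := rfl

/-- `LC ⥤ PQ` as a monoidal functor (data) -/
def coreLCPQ : LCPQ.CoreMonoidal where
  εIso := εLC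
  μIso := μLC
  μIso_hom_natural_left {X Y} f X' := by
    apply hom_ext₂; intro x y
    rw [app_comp, app_comp, app_whiskerRight_smash]
    exact (LC.app_whiskerRight_smash f X' x y).symm
  μIso_hom_natural_right {X Y} X' f := by
    apply hom_ext₂; intro x y
    rw [app_comp, app_comp, app_whiskerLeft_smash]
    exact (LC.app_whiskerLeft_smash X' f x y).symm
  associativity X Y Z := by
    apply hom_ext₃; intro x y z
    simp only [app_comp]
    rw [app_associator_smash, app_whiskerLeft_smash, app_whiskerRight_smash]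
    exact LC.app_associator_smash X Y Z x y z
  left_unitality X := by
    apply tensor_ext; rintro ⟨⟩ x
    simp only [app_comp]
    rw [app_whiskerRight_smash]
    exact (app_leftUnitor_smash (LCPQ.obj X) (OnePoint.some x)).trans
      (LC.app_leftUnitor_smash X (OnePoint.some x)).symm
  right_unitality X := by
    apply tensor_ext; rintro x ⟨⟩
    simp only [app_comp]
    rw [app_whiskerLeft_smash]
    exact (app_rightUnitor_smash (LCPQ.obj X) (OnePoint.some x)).trans
      (LC.app_rightUnitor_smash X (OnePoint.some x)).symm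

instance : LCPQ.Monoidal := coreLCPQ.toMonoidal

theorem LCPQ_μ (X Y : LC) : Functor.LaxMonoidal.μ LCPQ X Y = (μLC X Y).hom := rfl

theorem LCPQ_ε : Functor.LaxMonoidal.ε LCPQ = εLC.hom := rfl

theorem LCPQ_δ (X Y : LC) : Functor.OplaxMonoidal.δ LCPQ X Y = (μLC X Y).inv := rfl

theorem LCPQ_η : Functor.OplaxMonoidal.η LCPQ = εLC.inv := rfl

@[simp] theorem app_LCPQ_μ (X Y : LC) (x : OnePoint (X × Y)) :
    app (Functor.LaxMonoidal.μ LCPQ X Y) x = x := rfl

@[simp] theorem app_LCPQ_δ (X Y : LC) (x : OnePoint (X × Y)) :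
    app (Functor.OplaxMonoidal.δ LCPQ X Y) x = x := rfl

@[simp] theorem app_LCPQ_ε (x : OnePoint Unit) :
    app (Functor.LaxMonoidal.ε LCPQ) x = x := rfl

@[simp] theorem app_LCPQ_η (x : OnePoint Unit) :
    app (Functor.OplaxMonoidal.η LCPQ) x = x := rfl

instance : LCPQ.Braided where
  braided X Y := by
    apply hom_ext₂; intro x y
    simp only [app_comp]
    exact (LC.app_braiding_smash X Y x y).trans (app_braiding_smash _ _ x y).symm

end monoidal

section pushout

variable {A B C D : LC} {i : A ⟶ B} {f : A ⟶ C} {g : B ⟶ D} {j : C ⟶ D}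

/-- The function underlying the map out of a pushout. -/
noncomputable def glueFun {Z : Type} (g : B ⟶ D) (j : C ⟶ D) (u : OnePoint B → OnePoint Z)
    (v : OnePoint C → OnePoint Z) (d : OnePoint D) : OnePoint Z := by
  classical
  exact if h : ∃ c, LC.app j c = d then v h.choose
    else if h' : ∃ b, LC.app g b = d then u h'.choose else ∞

theorem glueFun_right {Z : Type} {u : OnePoint B → OnePoint Z} {v : OnePoint C → OnePoint Z}
    (hj : Function.Injective (LC.app j)) (c : OnePoint C) :
    glueFun g j u v (LC.app j c) = v c := by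
  unfold glueFun
  have h : ∃ c', LC.app j c' = LC.app j c := ⟨c, rfl⟩
  rw [dif_pos h, hj h.choose_spec]

theorem glueFun_left {Z : Type} {u : OnePoint B → OnePoint Z} {v : OnePoint C → OnePoint Z}
    (hj : Function.Injective (LC.app j))
    (sq : ∀ a, LC.app g (LC.app i a) = LC.app j (LC.app f a))
    (huv : ∀ a, u (LC.app i a) = v (LC.app f a))
    (hg : ∀ b c, LC.app g b = LC.app j c → ∃ a, LC.app i a = b)
    (hg' : ∀ b b', LC.app g b = LC.app g b' → b = b' ∨ ∃ a, LC.app i a = b)
    (b : OnePoint B) :
    glueFun g j u v (LC.app g b) = u b := by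
  unfold glueFun
  by_cases h : ∃ c, LC.app j c = LC.app g b
  · rw [dif_pos h]
    obtain ⟨a, rfl⟩ := hg b h.choose h.choose_spec.symm
    rw [huv]
    congr 1
    apply hj
    rw [h.choose_spec, sq]
  · rw [dif_neg h]
    have h' : ∃ b', LC.app g b' = LC.app g b := ⟨b, rfl⟩
    rw [dif_pos h']
    rcases hg' _ _ h'.choose_spec with e | ⟨a, e⟩
    · rw [e]
    · exfalso
      apply h
      refine ⟨LC.app f a, ?_⟩
      rw [← sq, e, h'.choose_spec]

/-- Plots of a space covered by two spaces. -/
theorem plot_of_cover (Z : PQ) (w : OnePoint D → OnePoint Z)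
    (hs : ∀ d, (∃ b, LC.app g b = d) ∨ ∃ c, LC.app j c = d)
    (hu : Z.plot (CH.of (OnePoint B)) (fun b => w (LC.app g b)))
    (hv : Z.plot (CH.of (OnePoint C)) (fun c => w (LC.app j c)))
    {K : CH} {a : K → OnePoint D} (ha : Continuous a) : Z.plot K (fun k => w (a k)) := by
  have c1 := FibProd.compactSpace a (LC.app g) ha (LC.continuous_app g)
  have c2 := FibProd.compactSpace a (LC.app j) ha (LC.continuous_app j)
  refine Z.plot_cover (K := CH.of (FibProd a (LC.app g))) (L := CH.of (FibProd a (LC.app j)))
    (M := K) (fun k => w (a k)) (FibProd.fst a (LC.app g)) (FibProd.fst a (LC.app j))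
    (FibProd.continuous_fst _ _) (FibProd.continuous_fst _ _) ?_ ?_ ?_
  · intro k
    rcases hs (a k) with ⟨b, hb⟩ | ⟨c, hc⟩
    · exact Or.inl ⟨⟨(k, b), hb.symm⟩, rfl⟩
    · exact Or.inr ⟨⟨(k, c), hc.symm⟩, rfl⟩
  · have : (fun k => w (a (FibProd.fst a (LC.app g) k))) =
        fun k => w (LC.app g (FibProd.snd a (LC.app g) k)) := by
      funext k; rw [FibProd.condition a (LC.app g) k]
    rw [this]
    exact Z.plot_comp (K := CH.of (OnePoint B)) (L := CH.of (FibProd a (LC.app g)))
      (FibProd.snd a (LC.app g)) (fun b => w (LC.app g b)) (FibProd.continuous_snd _ _) hu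
  · have : (fun k => w (a (FibProd.fst a (LC.app j) k))) =
        fun k => w (LC.app j (FibProd.snd a (LC.app j) k)) := by
      funext k; rw [FibProd.condition a (LC.app j) k]
    rw [this]
    exact Z.plot_comp (K := CH.of (OnePoint C)) (L := CH.of (FibProd a (LC.app j)))
      (FibProd.snd a (LC.app j)) (fun c => w (LC.app j c)) (FibProd.continuous_snd _ _) hv

/-- A morphism of `PQ` out of a space is a plot. -/
theorem plot_app_ofLC {X : LC} {Z : PQ} (u : LCPQ.obj X ⟶ Z) :
    Z.plot (CH.of (OnePoint X)) (fun x => app u x) :=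
  app_plot u (K := CH.of (OnePoint X)) (a := fun x => x) continuous_id

/-- **Recognition of pushouts.**  A commutative square of `LC` whose underlying square of pointed
sets is a pushout along an injection is sent to a pushout in `PQ`. -/
theorem isPushout_LCPQ (sq : i ≫ g = f ≫ j)
    (hj : Function.Injective (LC.app j))
    (hs : ∀ d, (∃ b, LC.app g b = d) ∨ ∃ c, LC.app j c = d)
    (hg : ∀ b c, LC.app g b = LC.app j c → ∃ a, LC.app i a = b)
    (hg' : ∀ b b', LC.app g b = LC.app g b' → b = b' ∨ ∃ a, LC.app i a = b) :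
    IsPushout (LCPQ.map i) (LCPQ.map f) (LCPQ.map g) (LCPQ.map j) where
  w := by rw [← Functor.map_comp, sq, Functor.map_comp]
  isColimit' := ⟨by
    have sq' : ∀ a, LC.app g (LC.app i a) = LC.app j (LC.app f a) := fun a => by
      rw [← LC.app_comp, sq, LC.app_comp]
    refine PushoutCocone.IsColimit.mk _
      (fun s => ⟨glueFun g j (app s.inl) (app s.inr), ?_, ?_⟩) ?_ ?_ ?_
    · have := glueFun_right (g := g) (u := app s.inl) (v := app s.inr) hj ∞
      rw [LC.app_infty] at this
      exact this.trans (app_infty s.inr)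
    · have huv : ∀ a, app s.inl (LC.app i a) = app s.inr (LC.app f a) := fun a =>
        congrArg (fun t : LCPQ.obj A ⟶ s.pt => app t a) s.condition
      intro K a ha
      refine plot_of_cover (g := g) (j := j) s.pt _ hs ?_ ?_ ha
      · have : (fun b => glueFun g j (app s.inl) (app s.inr) (LC.app g b)) =
            fun b => app s.inl b := funext (glueFun_left hj sq' huv hg hg')
        rw [this]
        exact plot_app_ofLC s.inl
      · have : (fun c => glueFun g j (app s.inl) (app s.inr) (LC.app j c)) =
            fun c => app s.inr c := funext (glueFun_right hj)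
        rw [this]
        exact plot_app_ofLC s.inr
    · intro s
      have huv : ∀ a, app s.inl (LC.app i a) = app s.inr (LC.app f a) := fun a =>
        congrArg (fun t : LCPQ.obj A ⟶ s.pt => app t a) s.condition
      apply hom_ext'; intro b
      exact glueFun_left hj sq' huv hg hg' b
    · intro s
      apply hom_ext'; intro c
      exact glueFun_right hj c
    · intro s m h1 h2
      have huv : ∀ a, app s.inl (LC.app i a) = app s.inr (LC.app f a) := fun a =>
        congrArg (fun t : LCPQ.obj A ⟶ s.pt => app t a) s.condition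
      apply hom_ext'; intro d
      rcases hs d with ⟨b, rfl⟩ | ⟨c, rfl⟩
      · exact (congrArg (fun t => app t b) h1).trans (glueFun_left hj sq' huv hg hg' b).symm
      · exact (congrArg (fun t => app t c) h2).trans (glueFun_right hj c).symm⟩

end pushout

section zero

/-- The image of an empty space is a zero object. -/
theorem isZero_LCPQ (X : LC) [IsEmpty X] : IsZero (LCPQ.obj X) := by
  constructor
  · intro Y
    refine ⟨⟨⟨0⟩, fun f => ?_⟩⟩
    apply hom_ext; intro x
    exact isEmptyElim (α := X.carrier) x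
  · intro Y
    refine ⟨⟨⟨0⟩, fun f => ?_⟩⟩
    apply hom_ext'; intro y
    change app f y = ∞
    generalize app f y = z
    induction z using OnePoint.rec with
    | infty => rfl
    | coe z => exact isEmptyElim (α := X.carrier) z

end zero

end PQ

end Vale.Agent.P251.H
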