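import Vale.Agent.P251.H.PQ
import Mathlib.CategoryTheory.Monoidal.Closed.Basic

/-!
# P251, part H: mapping spaces of pointed quasi-topological spaces

`PQ.Map X Y` has the morphisms `X ⟶ Y` as its points (the zero morphism is the base point); a plot
is a family `K → (X ⟶ Y)` whose adjoint `K × L → Y` is a plot for every plot `L → X`.
`PQ` is monoidal closed.
-/

open CategoryTheory MonoidalCategory Topology OnePoint

namespace Vale.Agent.P251.H

namespace PQ

open Vale.Agent.P251.G.LC (smash smash_coe_coe smash_infty_left smash_infty_right)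

/-- The nonzero morphisms. -/
def MapC (X Y : PQ) : Type := {f : X ⟶ Y // f ≠ 0}

variable {X Y Z W : PQ}

open scoped Classical in
/-- a morphism as a point of the mapping space -/
noncomputable def ofHom (f : X ⟶ Y) : OnePoint (MapC X Y) :=
  if h : f = 0 then ∞ else OnePoint.some (⟨f, h⟩ : MapC X Y)

/-- a point of the mapping space as a morphism -/
def toHom (φ : OnePoint (MapC X Y)) : X ⟶ Y := φ.elim 0 (fun f => f.1)

@[simp] theorem toHom_infty : toHom (∞ : OnePoint (MapC X Y)) = 0 := rfl

@[simp] theorem toHom_coe (f : MapC X Y) : toHom (f : OnePoint (MapC X Y)) = f.1 := rfl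

@[simp] theorem toHom_ofHom (f : X ⟶ Y) : toHom (ofHom f) = f := by
  unfold ofHom
  split_ifs with h
  · rw [h]; rfl
  · rfl

@[simp] theorem ofHom_toHom (φ : OnePoint (MapC X Y)) : ofHom (toHom φ) = φ := by
  induction φ using OnePoint.rec with
  | infty => unfold ofHom; rw [dif_pos toHom_infty]
  | coe f => unfold ofHom; rw [dif_neg (by rw [toHom_coe]; exact f.2)]; rfl

@[simp] theorem ofHom_zero : ofHom (0 : X ⟶ Y) = ∞ := by
  unfold ofHom; rw [dif_pos rfl]

theorem ofHom_injective : Function.Injective (ofHom : (X ⟶ Y) → _) := fun f g h => by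
  rw [← toHom_ofHom f, h, toHom_ofHom]

theorem toHom_injective : Function.Injective (toHom : OnePoint (MapC X Y) → _) := fun f g h => by
  rw [← ofHom_toHom f, h, ofHom_toHom]

theorem toHom_eq_zero {φ : OnePoint (MapC X Y)} : toHom φ = 0 ↔ φ = ∞ :=
  ⟨fun h => toHom_injective (h.trans toHom_infty.symm), fun h => by rw [h, toHom_infty]⟩

/-- The mapping space. -/
abbrev Map (X Y : PQ) : PQ where
  carrier := MapC X Y
  plot K φ := ∀ (L : CH) (a : L → OnePoint X), X.plot L a →
    Y.plot (CH.prod K L) (fun p => app (toHom (φ p.1)) (a p.2))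
  plot_const K φ L a ha :=
    Y.plot_comp (K := L) (L := CH.prod K L) Prod.snd (fun l => app (toHom φ) (a l))
      continuous_snd (app_plot (toHom φ) ha)
  plot_comp := fun {K K'} g φ hg hφ L a ha =>
    Y.plot_comp (K := CH.prod K L) (L := CH.prod K' L) (fun p => (g p.1, p.2))
      (fun p => app (toHom (φ p.1)) (a p.2)) (by fun_prop) (hφ L a ha)
  plot_sum := fun {K K'} φ h1 h2 L a ha => by
    refine Y.plot_cover (K := CH.prod K L) (L := CH.prod K' L) (M := CH.prod (CH.sum K K') L)
      (fun p => app (toHom (φ p.1)) (a p.2)) (fun p => (Sum.inl p.1, p.2))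
      (fun p => (Sum.inr p.1, p.2)) (by fun_prop) (by fun_prop) ?_ (h1 L a ha) (h2 L a ha)
    rintro ⟨k | k, l⟩
    · exact Or.inl ⟨(k, l), rfl⟩
    · exact Or.inr ⟨(k, l), rfl⟩
  plot_surj := fun {K K'} g φ hg hs hφ L a ha => by
    refine Y.plot_surj (K := CH.prod K L) (L := CH.prod K' L) (fun p => (g p.1, p.2))
      (fun p => app (toHom (φ p.1)) (a p.2)) (by fun_prop) ?_ (hφ L a ha)
    rintro ⟨k, l⟩
    obtain ⟨k', rfl⟩ := hs k
    exact ⟨(k', l), rfl⟩

/-- Plots of the mapping space, tested on the same parameter space. -/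
theorem map_plot_iff {K : CH} {φ : K → OnePoint (MapC X Y)} :
    (Map X Y).plot K φ ↔ ∀ (L : CH) (g : L → K) (a : L → OnePoint X), Continuous g →
      X.plot L a → Y.plot L (fun l => app (toHom (φ (g l))) (a l)) := by
  constructor
  · intro h L g a hg ha
    exact Y.plot_comp (K := CH.prod K L) (L := L) (fun l => (g l, l)) _ (by fun_prop) (h L a ha)
  · intro h L a ha
    exact h (CH.prod K L) Prod.fst (fun p => a p.2) continuous_fst
      (X.plot_comp (K := L) (L := CH.prod K L) Prod.snd a continuous_snd ha)

theorem map_plot_app {K : CH} {φ : K → OnePoint (MapC X Y)} (h : (Map X Y).plot K φ)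
    {a : K → OnePoint X} (ha : X.plot K a) : Y.plot K (fun k => app (toHom (φ k)) (a k)) :=
  map_plot_iff.mp h K id a continuous_id ha

/-- A slice of a morphism out of a smash product (first variable free). -/
def slice (f : X ⊗ Y ⟶ Z) (y : OnePoint Y) : X ⟶ Z :=
  ⟨fun x => app f (smash x y), by rw [smash_infty_left]; exact app_infty f,
    fun K a ha => app_plot f (tensor_plot X Y ha (Y.plot_const K y))⟩

@[simp] theorem app_slice (f : X ⊗ Y ⟶ Z) (y : OnePoint Y) (x : OnePoint X) :
    app (slice f y) x = app f (smash x y) := rfl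

/-- currying -/
noncomputable def curry (f : X ⊗ Y ⟶ Z) : Y ⟶ Map X Z :=
  ⟨fun y => ofHom (slice f y), by
    rw [← ofHom_zero]
    congr 1
    apply hom_ext
    intro x
    rw [app_slice, smash_infty_right]
    exact app_infty f, by
    intro K b hb L a ha
    have := app_plot f (tensor_plot X Y (K := CH.prod K L)
      (X.plot_comp (K := L) (L := CH.prod K L) Prod.snd a continuous_snd ha)
      (Y.plot_comp (K := K) (L := CH.prod K L) Prod.fst b continuous_fst hb))
    simp only [toHom_ofHom]
    exact this⟩

theorem toHom_app_curry (f : X ⊗ Y ⟶ Z) (y : OnePoint Y) :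
    toHom (app (curry f) y) = slice f y := toHom_ofHom _

@[simp] theorem app_toHom_app_curry (f : X ⊗ Y ⟶ Z) (y : OnePoint Y) (x : OnePoint X) :
    app (toHom (app (curry f) y)) x = app f (smash x y) := by
  rw [toHom_app_curry]; rfl

/-- uncurrying -/
def uncurry (g : Y ⟶ Map X Z) : X ⊗ Y ⟶ Z :=
  lift₂ (fun x y => app (toHom (app g y)) x) (fun y => app_infty _)
    (fun x => by rw [app_infty]; rfl)
    (fun K a b ha hb => map_plot_app (app_plot g hb) ha)

@[simp] theorem app_uncurry_smash (g : Y ⟶ Map X Z) (x : OnePoint X) (y : OnePoint Y) :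
    app (uncurry g) (smash x y) = app (toHom (app g y)) x :=
  app_lift₂_smash _ _ _ _ x y

theorem uncurry_curry (f : X ⊗ Y ⟶ Z) : uncurry (curry f) = f := by
  apply hom_ext₂; intro x y
  rw [app_uncurry_smash, app_toHom_app_curry]

theorem curry_uncurry (g : Y ⟶ Map X Z) : curry (uncurry g) = g := by
  apply hom_ext'; intro y
  apply toHom_injective
  apply hom_ext'; intro x
  rw [app_toHom_app_curry, app_uncurry_smash]

/-- the mapping space functor in the second variable -/
noncomputable def mapRight (X : PQ) {Y Z : PQ} (f : Y ⟶ Z) : Map X Y ⟶ Map X Z :=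
  ⟨fun φ => ofHom (toHom φ ≫ f), by
    rw [toHom_infty, Limits.zero_comp, ofHom_zero], by
    intro K φ hφ L a ha
    have := app_plot f (hφ L a ha)
    simp only [toHom_ofHom]
    exact this⟩

@[simp] theorem toHom_app_mapRight (X : PQ) {Y Z : PQ} (f : Y ⟶ Z) (φ : OnePoint (MapC X Y)) :
    toHom (app (mapRight X f) φ) = toHom φ ≫ f := toHom_ofHom _

/-- the mapping space functor in the first variable -/
noncomputable def mapLeft {X Y : PQ} (f : X ⟶ Y) (Z : PQ) : Map Y Z ⟶ Map X Z :=
  ⟨fun φ => ofHom (f ≫ toHom φ), by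
    rw [toHom_infty, Limits.comp_zero, ofHom_zero], by
    intro K φ hφ L a ha
    have := hφ L _ (app_plot f ha)
    simp only [toHom_ofHom]
    exact this⟩

@[simp] theorem toHom_app_mapLeft {X Y : PQ} (f : X ⟶ Y) (Z : PQ) (φ : OnePoint (MapC Y Z)) :
    toHom (app (mapLeft f Z) φ) = f ≫ toHom φ := toHom_ofHom _

/-- the mapping space functor -/
noncomputable def mapFunctor (X : PQ) : PQ ⥤ PQ where
  obj Y := Map X Y
  map f := mapRight X f
  map_id _ := by
    apply hom_ext'; intro φ
    apply toHom_injective
    rw [toHom_app_mapRight, Category.comp_id, app_id]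
  map_comp f g := by
    apply hom_ext'; intro φ
    apply toHom_injective
    rw [toHom_app_mapRight, app_comp, toHom_app_mapRight, toHom_app_mapRight, Category.assoc]

theorem uncurry_naturality {X Y Y' Z : PQ} (f : Y ⟶ Y') (g : Y' ⟶ Map X Z) :
    uncurry (f ≫ g) = (X ◁ f) ≫ uncurry g := by
  apply hom_ext₂; intro x y
  rw [app_uncurry_smash, app_comp, app_comp, app_whiskerLeft_smash, app_uncurry_smash]

theorem curry_naturality {X Y Z Z' : PQ} (f : X ⊗ Y ⟶ Z) (g : Z ⟶ Z') :
    curry (f ≫ g) = curry f ≫ mapRight X g := by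
  apply hom_ext'; intro y
  apply toHom_injective
  apply hom_ext'; intro x
  rw [app_toHom_app_curry, app_comp, app_comp, toHom_app_mapRight, app_comp,
    app_toHom_app_curry]

/-- the tensor-hom adjunction -/
noncomputable def tensorMapAdj (X : PQ) : tensorLeft X ⊣ mapFunctor X :=
  Adjunction.mkOfHomEquiv
    { homEquiv := fun Y Z =>
        { toFun := fun f => curry (Y := Y) (Z := Z) f
          invFun := fun g => uncurry g
          left_inv := uncurry_curry
          right_inv := curry_uncurry }
      homEquiv_naturality_left_symm := fun {_ _ _} f g => uncurry_naturality f g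
      homEquiv_naturality_right := fun {_ _ _} f g => curry_naturality f g }

noncomputable instance : MonoidalClosed PQ where
  closed X := { rightAdj := mapFunctor X, adj := tensorMapAdj X }

/-- evaluation -/
def ev (X Y : PQ) : X ⊗ Map X Y ⟶ Y :=
  lift₂ (fun x φ => app (toHom φ) x) (fun _ => app_infty _)
    (fun _ => by rw [toHom_infty, app_zero])
    (fun _ _ _ ha hb => map_plot_app hb ha)

@[simp] theorem app_ev_smash (X Y : PQ) (x : OnePoint X) (φ : OnePoint (MapC X Y)) :
    app (ev X Y) (smash x φ) = app (toHom φ) x := by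
  rw [ev, app_lift₂_smash]

/-- composition of mapping spaces -/
noncomputable def mapComp (X Y Z : PQ) : Map X Y ⊗ Map Y Z ⟶ Map X Z :=
  lift₂ (fun φ ψ => ofHom (toHom φ ≫ toHom ψ))
    (fun ψ => by rw [toHom_infty, Limits.zero_comp, ofHom_zero])
    (fun φ => by rw [toHom_infty, Limits.comp_zero, ofHom_zero])
    (fun K a b ha hb => map_plot_iff.mpr fun L g c hg hc => by
      have := map_plot_iff.mp hb L g _ hg (map_plot_iff.mp ha L g c hg hc)
      simp only [toHom_ofHom]
      exact this)

@[simp] theorem toHom_app_mapComp_smash (X Y Z : PQ) (φ : OnePoint (MapC X Y))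
    (ψ : OnePoint (MapC Y Z)) :
    toHom (app (mapComp X Y Z) (smash φ ψ)) = toHom φ ≫ toHom ψ := by
  rw [mapComp, app_lift₂_smash, toHom_ofHom]

/-- tensor product of mapping spaces -/
noncomputable def mapTensor (X Y X' Y' : PQ) : Map X Y ⊗ Map X' Y' ⟶ Map (X ⊗ X') (Y ⊗ Y') :=
  lift₂ (fun φ ψ => ofHom (toHom φ ⊗ₘ toHom ψ))
    (fun ψ => by
      rw [toHom_infty, ← ofHom_zero]
      congr 1
      apply hom_ext₂; intro x x'
      rw [app_tensorHom_smash, app_zero, smash_infty_left]; rfl)
    (fun φ => by
      rw [toHom_infty, ← ofHom_zero]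
      congr 1
      apply hom_ext₂; intro x x'
      rw [app_tensorHom_smash, app_zero, smash_infty_right]; rfl)
    (fun K a b ha hb L c hc => by
      simp only [toHom_ofHom]
      have key := gen_prod_left (G := TensorGen X X') (Y := Y ⊗ Y') K
        (fun x k => app (toHom (a k) ⊗ₘ toHom (b k)) x) (by
          intro x
          induction x using OnePoint.rec with
          | infty =>
            have : (fun k => app (toHom (a k) ⊗ₘ toHom (b k)) ∞) = fun _ => ∞ := by
              funext k; exact app_infty _
            rw [this]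
            exact (Y ⊗ Y').plot_const K ∞
          | coe x =>
            obtain ⟨x, x'⟩ := x
            have : (fun k => app (toHom (a k) ⊗ₘ toHom (b k)) (((x, x') : X × X') : OnePoint _)) =
                fun k => smash (app (toHom (a k)) (x : OnePoint X))
                  (app (toHom (b k)) (x' : OnePoint X')) := by
              funext k
              exact app_tensorHom_smash _ _ (x : OnePoint X) (x' : OnePoint X')
            rw [this]
            exact tensor_plot Y Y' (map_plot_app ha (X.plot_const K _))
              (map_plot_app hb (X'.plot_const K _)))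
        (by
          rintro M f ⟨u, v, hu, hv, rfl⟩
          have : (fun p : M × K => app (toHom (a p.2) ⊗ₘ toHom (b p.2))
                (smash (u p.1) (v p.1))) =
              fun p => smash (app (toHom (a p.2)) (u p.1)) (app (toHom (b p.2)) (v p.1)) := by
            funext p
            exact app_tensorHom_smash _ _ _ _
          rw [this]
          exact tensor_plot Y Y' (K := CH.prod M K)
            (map_plot_iff.mp ha (CH.prod M K) Prod.snd (fun p => u p.1) continuous_snd
              (X.plot_comp (K := M) (L := CH.prod M K) Prod.fst u continuous_fst hu))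
            (map_plot_iff.mp hb (CH.prod M K) Prod.snd (fun p => v p.1) continuous_snd
              (X'.plot_comp (K := M) (L := CH.prod M K) Prod.fst v continuous_fst hv)))
        hc
      exact (Y ⊗ Y').plot_comp (K := CH.prod L K) (L := CH.prod K L) (fun p => (p.2, p.1)) _
        (by fun_prop) key)

@[simp] theorem toHom_app_mapTensor_smash (X Y X' Y' : PQ) (φ : OnePoint (MapC X Y))
    (ψ : OnePoint (MapC X' Y')) :
    toHom (app (mapTensor X Y X' Y') (smash φ ψ)) = toHom φ ⊗ₘ toHom ψ := by
  rw [mapTensor, app_lift₂_smash, toHom_ofHom]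

end PQ

end Vale.Agent.P251.H
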