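import Vale.Agent.P251.H.PQLC
import Vale.Agent.P251.G.Pushout

/-!
# P251, part H (block P2): `LC ⥤ PQ` preserves pushouts along injective maps
-/

open CategoryTheory MonoidalCategory Topology OnePoint Limits

namespace Vale.Agent.P251.H.PQ

open Vale.Agent.P251.G

/-- Pushouts of `LC` along injective morphisms are preserved by `LC ⥤ PQ`. -/
theorem isPushout_LCPQ_of_isPushout {A B C D : LC} {i : A ⟶ B} {f : A ⟶ C} {g : B ⟶ D}
    {k : C ⟶ D} (hi : Function.Injective (LC.app i)) (h : IsPushout i f g k) :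
    IsPushout (LCPQ.map i) (LCPQ.map f) (LCPQ.map g) (LCPQ.map k) := by
  obtain ⟨hk, hb⟩ := LC.bij_of_isPushout hi h
  refine isPushout_LCPQ h.w hk (LC.surj_of_isPushout hi h) ?_ ?_
  · intro b c hbc
    obtain ⟨a, ha, -⟩ := LC.eq_of_isPushout hi h hbc
    exact ⟨a, ha⟩
  · intro b b' hbb
    by_cases h1 : b ∈ Set.range (LC.app i)
    · exact Or.inr h1
    · by_cases h2 : b' ∈ Set.range (LC.app i)
      · exfalso
        obtain ⟨a, rfl⟩ := h2
        apply hb.mapsTo h1
        refine ⟨LC.app f a, ?_⟩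
        rw [hbb, ← LC.app_comp, ← LC.app_comp, h.w]
      · exact Or.inl (hb.injOn h1 h2 hbb)

end Vale.Agent.P251.H.PQ
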