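import Vale.Agent.P251.H.BaseRot
import Vale.Agent.P251.H.FFull
import Vale.Agent.P251.H.CFPush
import Vale.Agent.P251.H.CFFin
import Vale.Agent.P251.H.CFClosed

/-!
# P251, part H: the base category `CF` satisfies `StabInput`
-/

open CategoryTheory MonoidalCategory Limits

namespace Vale.Agent.P251.H

open Vale.Agent.P251.G Vale.Agent.P251.G.LC

namespace CF

/-- **The input of the construction of the stable homotopy category**: continuous functors on
spheres, with `L` the functor represented by the one-dimensional sphere. -/
noncomputable instance : StabInput CF where
  j := jC
  braided := inferInstance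
  full := inferInstance
  faithful := inferInstance
  isZero_empty := isZero_F_empty
  pushout _ _ _ _ hi h := isPushout_F_LCPQ hi h
  L := rep Sp0.gen
  lam := lamC
  ev_bij X K := by
    simp only [jev_eq]
    exact evalC_bij K X
  rot := rotC
  fin n K := finFactor_cell _ n K

end CF

end Vale.Agent.P251.H
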