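import Vale.Agent.P251.H.Cof.Tri1
import Vale.Agent.P251.H.Cof.Glue

/-!
# P251, part H: mapping cones of arbitrary morphisms give distinguished triangles
-/

open CategoryTheory Limits Pretriangulated ZeroObject

universe v u v' u'

namespace Vale.Agent.P251.H

open CofCat

variable {C : Type u} [Category.{v} C] [HasZeroObject C] [HasZeroMorphisms C]
  [HasBinaryCoproducts C] [CofCat C] {D : Type u'} [Category.{v'} D] {L : C ⥤ D}
  [L.IsLocalization (CofCat.W (C := C))] [HasShift D ℤ]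

/-- The triangle of the mapping cone of an arbitrary morphism `f : A ⟶ B` is distinguished. -/
theorem dist_cone (τ : Susp ⋙ L ≅ L ⋙ shiftFunctor D (1 : ℤ)) {A B P : C} (f : A ⟶ B)
    {a : B ⟶ P} {b : Cone.obj A ⟶ P} (hP : IsPushout f (cin A) a b) {d : P ⟶ Susp.obj A}
    (h3 : a ≫ d = 0) (h4 : b ≫ d = cpr A) :
    Triangle.mk (L.map f) (L.map a) (L.map d ≫ τ.hom.app A) ∈ dist τ := by
  obtain ⟨B', j, w, -, hj, hw, -, hjw, -⟩ := exists_factor f
  obtain ⟨Q', q', z, hQ'⟩ := exists_pushout j (0 : A ⟶ (0 : C)) hj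
  obtain rfl : z = 0 := (isZero_zero C).eq_of_src _ _
  obtain ⟨δ, hδ⟩ := exists_isConn τ hj hQ'
  obtain ⟨P', a', b', r, d', hP', h1', h2', h3', h4', h5'⟩ := hδ.exists_conn
  have hr : W r := W_collapse hj hQ' hP' h1' h2'
  let p : P' ⟶ P := hP'.desc (w ≫ a) b (by rw [reassoc_of% hjw, hP.w])
  have hp₁ : a' ≫ p = w ≫ a := hP'.inl_desc _ _ _
  have hp₂ : b' ≫ p = b := hP'.inr_desc _ _ _
  have hp : W p := gluing hP'.flip hP.flip (cof_cin A) (cof_cin A) (W_id A) (W_id (Cone.obj A)) hw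
    (by simp) (by rw [hjw, Category.id_comp]) p (by rw [hp₂, Category.id_comp]) hp₁
  have hd : p ≫ d = d' := by
    apply hP'.hom_ext
    · rw [reassoc_of% hp₁, h3, comp_zero, h3']
    · rw [reassoc_of% hp₂, h4, h4']
  have := isIso_map L hr
  have := isIso_map L hp
  have := isIso_map L hw
  refine dist_of_exists (T := Triangle.mk (L.map f) (L.map a) (L.map d ≫ τ.hom.app A)) hδ
    (Iso.refl (L.obj A)) (asIso (L.map w)).symm ((asIso (L.map p)).symm ≪≫ asIso (L.map r))
    ?_ ?_ ?_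
  · change L.map f ≫ inv (L.map w) = 𝟙 (L.obj A) ≫ L.map j
    rw [IsIso.comp_inv_eq, Category.id_comp, ← L.map_comp, hjw]
  · change L.map a ≫ inv (L.map p) ≫ L.map r = inv (L.map w) ≫ L.map q'
    rw [IsIso.eq_inv_comp, ← L.map_comp_assoc, ← hp₁, L.map_comp_assoc, IsIso.hom_inv_id_assoc,
      ← L.map_comp, h1']
  · change (L.map d ≫ τ.hom.app A) ≫ (shiftFunctor D (1 : ℤ)).map (𝟙 (L.obj A)) =
      (inv (L.map p) ≫ L.map r) ≫ δ
    rw [CategoryTheory.Functor.map_id]
    refine (Category.comp_id _).trans ?_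
    rw [Category.assoc, h5', ← hd, L.map_comp, Category.assoc, IsIso.inv_hom_id_assoc]

end Vale.Agent.P251.H
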