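import Vale.Agent.P251.H.Shift

/-!
# P251, part H: tensor triangulated structure from an invertible object

Data for `TensorTriangulated`, when the shift is `InvObj.hasShift`.
-/

open CategoryTheory MonoidalCategory Limits Pretriangulated

universe v u

namespace Vale.Agent.P251.H

namespace InvObj

variable {T : Type u} [Category.{v} T] [MonoidalCategory T] (I : InvObj T)

section

variable [Preadditive T] [MonoidalPreadditive T]

lemma shiftFunctor_additive (n : ℤ) :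
    letI := I.hasShift; (shiftFunctor T n).Additive := by
  let _ := I.hasShift
  refine ⟨fun {X Y} {f g} => ?_⟩
  change (f + g) ▷ I.pow n = f ▷ I.pow n + g ▷ I.pow n
  exact MonoidalPreadditive.add_whiskerRight (C := T) f g

end

lemma braiding_hom_naturality_iso [SymmetricCategory T] {A B : T} (i : A ≅ B) :
    (β_ A A).hom = (i.hom ⊗ₘ i.hom) ≫ (β_ B B).hom ≫ (i.inv ⊗ₘ i.inv) := by
  rw [BraidedCategory.braiding_naturality_assoc]
  simp

lemma neg_tensor {T : Type u} [Category.{v} T] [MonoidalCategory T] [Preadditive T]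
    [MonoidalPreadditive T] [SymmetricCategory T] {A B : T} (i : A ≅ B)
    (h : (β_ B B).hom = -𝟙 _) : (β_ A A).hom = -𝟙 _ := by
  rw [braiding_hom_naturality_iso i, h]
  simp only [Preadditive.neg_comp, Preadditive.comp_neg, Category.id_comp]
  rw [tensorHom_comp_tensorHom]
  simp

/-- The tensor triangulated structure when the shift is defined by the invertible object `L`
of a symmetric monoidal category. -/
@[instance_reducible]
noncomputable def tensorTriangulated [Preadditive T] [HasZeroObject T] [SymmetricCategory T]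
    [MonoidalPreadditive T] :
    letI := I.hasShift
    ∀ [∀ n : ℤ, (shiftFunctor T n).Additive] [Pretriangulated T]
    (_ : ∀ (X : T) (Δ : Triangle T), Δ ∈ distTriang T →
      Triangle.mk (X ◁ Δ.mor₁) (X ◁ Δ.mor₂)
        ((X ◁ Δ.mor₃) ≫ (α_ X Δ.obj₁ (I.pow 1)).inv : X ⊗ Δ.obj₃ ⟶ (X ⊗ Δ.obj₁)⟦(1 : ℤ)⟧)
        ∈ distTriang T)
    (_ : (β_ I.L I.L).hom = -𝟙 _),
    Vale.Agent.P251.T.TensorTriangulated T := by
  letI := I.hasShift
  intro _ _ hd hs
  exact
    { e := fun Y => whiskerLeftIso Y (λ_ (I.pow 1))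
      e_naturality := by
        intro Y Z f
        change (f ▷ (𝟙_ T ⊗ I.pow 1)) ≫ Z ◁ (λ_ (I.pow 1)).hom =
          Y ◁ (λ_ (I.pow 1)).hom ≫ f ▷ I.pow 1
        rw [whisker_exchange]
      e_unit := by
        change (𝟙_ T) ◁ (λ_ (I.pow 1)).hom = (λ_ (𝟙_ T ⊗ I.pow 1)).hom
        rw [← cancel_mono (λ_ (I.pow 1)).hom, leftUnitor_naturality]
      distinguished := by
        intro X Δ hΔ
        have h := hd X Δ hΔ
        have e : ((X ◁ Δ.mor₃) ≫ (X ◁ (whiskerLeftIso Δ.obj₁ (λ_ (I.pow 1))).inv) ≫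
          (α_ X Δ.obj₁ (𝟙_ T ⊗ I.pow 1)).inv ≫
            (whiskerLeftIso (X ⊗ Δ.obj₁) (λ_ (I.pow 1))).hom) =
            ((X ◁ Δ.mor₃) ≫ (α_ X Δ.obj₁ (I.pow 1)).inv :
              X ⊗ Δ.obj₃ ⟶ (X ⊗ Δ.obj₁) ⊗ I.pow 1) := by
          have e0 : ∀ (g : X ⊗ Δ.obj₃ ⟶ X ⊗ (Δ.obj₁ ⊗ I.pow 1)),
              g ≫ (X ◁ (whiskerLeftIso Δ.obj₁ (λ_ (I.pow 1))).inv) ≫
              (α_ X Δ.obj₁ (𝟙_ T ⊗ I.pow 1)).inv ≫
                (whiskerLeftIso (X ⊗ Δ.obj₁) (λ_ (I.pow 1))).hom =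
              g ≫ (α_ X Δ.obj₁ (I.pow 1)).inv := by
            intro g
            have e2 : X ◁ Δ.obj₁ ◁ (λ_ (I.pow 1)).inv ≫ X ◁ Δ.obj₁ ◁ (λ_ (I.pow 1)).hom =
                𝟙 _ := by
              rw [← MonoidalCategory.whiskerLeft_comp, ← MonoidalCategory.whiskerLeft_comp,
                Iso.inv_hom_id]
              simp
            simp only [whiskerLeftIso_inv, whiskerLeftIso_hom]
            rw [← associator_inv_naturality_right, reassoc_of% e2]
          exact e0 _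
        exact (congrArg (fun t : X ⊗ Δ.obj₃ ⟶ (X ⊗ Δ.obj₁) ⊗ I.pow 1 =>
          (Triangle.mk (X ◁ Δ.mor₁) (X ◁ Δ.mor₂)
            (t : X ⊗ Δ.obj₃ ⟶ (X ⊗ Δ.obj₁)⟦(1 : ℤ)⟧)) ∈ distTriang T) e).mpr h
      sign := by
        have i : ((𝟙_ T)⟦(1 : ℤ)⟧) ≅ I.L :=
          (λ_ (I.pow 1) ≪≫ λ_ I.L : 𝟙_ T ⊗ I.pow 1 ≅ I.L)
        exact neg_tensor i hs }

end InvObj

end Vale.Agent.P251.H
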