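import Vale.Agent.P251.H.GoodInst
import Vale.Agent.P251.H.MonLoc.FlatTensor

/-!
# P251, part H: the tensor triangulated localization of flat objects

`flatModel W : StabModel (FlatCat W)`, `piModel GG : StabModel (FlatCat (piW GG))`, and the tensor
product of `FlatCat W` preserves coproducts.
-/

open CategoryTheory MonoidalCategory Limits ZeroObject

namespace Vale.Agent.P251.H

open Vale.Agent.P251.G Vale.Agent.P251.G.LC LP

universe v' u' v u

namespace StabInput

variable {M : Type u} [Category.{v} M] [MonoidalCategory M] [SymmetricCategory M]
    [MonoidalClosed M] [HasZeroMorphisms M] [HasColimitsOfSize.{0, 0} M] [StabInput M]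

section

variable (W : MorphismProperty M) [GoodW W]

/-- the stable model of flat objects -/
noncomputable def flatModel (h : W (lam : (L : M) ⊗ (J M).obj RR ⟶ 𝟙_ M)) :
    StabModel (FlatCat W) where
  m := flatCone W
  e := flatSign W
  Y := flatL W
  w := flatLam W
  hw := flatLam_mem W h

end

/-- the stable model of flat objects -/
noncomputable def piModel (GG : ObjectProperty M) [IsTest GG] :
    StabModel (FlatCat (piW GG)) :=
  flatModel (piW GG) (piW_lam_unit GG)

section

variable (GG : ObjectProperty M) [IsTest GG] {D₀ : Type u'} [Category.{v'} D₀]
  (L₀ : FlatCat (piW GG) ⥤ D₀) [L₀.IsLocalization (CofCat.W (C := FlatCat (piW GG)))]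

noncomputable example : T.TensorTriangulated (TT (piModel GG) L₀) := inferInstance

noncomputable example : HasCoproducts.{0} (TT (piModel GG) L₀) := inferInstance

/-- the tensor product of the localization preserves coproducts -/
theorem preservesColimit_tensorLeft_TT {J : Type} (Z : TT (piModel GG) L₀)
    (X : J → TT (piModel GG) L₀) : PreservesColimit (Discrete.functor X) (tensorLeft Z) :=
  TT.preservesColimit_tensorLeft (piModel GG) L₀
    (flat_preservesColimit_tensorLeft (piW GG)) Z X

end

end StabInput

end Vale.Agent.P251.H
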