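import Vale.Agent.P251.H.PhiM

/-!
# P251, part H: compactness, generation and small Hom sets in the localization

`L : FlatCat W ⥤ D` is a localization functor for `W = piW GG`, preserving coproducts.
* `finFactor_loc`: `L.obj A` is compact if `GG A.obj`;
* `isZero_of_test`: an object `X` of `D` is zero if all maps `L.obj A ⟶ X`, `GG A.obj`, are zero;
* `small_loc`: the Hom sets `L.obj A ⟶ X` are small.
-/

open CategoryTheory MonoidalCategory Limits ZeroObject

namespace Vale.Agent.P251.H

open Vale.Agent.P251.G Vale.Agent.P251.G.LC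

universe v u v' u'

section comparison

variable {C : Type u} [Category.{v} C] [HasCoproducts.{0} C] {D : Type u'} [Category.{v'} D]
  [HasCoproducts.{0} D] (G : C ⥤ D)

@[reassoc]
theorem sigmaSub_comparison {ι : Type} (s : Finset ι) (Y : ι → C) :
    sigmaSub s (fun i => G.obj (Y i)) ≫ sigmaComparison G Y =
      sigmaComparison G (fun i : s => Y i) ≫ G.map (sigmaSub s Y) := by
  apply Sigma.hom_ext
  intro i
  rw [sigmaSub, Sigma.ι_desc_assoc, ι_comp_sigmaComparison,
    reassoc_of% (ι_comp_sigmaComparison G (fun i : s => Y i) i), ← G.map_comp, sigmaSub,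
    Sigma.ι_desc]

omit [HasCoproducts.{0} C] in
/-- Compactness may be tested on coproducts of objects in the essential image. -/
theorem finFactor_of_essSurj [G.EssSurj] {K : D}
    (h : ∀ {ι : Type} (Y : ι → C) (f : K ⟶ ∐ (fun i => G.obj (Y i))),
      ∃ (s : Finset ι) (g : K ⟶ ∐ (fun i : s => G.obj (Y i))),
        g ≫ sigmaSub s (fun i => G.obj (Y i)) = f) : FinFactor K := by
  intro ι X f
  let Y : ι → C := fun i => G.objPreimage (X i)
  let e : ∀ i, G.obj (Y i) ≅ X i := fun i => G.objObjPreimageIso (X i)
  obtain ⟨s, g, hg⟩ := h Y (f ≫ Limits.Sigma.map (fun i => (e i).inv))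
  refine ⟨s, g ≫ Limits.Sigma.map (fun i : s => (e i).hom), ?_⟩
  change _ ≫ sigmaSub s X = f
  rw [Category.assoc, sigmaSub_map s (fun i => (e i).hom), ← Category.assoc, hg, Category.assoc]
  have h1 : Limits.Sigma.map (fun i => (e i).inv) ≫ Limits.Sigma.map (fun i => (e i).hom) =
      𝟙 _ := by
    apply Sigma.hom_ext
    intro i
    rw [Sigma.ι_map_assoc, Sigma.ι_map, Iso.inv_hom_id_assoc, Category.comp_id]
  rw [h1, Category.comp_id]

end comparison

namespace StabInput

variable {M : Type u} [Category.{v} M] [MonoidalCategory M] [SymmetricCategory M]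
    [MonoidalClosed M] [HasZeroMorphisms M] [HasColimitsOfSize.{0, 0} M] [StabInput M]

section flat

variable (GG : ObjectProperty M) [IsTest GG] [GoodW (piW GG)]
  {D : Type u'} [Category.{v'} D] (L : FlatCat (piW GG) ⥤ D)
  [hloc : L.IsLocalization (CofCat.W (C := FlatCat (piW GG)))]

omit [IsTest GG] in
include hloc in
/-- the localization functor, with the class written in the other way -/
theorem isLocalization_flat : L.IsLocalization ((piW GG).inverseImage (Flat (piW GG)).ι) := hloc

omit [IsTest GG] in
include hloc in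
/-- the comparison map is defined -/
theorem compat_flat : (relM (Flat (piW GG))).Compat L :=
  compatM (W := piW GG) (fun X => piW_lam X) (by
    have := isLocalization_flat GG L
    exact Localization.inverts L ((piW GG).inverseImage (Flat (piW GG)).ι))

/-- The comparison map from stable homotopy classes to morphisms of the localization. -/
noncomputable abbrev phiF (A X : FlatCat (piW GG)) : PiM A.obj X.obj → (L.obj A ⟶ L.obj X) :=
  phiM (compat_flat GG L) A X

/-- **Morphisms in the localization** out of test objects. -/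
theorem phiF_bijective {A : FlatCat (piW GG)} (hA : GG A.obj) (X : FlatCat (piW GG)) :
    Function.Bijective (phiF GG L A X) := by
  have := isLocalization_flat GG L
  exact phiM_bijective_of_test (GG := GG) (compat_flat GG L) A hA X

/-- a coproduct of flat objects -/
theorem exists_factor_flat {A : FlatCat (piW GG)} (hA : GG A.obj) {ι : Type}
    (Y : ι → FlatCat (piW GG)) (f : L.obj A ⟶ L.obj (∐ Y)) :
    ∃ (s : Finset ι) (g : L.obj A ⟶ L.obj (∐ (fun i : s => Y i))),
      g ≫ L.map (sigmaSub s Y) = f := by
  obtain ⟨x, rfl⟩ := (phiF_bijective GG L hA _).2 f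
  let F := (Flat (piW GG)).ι
  obtain ⟨s, y, hy⟩ := IsTest.exists_factor GG hA (fun i => (Y i).obj)
    (mapM A.obj (PreservesCoproduct.iso F Y).hom x)
  let y' : PiM A.obj (∐ (fun i : s => Y i)).obj :=
    mapM A.obj (sigmaComparison F (fun i : s => Y i)) y
  refine ⟨s, phiF GG L A _ y', ?_⟩
  rw [← phiM_map]
  congr 1
  have h1 : mapM A.obj (sigmaSub s Y).hom y' =
      mapM A.obj (sigmaComparison F Y) (mapM A.obj (sigmaSub s (fun i => (Y i).obj)) y) := by
    rw [← mapM_comp, ← mapM_comp]
    exact congrArg (fun z => mapM A.obj z y) (sigmaSub_comparison F s Y).symm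
  rw [h1, hy, ← mapM_comp]
  have h2 : (PreservesCoproduct.iso F Y).hom ≫ sigmaComparison F Y = 𝟙 _ := by
    rw [← PreservesCoproduct.inv_hom, Iso.hom_inv_id]
  rw [h2]
  exact mapM_id _ _ x

/-- **Compactness** of the images of test objects. -/
theorem finFactor_loc [HasCoproducts.{0} D] {A : FlatCat (piW GG)} (hA : GG A.obj) :
    FinFactor (L.obj A) := by
  have : L.EssSurj := Localization.essSurj L (CofCat.W (C := FlatCat (piW GG)))
  refine @finFactor_of_essSurj _ _ _ _ _ L _ _ (fun {ι} Y f => ?_)
  have hι : PreservesColimitsOfShape (Discrete ι) L := CofCat.preservesCoproducts L ι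
  obtain ⟨s, g, hg⟩ := exists_factor_flat GG L hA Y (f ≫ sigmaComparison L Y)
  have hs : PreservesColimitsOfShape (Discrete s) L := CofCat.preservesCoproducts L s
  refine ⟨s, g ≫ inv (sigmaComparison L (fun i : s => Y i)), ?_⟩
  rw [← cancel_mono (sigmaComparison L Y), ← hg, Category.assoc, Category.assoc,
    sigmaSub_comparison, IsIso.inv_hom_id_assoc]

/-- **Generation**. -/
theorem isZero_of_test [HasZeroMorphisms D] (hGG : ∀ A, GG A → Flat (piW GG) A) (X : D)
    (h : ∀ A : FlatCat (piW GG), GG A.obj → ∀ f : L.obj A ⟶ X, f = 0) : IsZero X := by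
  have : L.EssSurj := Localization.essSurj L (CofCat.W (C := FlatCat (piW GG)))
  let Y := L.objPreimage X
  let e : L.obj Y ≅ X := L.objObjPreimageIso X
  have h1 : ∀ A : FlatCat (piW GG), GG A.obj → ∀ f : L.obj A ⟶ L.obj Y, f = 0 := by
    intro A hA f
    rw [← cancel_mono e.hom, h A hA (f ≫ e.hom), zero_comp]
  have hz : IsZero (L.obj (0 : FlatCat (piW GG))) := CofCat.isZero_map L (isZero_zero _)
  let p : Y ⟶ 0 := 0
  have hp : CofCat.W p := by
    rw [W_flat_iff, piW_iff]
    intro A hA
    let A' : FlatCat (piW GG) := ⟨A, hGG A hA⟩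
    have hY := phiF_bijective GG L (A := A') hA Y
    have h0 := phiF_bijective GG L (A := A') hA (0 : FlatCat (piW GG))
    constructor
    · intro x y _
      apply hY.1
      rw [h1 A' hA (phiF GG L A' Y x), h1 A' hA (phiF GG L A' Y y)]
    · intro y
      obtain ⟨x, -⟩ := hY.2 0
      refine ⟨x, ?_⟩
      apply h0.1
      exact hz.eq_of_tgt _ _
  have hp' : IsIso (L.map p) := Localization.inverts L (CofCat.W (C := FlatCat (piW GG))) p hp
  exact (hz.of_iso (asIso (L.map p))).of_iso e.symm

/-- **Small Hom sets** out of test objects. -/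
theorem small_loc {A : FlatCat (piW GG)} (hA : GG A.obj) (X : D) :
    Small.{v} (L.obj A ⟶ X) := by
  have : L.EssSurj := Localization.essSurj L (CofCat.W (C := FlatCat (piW GG)))
  let Y := L.objPreimage X
  let e : L.obj Y ≅ X := L.objObjPreimageIso X
  refine small_of_surjective (f := fun x : PiM A.obj Y.obj => phiF GG L A Y x ≫ e.hom) ?_
  intro f
  obtain ⟨x, hx⟩ := (phiF_bijective GG L hA Y).2 (f ≫ e.inv)
  exact ⟨x, by
    change phiF GG L A Y x ≫ e.hom = f
    rw [hx, Category.assoc, Iso.inv_hom_id, Category.comp_id]⟩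

end flat

end StabInput

end Vale.Agent.P251.H
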