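import Vale.Agent.P251.H.SpaceHomM
import Vale.Agent.P251.H.ConeTri
import Vale.Agent.P251.H.FlatStab
import Vale.Agent.P251.H.LocCpt

/-!
# P251, part H: the suspension spectrum functor

`spaceFunctor GG L₀ hGG : I.SpaceFunctor (TT (piModel GG) L₀)` for a class `GG` of test objects
containing the finite cell spaces.
-/

open CategoryTheory MonoidalCategory Limits ZeroObject Pretriangulated
open Functor.LaxMonoidal Functor.OplaxMonoidal

namespace Vale.Agent.P251.H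

open Vale.Agent.P251.G Vale.Agent.P251.G.LC LP

universe v' u' v u

namespace StabInput

variable {M : Type u} [Category.{v} M] [MonoidalCategory M] [SymmetricCategory M]
    [MonoidalClosed M] [HasZeroMorphisms M] [HasColimitsOfSize.{0, 0} M] [StabInput M]

section flat

variable (W : MorphismProperty M) [hW : GoodW W]

theorem isZero_JF {X : I.FCat} (hX : IsEmpty X.obj) : IsZero ((JF W).obj X) := by
  rw [IsZero.iff_id_eq_zero]
  ext
  change 𝟙 ((J M).obj X.obj) = 0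
  rw [← CategoryTheory.Functor.map_id, eq_zero_of_empty (𝟙 X.obj), J_map_zero]

theorem incH_μ (X : LC) :
    ((ρ_ ((J M).obj X)).inv ≫ (J M).obj X ◁ (ε (J M) ≫ (J M).map (point (X := HH) 0))) ≫
      μ (J M) X HH = (J M).map (inclH X) := by
  rw [Category.assoc, MonoidalCategory.whiskerLeft_comp, Category.assoc,
    Functor.LaxMonoidal.μ_natural_right, inclH, Functor.map_comp,
    Functor.LaxMonoidal.right_unitality_inv_assoc]

/-- the pushout square of a mapping cone of finite cell spaces, in the category of flat objects -/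
theorem isPushout_JF {X Y C : I.FCat} (f : X ⟶ Y) (j : Y ⟶ C) (k : X.obj ⊗ HH ⟶ C.obj)
    (hsq : IsPushout (inclH X.obj) f.hom k j.hom) :
    IsPushout ((JF W).map f) ((flatCone W).coneIn ((JF W).obj X)) ((JF W).map j)
      (ObjectProperty.homMk (μ (J M) X.obj HH ≫ (J M).map k) :
        (JF W).obj X ⊗ (flatCone W).CI ⟶ (JF W).obj C) := by
  refine isPushout_flat_of_hom ?_
  have h := StabInput.pushout (M := M) _ _ _ _ (injective_coneBase X.obj) hsq
  refine h.flip.of_iso (Iso.refl _) (Iso.refl _) (Functor.Monoidal.μIso (J M) X.obj HH).symm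
    (Iso.refl _) ?_ ?_ ?_ ?_
  · exact (Category.comp_id _).trans (Category.id_comp _).symm
  · refine Eq.trans ?_ (Category.id_comp _).symm
    change (J M).map (inclH X.obj) ≫ δ (J M) X.obj HH =
      (ρ_ ((J M).obj X.obj)).inv ≫ (J M).obj X.obj ◁ (ε (J M) ≫ (J M).map (point (X := HH) 0))
    rw [← incH_μ, Category.assoc, Functor.Monoidal.μ_δ, Category.comp_id]
  · exact (Category.comp_id _).trans (Category.id_comp _).symm
  · change (J M).map k ≫ 𝟙 _ = δ (J M) X.obj HH ≫ μ (J M) X.obj HH ≫ (J M).map k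
    rw [Functor.Monoidal.δ_μ_assoc, Category.comp_id]

theorem JF_μ_hom (X Y : I.FCat) : (μ (JF W) X Y).hom = μ (J M) X.obj Y.obj := by
  change μ (J M) X.obj Y.obj ≫ (J M).map (𝟙 _) = _
  exact (congrArg (μ (J M) X.obj Y.obj ≫ ·) ((J M).map_id _)).trans (Category.comp_id _)

theorem JF_δ_hom (X Y : I.FCat) : (δ (JF W) X Y).hom = δ (J M) X.obj Y.obj := by
  change (J M).map (𝟙 _) ≫ δ (J M) X.obj Y.obj = _
  exact (congrArg (· ≫ δ (J M) X.obj Y.obj) ((J M).map_id _)).trans (Category.id_comp _)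

theorem JF_map_δ_hom {X Y C : I.FCat} (d : C ⟶ X ⊗ Y) :
    ((JF W).map d ≫ δ (JF W) X Y).hom = (J M).map d.hom ≫ δ (J M) X.obj Y.obj := by
  rw [← JF_δ_hom W]
  rfl

/-- `J (X × ℝ) ⟶ J X ⊗ S` -/
noncomputable def JFδ (X : I.FCat) :
    (JF W).obj (X ⊗ I.RRF) ⟶ (JF W).obj X ⊗ (flatCone W).S := δ (JF W) X I.RRF

theorem conn_JF {X Y C : I.FCat} (j : Y ⟶ C) (k : X.obj ⊗ HH ⟶ C.obj)
    (d : C ⟶ X ⊗ I.RRF) (hj : j.hom ≫ d.hom = 0) (hk : k ≫ d.hom = X.obj ◁ openPart) :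
    (JF W).map j ≫ (JF W).map d ≫ JFδ W X = 0 ∧
    (ObjectProperty.homMk (μ (J M) X.obj HH ≫ (J M).map k) :
        (JF W).obj X ⊗ (flatCone W).CI ⟶ (JF W).obj C) ≫ (JF W).map d ≫ JFδ W X =
      (JF W).obj X ◁ (flatCone W).s := by
  constructor
  · ext
    refine (congrArg ((J M).map j.hom ≫ ·) (JF_map_δ_hom W d)).trans ?_
    change (J M).map j.hom ≫ (J M).map d.hom ≫ δ (J M) X.obj RR = 0
    rw [← Functor.map_comp_assoc, hj, J_map_zero, zero_comp]
  · ext
    refine (congrArg ((μ (J M) X.obj HH ≫ (J M).map k) ≫ ·) (JF_map_δ_hom W d)).trans ?_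
    change (μ (J M) X.obj HH ≫ (J M).map k) ≫ (J M).map d.hom ≫ δ (J M) X.obj RR =
      (J M).obj X.obj ◁ (J M).map openPart
    rw [Category.assoc, ← Functor.map_comp_assoc, hk, ← μ_natural_right_assoc,
      Functor.Monoidal.μ_δ, Category.comp_id]

end flat

theorem line_aux {T : Type*} [Category T] [MonoidalCategory T] (A : T) {S K : T} (x : S ⟶ K) :
    A ◁ (x ≫ (λ_ K).inv) ≫ A ◁ (λ_ K).hom = A ◁ x := by
  rw [← MonoidalCategory.whiskerLeft_comp, Category.assoc, Iso.inv_hom_id, Category.comp_id]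

theorem third_aux {C D : Type*} [Category C] [HasZeroObject C] [HasZeroMorphisms C]
    [HasBinaryCoproducts C] [CofCat C] [MonoidalCategory C] [SymmetricCategory C]
    [TensorCofCat C] [Category D] [MonoidalCategory D] (L : C ⥤ D) [L.Monoidal]
    (m : ConeModel C) {A P Q : C} (d : P ⟶ Q)
    (x : Q ⟶ A ⊗ m.S) {K : D} (κ : L.obj m.S ≅ K) :
    L.map d ≫ (L.map x ≫ δ L A m.S) ≫ L.obj A ◁ κ.hom =
      L.map (d ≫ x ≫ (m.suspIso A).hom) ≫ (m.shiftIso L κ).hom.app A := by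
  rw [ConeModel.shiftIso_hom_app, L.map_comp, L.map_comp, Category.assoc, Category.assoc,
    Category.assoc, ← L.map_comp_assoc (m.suspIso A).hom, Iso.hom_inv_id, L.map_id,
    Category.id_comp]

theorem full_aux {K C D : Type*} [Category K] [Category C] [Category D] [MonoidalCategory K]
    [MonoidalCategory C] [MonoidalCategory D] (F : K ⥤ C) [F.Monoidal] (G : C ⥤ D) [G.Monoidal]
    {X Y S : K} {P : C} (t : P ⟶ F.obj X) [IsIso (G.map t)] (x : P ⟶ F.obj Y)
    (g : G.obj (F.obj X) ⟶ G.obj (F.obj Y)) (hg : G.map t ≫ g = G.map x) (h : X ⊗ S ⟶ Y ⊗ S)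
    (hh : G.map (x ▷ F.obj S ≫ μ F Y S) = G.map (t ▷ F.obj S ≫ μ F X S ≫ F.map h)) :
    (F ⋙ G).map h = (Functor.Monoidal.μIso (F ⋙ G) X S).inv ≫ (g ▷ (F ⋙ G).obj S) ≫
      (Functor.Monoidal.μIso (F ⋙ G) Y S).hom := by
  rw [Iso.eq_inv_comp]
  change (μ G (F.obj X) (F.obj S) ≫ G.map (μ F X S)) ≫ G.map (F.map h) =
    g ▷ G.obj (F.obj S) ≫ μ G (F.obj Y) (F.obj S) ≫ G.map (μ F Y S)
  rw [← cancel_epi (G.map t ▷ G.obj (F.obj S)), ← MonoidalCategory.comp_whiskerRight_assoc, hg,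
    μ_natural_left_assoc, Category.assoc, μ_natural_left_assoc, ← G.map_comp, ← G.map_comp,
    ← G.map_comp, hh]

section sf

variable (GG : ObjectProperty M) [IsTest GG] {D₀ : Type u'} [Category.{v'} D₀]
  (L₀ : FlatCat (piW GG) ⥤ D₀) [L₀.IsLocalization (CofCat.W (C := FlatCat (piW GG)))]

/-- The suspension spectrum functor. -/
noncomputable def SF : I.FCat ⥤ TT (piModel GG) L₀ := JF (piW GG) ⋙ TT.L (piModel GG) L₀

noncomputable instance : (SF GG L₀).Braided :=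
  inferInstanceAs (JF (piW GG) ⋙ TT.L (piModel GG) L₀).Braided

theorem SF_μ (X Y : I.FCat) : μ (SF GG L₀) X Y =
    μ (TT.L (piModel GG) L₀) ((JF (piW GG)).obj X) ((JF (piW GG)).obj Y) ≫
      (TT.L (piModel GG) L₀).map (μ (JF (piW GG)) X Y) := rfl

theorem SF_δ (X Y : I.FCat) : δ (SF GG L₀) X Y =
    (TT.L (piModel GG) L₀).map (δ (JF (piW GG)) X Y) ≫
      δ (TT.L (piModel GG) L₀) ((JF (piW GG)).obj X) ((JF (piW GG)).obj Y) := rfl

/-- the line goes to the shift of the unit -/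
noncomputable def lineSF : (SF GG L₀).obj I.RRF ≅ (𝟙_ (TT (piModel GG) L₀))⟦(1 : ℤ)⟧ :=
  (λ_ ((TT.L (piModel GG) L₀).obj (piModel GG).m.S)).symm ≪≫
    (λ_ ((TT.inv (piModel GG) L₀).pow 1)).symm

theorem lineSF_e (A : TT (piModel GG) L₀) :
    A ◁ (lineSF GG L₀).hom ≫ (T.TensorTriangulated.e A).hom =
      A ◁ (λ_ ((TT.L (piModel GG) L₀).obj (piModel GG).m.S)).inv :=
  line_aux A (K := (TT.inv (piModel GG) L₀).pow 1)
    (λ_ ((TT.L (piModel GG) L₀).obj (piModel GG).m.S)).inv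

theorem third_SF {X C : I.FCat} (d : C ⟶ X ⊗ I.RRF) :
    (SF GG L₀).map d ≫ (Functor.Monoidal.μIso (SF GG L₀) X I.RRF).inv ≫
        ((SF GG L₀).obj X ◁ (lineSF GG L₀).hom) ≫
          (T.TensorTriangulated.e ((SF GG L₀).obj X)).hom =
      (TT.L (piModel GG) L₀).map ((JF (piW GG)).map d ≫ JFδ (piW GG) X ≫
        ((flatCone (piW GG)).suspIso ((JF (piW GG)).obj X)).hom) ≫
          (TT.τ (piModel GG) L₀).hom.app ((JF (piW GG)).obj X) := by
  refine (congrArg (fun g => (SF GG L₀).map d ≫ (Functor.Monoidal.μIso (SF GG L₀) X I.RRF).inv ≫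
    g) (lineSF_e GG L₀ _)).trans ?_
  exact third_aux (TT.L (piModel GG) L₀) (flatCone (piW GG)) ((JF (piW GG)).map d)
    (JFδ (piW GG) X) (K := (TT.inv (piModel GG) L₀).pow 1)
    (λ_ ((TT.L (piModel GG) L₀).obj (piModel GG).m.S)).symm

theorem cone_SF {X Y C : I.FCat} (f : X ⟶ Y) (j : Y ⟶ C) (k : X.obj ⊗ HH ⟶ C.obj)
    (hsq : IsPushout (inclH X.obj) f.hom k j.hom) (d : C ⟶ X ⊗ I.RRF)
    (hj : j.hom ≫ d.hom = 0) (hk : k ≫ d.hom = X.obj ◁ openPart) :
    Triangle.mk ((SF GG L₀).map f) ((SF GG L₀).map j)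
      ((SF GG L₀).map d ≫ (Functor.Monoidal.μIso (SF GG L₀) X I.RRF).inv ≫
        ((SF GG L₀).obj X ◁ (lineSF GG L₀).hom) ≫
          (T.TensorTriangulated.e ((SF GG L₀).obj X)).hom) ∈
      distTriang (TT (piModel GG) L₀) := by
  obtain ⟨e1, e2⟩ := conn_JF (piW GG) j k d hj hk
  have e3 : (flatCone (piW GG)).coneIn ((JF (piW GG)).obj X) ≫
      ((flatCone (piW GG)).coneIso ((JF (piW GG)).obj X)).hom =
        𝟙 _ ≫ CofCat.cin ((JF (piW GG)).obj X) :=
    ((flatCone (piW GG)).coneIn_coneIso _).trans (Category.id_comp _).symm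
  have hP := (isPushout_JF (piW GG) f j k hsq).of_iso (Iso.refl _) (Iso.refl _)
    ((flatCone (piW GG)).coneIso ((JF (piW GG)).obj X))
    (Iso.refl _) (by simp) e3 (f' := (JF (piW GG)).map f)
    (inl' := (JF (piW GG)).map j)
    (inr' := ((flatCone (piW GG)).coneIso ((JF (piW GG)).obj X)).inv ≫
      ObjectProperty.homMk (μ (J M) X.obj HH ≫ (J M).map k))
    (by simp) (by simp)
  have h := dist_cone (TT.τ (piModel GG) L₀) ((JF (piW GG)).map f) hP
    (d := (JF (piW GG)).map d ≫ JFδ (piW GG) X ≫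
      ((flatCone (piW GG)).suspIso ((JF (piW GG)).obj X)).hom)
    (by rw [reassoc_of% e1, zero_comp])
    (by rw [Category.assoc, reassoc_of% e2, ConeModel.s_suspIso, Iso.inv_hom_id_assoc])
  have e4 := third_SF GG L₀ d
  exact e4 ▸ h

theorem map_eq_SF {X Y : I.FCat} (f g : X ⟶ Y) (h : LC.Homotopic f.hom g.hom) :
    (SF GG L₀).map f = (SF GG L₀).map g :=
  CofCat.map_eq_of_Htpy (TT.L (piModel GG) L₀) (htpy_flat (MHtpy.map h))

theorem isZero_SF {X : I.FCat} (hX : IsEmpty X.obj) : IsZero ((SF GG L₀).obj X) :=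
  CofCat.isZero_map (TT.L (piModel GG) L₀) (isZero_JF (piW GG) hX)

variable (hGG : ∀ X, LC.FC X → GG ((J M).obj X))

include hGG in
theorem full_SF {X Y : I.FCat} (g : (SF GG L₀).obj X ⟶ (SF GG L₀).obj Y) :
    ∃ (n : ℕ) (h : X ⊗ I.SphF n ⟶ Y ⊗ I.SphF n),
      (SF GG L₀).map h = (Functor.Monoidal.μIso (SF GG L₀) X (I.SphF n)).inv ≫
        (g ▷ (SF GG L₀).obj (I.SphF n)) ≫
          (Functor.Monoidal.μIso (SF GG L₀) Y (I.SphF n)).hom := by
  let G := TT.L (piModel GG) L₀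
  have hC := compat_flat GG G
  obtain ⟨p, hp⟩ := (phiF_bijective GG G (A := (JF (piW GG)).obj X) (hGG _ X.property)
    ((JF (piW GG)).obj Y)).2 g
  obtain ⟨k, y, rfl⟩ := CoPt.cl_surj p
  obtain ⟨x, rfl⟩ := HM.proj_map_surjective y
  obtain ⟨h, hh⟩ := exists_space_map k x (tkM k ((J M).obj X.obj)) (proj_tkM k _)
  have e := phiM_cl hC k (ObjectProperty.homMk x :
    (relM (Flat (piW GG))).pwC k ((JF (piW GG)).obj X) ⟶ (JF (piW GG)).obj Y)
  let h' : X ⊗ I.SphF k ⟶ Y ⊗ I.SphF k := ObjectProperty.homMk h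
  refine ⟨k, h', ?_⟩
  have hi : IsIso (G.map (tkP (Flat (piW GG)) k ((JF (piW GG)).obj X))) := by
    have := isLocalization_flat GG G
    exact Localization.inverts G ((piW GG).inverseImage (Flat (piW GG)).ι) _
      (W_tkM (fun X => piW_lam X) k _)
  refine full_aux (JF (piW GG)) G (tkP (Flat (piW GG)) k ((JF (piW GG)).obj X))
    (ObjectProperty.homMk x) g (by rw [← hp]; exact e) h' ?_
  refine CofCat.map_eq_of_Htpy G (htpy_flat ?_)
  have h1 : MHtpy (x ▷ (J M).obj (Sph k) ≫ (μ (JF (piW GG)) Y (I.SphF k)).hom)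
      (tkM k ((J M).obj X.obj) ▷ (J M).obj (Sph k) ≫
        (μ (JF (piW GG)) X (I.SphF k)).hom ≫ (J M).map h) := by
    rw [JF_μ_hom, JF_μ_hom]
    exact hh
  exact h1

include hGG in
theorem faithful_SF {X Y : I.FCat} (f g : X ⟶ Y) (h : (SF GG L₀).map f = (SF GG L₀).map g) :
    ∃ n : ℕ, LC.Homotopic (f.hom ▷ Sph n) (g.hom ▷ Sph n) := by
  let G := TT.L (piModel GG) L₀
  have hC := compat_flat GG G
  have h1 : phiM hC _ _ ((stab M).coPt.cl 0 ((HM.proj M).map ((JF (piW GG)).map f).hom)) =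
      phiM hC _ _ ((stab M).coPt.cl 0 ((HM.proj M).map ((JF (piW GG)).map g).hom)) := by
    rw [phiM_cl_zero, phiM_cl_zero]
    exact h
  have h2 := (phiF_bijective GG G (A := (JF (piW GG)).obj X) (hGG _ X.property)
    ((JF (piW GG)).obj Y)).1 h1
  obtain ⟨m, hm, h3⟩ := ((stab M).coPt.cl_eq_iff' _ _).mp h2
  refine ⟨m, homotopic_of_tk m f.hom g.hom (tkM m ((J M).obj X.obj)) (proj_tkM m _) ?_⟩
  refine (HM.proj_map_eq_iff _ _).mp ?_
  rw [Functor.map_comp, Functor.map_comp, proj_tkM]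
  exact h3

/-- **The suspension spectrum functor.** -/
noncomputable def spaceFunctor : I.SpaceFunctor (TT (piModel GG) L₀) where
  S := SF GG L₀
  isZero := isZero_SF GG L₀
  map_eq := map_eq_SF GG L₀
  line := lineSF GG L₀
  cone := cone_SF GG L₀
  full := full_SF GG L₀ hGG
  faithful := faithful_SF GG L₀ hGG

end sf

end StabInput

end Vale.Agent.P251.H
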