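import Vale.Agent.P251.I.CofTriangle
import Vale.Agent.P251.M.SpaceConn

/-!
# P251, part H: maps out of finite cell spaces are detected by maps out of shifts of the unit
-/

open CategoryTheory MonoidalCategory Limits Pretriangulated

universe v u

namespace Vale.Agent.P251.H

open G G.LC I Vale.Agent.P251.T

variable {T : Type u} [Category.{v} T] [Preadditive T] [HasZeroObject T]
    [HasShift T ℤ] [∀ n : ℤ, (shiftFunctor T n).Additive] [Pretriangulated T]
    [MonoidalCategory T] [SymmetricCategory T] [TensorTriangulated T] (F : SpaceFunctor T)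

omit [HasZeroObject T] [Pretriangulated T] [MonoidalCategory T] [SymmetricCategory T]
  [TensorTriangulated T] in
/-- moving shifts from the target to the source -/
theorem eq_zero_of_shift_source {A Z : T} (h : ∀ (n : ℤ) (f : A⟦n⟧ ⟶ Z), f = 0) (m n : ℤ)
    (g : A⟦m⟧ ⟶ Z⟦n⟧) : g = 0 := by
  apply (shiftFunctor T (-n)).map_injective
  rw [Functor.map_zero, ← cancel_epi ((shiftFunctorAdd T m (-n)).hom.app A),
    ← cancel_mono ((shiftFunctorCompIsoId T n (-n) (by simp)).hom.app Z), comp_zero, zero_comp]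
  exact h (m + -n) _

omit [HasZeroObject T] [Pretriangulated T] [MonoidalCategory T] [SymmetricCategory T]
  [TensorTriangulated T] in
/-- moving shifts from the source to the target -/
theorem eq_zero_of_shift_target {A Z : T} (h : ∀ (n : ℤ) (f : A ⟶ Z⟦n⟧), f = 0) (n : ℤ)
    (g : A⟦n⟧ ⟶ Z) : g = 0 := by
  apply (shiftFunctor T (-n)).map_injective
  rw [Functor.map_zero, ← cancel_epi ((shiftFunctorCompIsoId T n (-n) (by simp)).inv.app A),
    comp_zero]
  exact h (-n) _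

/-- If all maps from shifts of the unit to `Z` vanish, then so do all maps from the suspension
spectra of finite cell spaces. -/
theorem eq_zero_of_unit {Z : T} (h : ∀ (n : ℤ) (f : (𝟙_ T)⟦n⟧ ⟶ Z), f = 0) (X : FCat) (n : ℤ)
    (f : F.S.obj X ⟶ Z⟦n⟧) : f = 0 := by
  obtain ⟨X, hX⟩ := X
  induction hX with
  | empty => exact (F.isZero (X := ⟨LC.of Empty, _⟩) (inferInstanceAs (IsEmpty Empty))).eq_of_src _ _
  | sph m =>
    rw [← cancel_epi (M.sphIso F m).inv, comp_zero]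
    exact eq_zero_of_shift_source h (m : ℤ) n _
  | @hequiv X Y hX e ih =>
    obtain ⟨a, b, h1, h2⟩ := e
    have : IsIso (F.S.map (FCat.hom a : (⟨X, hX⟩ : FCat) ⟶ ⟨Y, hX.hequiv ⟨a, b, h1, h2⟩⟩)) :=
      F.isIso_map _ ⟨b, h1, h2⟩
    rw [← cancel_epi (F.S.map (FCat.hom a : (⟨X, hX⟩ : FCat) ⟶ ⟨Y, _⟩)), comp_zero]
    exact ih _
  | @ext A B i hi hA hC ihA ihC =>
    have hB : FC B := FC.ext hi hA hC
    obtain ⟨g, hg⟩ : ∃ g : F.S.obj (cofF (FCat.hom i : (⟨A, hA⟩ : FCat) ⟶ ⟨B, hB⟩) hi) ⟶ Z⟦n⟧,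
        f = F.S.map (cofMapF (FCat.hom i : (⟨A, hA⟩ : FCat) ⟶ ⟨B, hB⟩) hi) ≫ g :=
      Triangle.yoneda_exact₂ _
        (F.cof_distinguished (FCat.hom i : (⟨A, hA⟩ : FCat) ⟶ ⟨B, hB⟩) hi) f (ihA _)
    rw [hg, ihC g, comp_zero]

/-- The same for maps out of shifts of suspension spectra. -/
theorem eq_zero_of_unit' {Z : T} (h : ∀ (n : ℤ) (f : (𝟙_ T)⟦n⟧ ⟶ Z), f = 0) (X : FCat) (n : ℤ)
    (f : (F.S.obj X)⟦n⟧ ⟶ Z) : f = 0 :=
  eq_zero_of_shift_target (fun n f => eq_zero_of_unit F h X n f) n f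

end Vale.Agent.P251.H
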