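import Vale.Agent.P251.H.UnitGen
import Vale.Agent.P251.H.FlatStab
import Vale.Agent.P251.H.GenFC

/-!
# P251, part H: the unit of `TT (piModel GG) L₀` is a compact generator
-/

open CategoryTheory MonoidalCategory Limits Pretriangulated

namespace Vale.Agent.P251.H

open Vale.Agent.P251.G Vale.Agent.P251.G.LC

universe v u v' u'

namespace StabInput

variable {M : Type u} [Category.{v} M] [MonoidalCategory M] [SymmetricCategory M]
    [MonoidalClosed M] [HasZeroMorphisms M] [HasColimitsOfSize.{0, 0} M] [StabInput M]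

section

variable (GG : ObjectProperty M) [IsTest GG] {D₀ : Type u'} [Category.{v'} D₀]
  (L₀ : FlatCat (piW GG) ⥤ D₀) [L₀.IsLocalization (CofCat.W (C := FlatCat (piW GG)))]

/-- `L S ≅ 𝟙⟦1⟧` -/
noncomputable def lineTT : (TT.L (piModel GG) L₀).obj (flatS (piW GG)) ≅
    (𝟙_ (TT (piModel GG) L₀))⟦(1 : ℤ)⟧ :=
  ((TT.inv (piModel GG) L₀).shiftOneIso (𝟙_ (TT (piModel GG) L₀)) ≪≫
    λ_ ((TT.L (piModel GG) L₀).obj (flatS (piW GG)))).symm

theorem isCpt_TT (hunit : GG (𝟙_ M)) : IsCpt (𝟙_ (TT (piModel GG) L₀)) :=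
  isCpt_unit GG (TT.L (piModel GG) L₀) (lineTT GG L₀) hunit

theorem small_TT (hunit : GG (𝟙_ M)) (n : ℤ) (X : TT (piModel GG) L₀) :
    Small.{v} ((𝟙_ (TT (piModel GG) L₀))⟦n⟧ ⟶ X) :=
  small_unit GG (TT.L (piModel GG) L₀) (lineTT GG L₀) hunit n X

end

/-- The finite cell spaces are closed under suspension. -/
instance fact_fcp : Fact (∀ K, I.FCP K → I.FCP (RR ⊗ K)) := ⟨fun _ h => fcRR.tensor h⟩

section

variable (AA : ObjectProperty LC) [Fact (∀ K, AA K → AA (RR ⊗ K))] {D₀ : Type u'}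
  [Category.{v'} D₀] (L₀ : FlatCat (piW (cells AA : ObjectProperty M)) ⥤ D₀)
  [L₀.IsLocalization (CofCat.W (C := FlatCat (piW (cells AA : ObjectProperty M))))]

/-- **The unit is a generator.** -/
theorem isGen_TT (hAA : ∀ K, AA K → FC K)
    (F : I.SpaceFunctor (TT (piModel (cells AA : ObjectProperty M)) L₀))
    (e : ∀ X : I.FCat, Nonempty (F.S.obj X ≅
      (TT.L (piModel (cells AA : ObjectProperty M)) L₀).obj ((JF _).obj X))) :
    IsGen (𝟙_ (TT (piModel (cells AA : ObjectProperty M)) L₀)) := by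
  intro X h
  refine isZero_of_cells AA (TT.L (piModel (cells AA : ObjectProperty M)) L₀)
    (lineTT (cells AA) L₀) hAA X (fun K hK n f => ?_)
  obtain ⟨e'⟩ := e ⟨K, hAA K hK⟩
  have h1 := eq_zero_of_unit' F h ⟨K, hAA K hK⟩ n
    ((shiftFunctor (TT (piModel (cells AA : ObjectProperty M)) L₀) n).map e'.hom ≫ f)
  exact (cancel_epi ((shiftFunctor (TT (piModel (cells AA : ObjectProperty M)) L₀) n).map
    e'.hom)).mp (h1.trans comp_zero.symm)

end

end StabInput

end Vale.Agent.P251.H
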