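import Vale.Agent.P251.H.Assemble
import Vale.Agent.P251.H.Base
import Vale.Agent.P251.H.UnitTT
import Vale.Agent.P251.H.SpaceFun

/-!
# P251, part H: existence of the stable homotopy category

`exists_stable`: there is a stable homotopy category (`St.SHCat`) with a suspension spectrum
functor in which all Bousfield localizations exist.
-/

open CategoryTheory MonoidalCategory Limits Pretriangulated

namespace Vale.Agent.P251.H

open Vale.Agent.P251.G Vale.Agent.P251.G.LC StabInput Vale.Agent.P251.T

/-- the test objects: `L^n ⊗ K`, `K` a finite cell space -/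
abbrev GGC : ObjectProperty CF := cells I.FCP

/-- the weak equivalences -/
abbrev WC : MorphismProperty CF := piW GGC

/-- the model -/
noncomputable abbrev PC : StabModel (FlatCat WC) := piModel GGC

theorem unit_GGC : GGC (𝟙_ CF) := cells_unit (AA := I.FCP)
  (FC.of_homeo (FC.sph 0) (Homeomorph.homeomorphOfUnique (Fin 0 → ℝ) Unit))

/-- the conclusion of `exists_stable` from the suspension spectrum functors -/
theorem exists_stable_of
    (F₁ : I.SpaceFunctor (TT PC (CofCat.W (C := FlatCat WC)).Q))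
    (e₁ : ∀ X : I.FCat, Nonempty (F₁.S.obj X ≅
      (TT.L PC (CofCat.W (C := FlatCat WC)).Q).obj ((JF WC).obj X)))
    (h₂ : ∀ (D : Type 1) [Category.{0} D] (L : FlatCat WC ⥤ D)
      [L.IsLocalization (CofCat.W (C := FlatCat WC))],
      ∃ F : I.SpaceFunctor (TT PC L), ∀ X : I.FCat, Nonempty (F.S.obj X ≅
        (TT.L PC L).obj ((JF WC).obj X))) :
    ∃ T : St.SHCat, Nonempty (I.SpaceFunctor T.C) ∧ ∀ K X : T.C, Nonempty (S.BLoc K X) := by
  obtain ⟨D, _, L, hL⟩ := exists_small_loc PC (isCpt_TT GGC _ unit_GGC)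
    (isGen_TT I.FCP _ (fun _ h => h) F₁ e₁) (small_TT GGC _ unit_GGC)
  obtain ⟨F, e⟩ := h₂ D L
  exact exists_shCat (TT PC L) (fun A _ X => preservesColimit_tensorLeft_TT GGC L A X)
    (isCpt_TT GGC L unit_GGC) (isGen_TT I.FCP L (fun _ h => h) F e) F

theorem J_GGC (X : LC) (h : LC.FC X) : GGC ((J CF).obj X) := cells_J (AA := I.FCP) h

/-- There is a stable homotopy category with a suspension spectrum functor in which all Bousfield
localizations exist. -/
theorem exists_stable :
    ∃ T : St.SHCat, Nonempty (I.SpaceFunctor T.C) ∧ ∀ K X : T.C, Nonempty (S.BLoc K X) :=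
  exists_stable_of (spaceFunctor GGC _ J_GGC) (fun _ => ⟨Iso.refl _⟩)
    (fun _ _ L _ => ⟨spaceFunctor GGC L J_GGC, fun _ => ⟨Iso.refl _⟩⟩)

end Vale.Agent.P251.H
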