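import Vale.Agent.P251.G.Homotopy
import Mathlib.Analysis.SpecialFunctions.Sigmoid
import Mathlib.Topology.Homotopy.Path
import Mathlib.AlgebraicTopology.FundamentalGroupoid.Basic

/-!
# P251, part H: loops in `LC` and the co-group structure of the line

Morphisms `RR ⟶ Z` in `LC` are the same as loops of `OnePoint Z` at `∞`.
-/

open CategoryTheory MonoidalCategory Filter Topology OnePoint

namespace Vale.Agent.P251.G.LC

theorem isOpenEmbedding_sigmoid : IsOpenEmbedding unitInterval.sigmoid :=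
  ⟨isEmbedding_sigmoid, by rw [unitInterval.range_sigmoid]; exact isOpen_Ioo⟩

/-- the collapse `[0,1] → OnePoint ℝ` -/
noncomputable def circ (t : unitInterval) : OnePoint ℝ :=
  collapseFun (X := LC.of unitInterval) (Y := RR) unitInterval.sigmoid (t : OnePoint unitInterval)

theorem continuous_circ : Continuous circ :=
  (continuous_collapseFun (X := LC.of unitInterval) (Y := RR) isOpenEmbedding_sigmoid).comp
    OnePoint.continuous_coe

@[simp] theorem circ_sigmoid (x : ℝ) : circ (unitInterval.sigmoid x) = (x : OnePoint ℝ) :=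
  collapseFun_coe_of_injective (X := LC.of unitInterval) (Y := RR)
    isOpenEmbedding_sigmoid.injective x

@[simp] theorem circ_zero : circ 0 = ∞ := by
  refine collapseFun_of_notMem (X := LC.of unitInterval) (Y := RR) ?_
  rw [unitInterval.range_sigmoid]
  exact fun h => lt_irrefl _ h.1

@[simp] theorem circ_one : circ 1 = ∞ := by
  refine collapseFun_of_notMem (X := LC.of unitInterval) (Y := RR) ?_
  rw [unitInterval.range_sigmoid]
  exact fun h => lt_irrefl _ h.2

theorem eq_zero_or_one_or_sigmoid (t : unitInterval) :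
    t = 0 ∨ t = 1 ∨ ∃ x : ℝ, unitInterval.sigmoid x = t := by
  by_cases h0 : t = 0
  · exact Or.inl h0
  by_cases h1 : t = 1
  · exact Or.inr (Or.inl h1)
  · refine Or.inr (Or.inr ?_)
    have : t ∈ Set.range unitInterval.sigmoid := by
      rw [unitInterval.range_sigmoid]
      exact ⟨lt_of_le_of_ne unitInterval.nonneg' (Ne.symm h0),
        lt_of_le_of_ne unitInterval.le_one' h1⟩
    exact this

/-- The loop of a morphism out of the line. -/
noncomputable def toLoop {Z : LC} (f : RR ⟶ Z) : Path (∞ : OnePoint Z) ∞ where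
  toFun t := app f (circ t)
  continuous_toFun := (continuous_app f).comp continuous_circ
  source' := by rw [circ_zero]; exact app_infty f
  target' := by rw [circ_one]; exact app_infty f

/-- The morphism out of the line given by a loop. -/
noncomputable def ofLoop {Z : LC} (γ : Path (∞ : OnePoint Z) ∞) : RR ⟶ Z :=
  ofCompactification (X := RR) unitInterval.sigmoid isOpenEmbedding_sigmoid γ γ.continuous (by
    intro k hk
    rcases eq_zero_or_one_or_sigmoid k with rfl | rfl | ⟨x, rfl⟩
    · exact γ.source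
    · exact γ.target
    · exact absurd ⟨x, rfl⟩ hk)

theorem app_ofLoop_coe {Z : LC} (γ : Path (∞ : OnePoint Z) ∞) (x : ℝ) :
    app (ofLoop γ) (x : OnePoint ℝ) = γ (unitInterval.sigmoid x) := rfl

theorem app_ofLoop_circ {Z : LC} (γ : Path (∞ : OnePoint Z) ∞) (t : unitInterval) :
    app (ofLoop γ) (circ t) = γ t := by
  rcases eq_zero_or_one_or_sigmoid t with rfl | rfl | ⟨x, rfl⟩
  · rw [circ_zero, γ.source]; exact app_infty (ofLoop γ)
  · rw [circ_one, γ.target]; exact app_infty (ofLoop γ)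
  · rw [circ_sigmoid]; rfl

@[simp] theorem toLoop_ofLoop {Z : LC} (γ : Path (∞ : OnePoint Z) ∞) : toLoop (ofLoop γ) = γ := by
  ext t; exact app_ofLoop_circ γ t

@[simp] theorem ofLoop_toLoop {Z : LC} (f : RR ⟶ Z) : ofLoop (toLoop f) = f := by
  apply hom_ext
  intro x
  rw [app_ofLoop_coe]
  change app f (circ _) = _
  rw [circ_sigmoid]

/-- Homotopic loops give homotopic morphisms. -/
theorem Homotopic.ofLoop {Z : LC} {γ δ : Path (∞ : OnePoint Z) ∞} (h : γ.Homotopic δ) :
    Homotopic (ofLoop γ) (ofLoop δ) := by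
  obtain ⟨F⟩ := h
  let J : RR × unitInterval → unitInterval × unitInterval :=
    fun p => (p.2, unitInterval.sigmoid p.1)
  have hJ : IsOpenEmbedding J :=
    (IsOpenEmbedding.id.prodMap isOpenEmbedding_sigmoid).comp
      (Homeomorph.prodComm RR unitInterval).isOpenEmbedding
  refine ⟨ofCompactification (X := LC.of (RR × unitInterval)) J hJ (fun p => F p)
      (map_continuous F) ?_, ?_, ?_⟩
  · rintro ⟨s, t⟩ hk
    rcases eq_zero_or_one_or_sigmoid t with rfl | rfl | ⟨x, rfl⟩
    · exact F.source s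
    · exact F.target s
    · exact absurd ⟨(x, s), rfl⟩ hk
  · apply hom_ext
    intro x
    change F (0, unitInterval.sigmoid x) = _
    rw [F.apply_zero]; rfl
  · apply hom_ext
    intro x
    change F (1, unitInterval.sigmoid x) = _
    rw [F.apply_one]; rfl

/-! ### Concatenation of morphisms out of the line -/

/-- Concatenation of morphisms `RR ⟶ Z`. -/
noncomputable def cat {Z : LC} (f g : RR ⟶ Z) : RR ⟶ Z := ofLoop ((toLoop f).trans (toLoop g))

/-- The reverse morphism. -/
noncomputable def rev {Z : LC} (f : RR ⟶ Z) : RR ⟶ Z := ofLoop (toLoop f).symm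

theorem toLoop_comp {Z W : LC} (f : RR ⟶ Z) (h : Z ⟶ W) (t : unitInterval) :
    toLoop (f ≫ h) t = app h (toLoop f t) := rfl

theorem cat_comp {Z W : LC} (f g : RR ⟶ Z) (h : Z ⟶ W) :
    cat f g ≫ h = cat (f ≫ h) (g ≫ h) := by
  apply hom_ext
  intro x
  rw [app_comp]
  unfold cat
  rw [app_ofLoop_coe, app_ofLoop_coe, Path.trans_apply, Path.trans_apply]
  split_ifs
  · rfl
  · rfl

theorem rev_comp {Z W : LC} (f : RR ⟶ Z) (h : Z ⟶ W) : rev f ≫ h = rev (f ≫ h) := by
  apply hom_ext
  intro x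
  rw [app_comp]
  unfold rev
  rw [app_ofLoop_coe, app_ofLoop_coe, Path.symm_apply, Path.symm_apply]
  rfl

theorem toLoop_zero (Z : LC) : toLoop (0 : RR ⟶ Z) = Path.refl ∞ := by
  ext t; rfl

theorem ofLoop_refl (Z : LC) : ofLoop (Path.refl (∞ : OnePoint Z)) = 0 := by
  rw [← toLoop_zero, ofLoop_toLoop]

theorem cat_assoc {Z : LC} (f g h : RR ⟶ Z) :
    Homotopic (cat (cat f g) h) (cat f (cat g h)) := by
  unfold cat
  rw [toLoop_ofLoop, toLoop_ofLoop]
  exact Homotopic.ofLoop ⟨Path.Homotopy.transAssoc _ _ _⟩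

theorem zero_cat {Z : LC} (f : RR ⟶ Z) : Homotopic (cat 0 f) f := by
  conv_rhs => rw [← ofLoop_toLoop f]
  unfold cat
  rw [toLoop_zero]
  exact Homotopic.ofLoop ⟨Path.Homotopy.reflTrans _⟩

theorem cat_zero {Z : LC} (f : RR ⟶ Z) : Homotopic (cat f 0) f := by
  conv_rhs => rw [← ofLoop_toLoop f]
  unfold cat
  rw [toLoop_zero]
  exact Homotopic.ofLoop ⟨Path.Homotopy.transRefl _⟩

theorem rev_cat {Z : LC} (f : RR ⟶ Z) : Homotopic (cat (rev f) f) 0 := by
  rw [← ofLoop_refl]
  unfold cat rev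
  rw [toLoop_ofLoop]
  exact (Homotopic.ofLoop ⟨Path.Homotopy.reflSymmTrans _⟩).symm

theorem cat_rev {Z : LC} (f : RR ⟶ Z) : Homotopic (cat f (rev f)) 0 := by
  rw [← ofLoop_refl]
  unfold cat rev
  rw [toLoop_ofLoop]
  exact (Homotopic.ofLoop ⟨Path.Homotopy.reflTransSymm _⟩).symm

/-- The reflection of the line. -/
def neg : RR ⟶ RR := (ofHomeo (X := RR) (Y := RR) (Homeomorph.neg ℝ)).hom

@[simp] theorem app_neg_coe (x : ℝ) : app neg (x : OnePoint ℝ) = ((-x : ℝ) : OnePoint ℝ) := rfl

theorem neg_neg : neg ≫ neg = 𝟙 RR := by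
  apply hom_ext
  intro x
  rw [app_comp, app_neg_coe, app_neg_coe, _root_.neg_neg]
  rfl

theorem neg_comp {Z : LC} (f : RR ⟶ Z) : neg ≫ f = rev f := by
  apply hom_ext
  intro x
  unfold rev
  rw [app_comp, app_neg_coe, app_ofLoop_coe, Path.symm_apply]
  change _ = app f (circ (unitInterval.symm (unitInterval.sigmoid x)))
  rw [← unitInterval.sigmoid_neg, circ_sigmoid]

end Vale.Agent.P251.G.LC
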