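import Vale.Agent.P251.G.Pushout
import Vale.Agent.P251.H.Loop
import Mathlib.Analysis.SpecialFunctions.Log.Basic

/-!
# P251, part H: gluing in `LC` needed for the Puppe sequence

* `incPos, incNeg : HH ⟶ RR` and the pushout `RR = HH ∪ HH`;
* `pinch : RR ⟶ RR ⊔ RR` and its version `pinch'` glued from the two halves;
* `LL : II ⟶ HH`, the collapse of the end point `1`;
* homotopies.
-/

open CategoryTheory MonoidalCategory Filter Topology OnePoint Limits

namespace Vale.Agent.P251.H.LP

open Vale.Agent.P251.G Vale.Agent.P251.G.LC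

/-- the point `0` of the half line -/
def zeroHH : 𝟙_ LC ⟶ HH := point (X := HH) (0 : NNReal)

theorem app_point {X : LC} (x : X) (u : Unit) :
    app (point x) (u : OnePoint Unit) = (x : OnePoint X) := rfl

/-- the inclusion `[0,∞) → ℝ` -/
noncomputable def incPos : HH ⟶ RR :=
  ofClosed (X := HH) (Y := RR) (fun x : NNReal => (x : ℝ)) NNReal.isClosedEmbedding_coe

theorem isClosedEmbedding_negCoe : IsClosedEmbedding (fun x : NNReal => -(x : ℝ)) :=
  (Homeomorph.neg ℝ).isClosedEmbedding.comp NNReal.isClosedEmbedding_coe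

/-- the inclusion `[0,∞) → ℝ`, `x ↦ -x` -/
noncomputable def incNeg : HH ⟶ RR :=
  ofClosed (X := HH) (Y := RR) (fun x : NNReal => -(x : ℝ)) isClosedEmbedding_negCoe

@[simp] theorem app_incPos (x : NNReal) :
    app incPos (x : OnePoint NNReal) = ((x : ℝ) : OnePoint ℝ) := rfl

@[simp] theorem app_incNeg (x : NNReal) :
    app incNeg (x : OnePoint NNReal) = ((-(x : ℝ) : ℝ) : OnePoint ℝ) := rfl

theorem incPos_neg : incPos ≫ neg = incNeg := by
  apply hom_ext; intro x; rfl

theorem zeroHH_incPos : zeroHH ≫ incPos = point (X := RR) (0 : ℝ) := by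
  apply hom_ext; intro x; rfl

theorem zeroHH_incNeg : zeroHH ≫ incNeg = point (X := RR) (0 : ℝ) := by
  apply hom_ext; intro x
  change ((-((0 : NNReal) : ℝ) : ℝ) : OnePoint ℝ) = ((0 : ℝ) : OnePoint ℝ)
  simp

theorem injective_app_incPos : Function.Injective (app incPos) :=
  injective_app_ofClosed _ _

theorem injective_app_incNeg : Function.Injective (app incNeg) :=
  injective_app_ofClosed _ _

theorem injective_app_zeroHH : Function.Injective (app zeroHH) := by
  intro x y h
  induction x using OnePoint.rec with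
  | infty =>
    induction y using OnePoint.rec with
    | infty => rfl
    | coe y => exact absurd (h.symm.trans (app_infty zeroHH)) (OnePoint.coe_ne_infty _)
  | coe x =>
    induction y using OnePoint.rec with
    | infty => exact absurd (h.trans (app_infty zeroHH)) (OnePoint.coe_ne_infty _)
    | coe y => rfl

/-- The line is glued from two half lines. -/
theorem isPushout_RR : IsPushout zeroHH zeroHH incPos incNeg := by
  refine isPushout_of (zeroHH_incPos.trans zeroHH_incNeg.symm) injective_app_incNeg ?_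
  have hneg : ∀ x : ℝ, (x : OnePoint ℝ) ∈ Set.range (app incNeg) ↔ x ≤ 0 := by
    intro x
    refine (coe_mem_range_app_ofClosed (Z := HH) (Y := RR) (fun x : NNReal => -(x : ℝ))
      isClosedEmbedding_negCoe x).trans ?_
    constructor
    · rintro ⟨y, rfl⟩
      exact neg_nonpos.mpr y.2
    · intro hx
      exact ⟨⟨-x, neg_nonneg.mpr hx⟩, _root_.neg_neg x⟩
  have hz : ∀ x : NNReal, (x : OnePoint NNReal) ∈ Set.range (app zeroHH) ↔ x = 0 := by
    intro x
    constructor
    · rintro ⟨y, hy⟩
      induction y using OnePoint.rec with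
      | infty => exact absurd ((app_infty zeroHH).symm.trans hy).symm (OnePoint.coe_ne_infty _)
      | coe y => exact (OnePoint.coe_injective hy).symm
    · rintro rfl
      exact ⟨((() : Unit) : OnePoint Unit), rfl⟩
  refine ⟨?_, injective_app_incPos.injOn, ?_⟩
  · intro x hx
    induction x using OnePoint.rec with
    | infty => exact absurd ⟨∞, app_infty zeroHH⟩ hx
    | coe x =>
      rw [Set.mem_compl_iff, hz] at hx
      rw [Set.mem_compl_iff, app_incPos, hneg, not_le]
      exact lt_of_le_of_ne x.2 (fun h => hx (Subtype.ext h.symm))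
  · intro y hy
    induction y using OnePoint.rec with
    | infty => exact absurd ⟨∞, app_infty incNeg⟩ hy
    | coe y =>
      rw [Set.mem_compl_iff, hneg, not_le] at hy
      let y' : NNReal := ⟨y, hy.le⟩
      refine ⟨(y' : OnePoint NNReal), ?_, rfl⟩
      rw [Set.mem_compl_iff, hz]
      intro h
      exact hy.ne' (congrArg NNReal.toReal h)

/-- Morphisms out of the line are determined on the two half lines. -/
theorem RR_hom_ext {Z : LC} {f g : RR ⟶ Z} (h1 : incPos ≫ f = incPos ≫ g)
    (h2 : incNeg ≫ f = incNeg ≫ g) : f = g := isPushout_RR.hom_ext h1 h2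

/-- The gluing of two morphisms out of the half line: `a` on `[0,∞)`, `b(-x)` on `(-∞,0]`. -/
noncomputable def glueRR {Z : LC} (a b : HH ⟶ Z) (w : zeroHH ≫ a = zeroHH ≫ b) : RR ⟶ Z :=
  isPushout_RR.desc a b w

@[reassoc (attr := simp)]
theorem incPos_glueRR {Z : LC} (a b : HH ⟶ Z) (w : zeroHH ≫ a = zeroHH ≫ b) :
    incPos ≫ glueRR a b w = a := isPushout_RR.inl_desc _ _ _

@[reassoc (attr := simp)]
theorem incNeg_glueRR {Z : LC} (a b : HH ⟶ Z) (w : zeroHH ≫ a = zeroHH ≫ b) :
    incNeg ≫ glueRR a b w = b := isPushout_RR.inr_desc _ _ _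

theorem app_glueRR_of_nonneg {Z : LC} (a b : HH ⟶ Z) (w : zeroHH ≫ a = zeroHH ≫ b) (x : NNReal) :
    app (glueRR a b w) ((x : ℝ) : OnePoint ℝ) = app a (x : OnePoint NNReal) := by
  rw [← app_incPos, ← app_comp, incPos_glueRR]

theorem app_glueRR_of_nonpos {Z : LC} (a b : HH ⟶ Z) (w : zeroHH ≫ a = zeroHH ≫ b) (x : NNReal) :
    app (glueRR a b w) ((-(x : ℝ) : ℝ) : OnePoint ℝ) = app b (x : OnePoint NNReal) := by
  rw [← app_incNeg, ← app_comp, incNeg_glueRR]

theorem zeroHH_collHH : zeroHH ≫ collHH = 0 := by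
  apply hom_ext; intro x
  change app collHH ((0 : NNReal) : OnePoint NNReal) = ∞
  exact app_ofOpen_of_notMem (X := HH) (Y := RR) expHH isOpenEmbedding_expHH
    (fun h => (mem_range_expHH 0).mp h rfl)

@[simp] theorem app_collHH_zero : app collHH ((0 : NNReal) : OnePoint NNReal) = ∞ :=
  app_ofOpen_of_notMem (X := HH) (Y := RR) expHH isOpenEmbedding_expHH
    (fun h => (mem_range_expHH 0).mp h rfl)

@[simp] theorem app_collHH_exp (t : ℝ) :
    app collHH ((expHH t : NNReal) : OnePoint NNReal) = (t : OnePoint ℝ) :=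
  app_ofOpen_coe (X := HH) (Y := RR) expHH isOpenEmbedding_expHH t

theorem app_collHH_of_pos (x : NNReal) (hx : x ≠ 0) :
    app collHH (x : OnePoint NNReal) = (Real.log x : OnePoint ℝ) := by
  have h : expHH (Real.log x) = x := by
    apply NNReal.coe_injective
    exact Real.exp_log (lt_of_le_of_ne x.2 (fun h => hx (Subtype.ext h.symm)))
  conv_lhs => rw [← h]
  exact app_collHH_exp _

/-- The pinch map as a concatenation. -/
noncomputable def pinch : RR ⟶ sum RR RR := cat (sumInl RR RR) (sumInr RR RR)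

theorem pinch_desc {Z : LC} (f g : RR ⟶ Z) : pinch ≫ sumDesc f g = cat f g := by
  unfold pinch
  rw [cat_comp, sumInl_desc, sumInr_desc]

/-- The pinch map glued from the two halves. -/
noncomputable def pinch' : RR ⟶ sum RR RR :=
  glueRR (collHH ≫ sumInr RR RR) (collHH ≫ neg ≫ sumInl RR RR) (by
    rw [← Category.assoc, zeroHH_collHH, ← Category.assoc, zeroHH_collHH, zero_comp, zero_comp])

/-! ### Reparametrization -/

theorem tendsto_of_bounds {T : Type*} [TopologicalSpace T] {z : T}
    {F : ℝ × unitInterval → T} (h : ∀ N ∈ 𝓝 z, ∃ A : ℝ, ∀ x s, A < |x| → F (x, s) ∈ N) :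
    Tendsto F (cocompact (ℝ × unitInterval)) (𝓝 z) := by
  intro N hN
  obtain ⟨A, hA⟩ := h N hN
  rw [mem_map, mem_cocompact]
  refine ⟨Set.Icc (-A) A ×ˢ Set.univ, isCompact_Icc.prod isCompact_univ, ?_⟩
  rintro ⟨x, s⟩ hx
  apply hA
  by_contra hc
  exact hx ⟨abs_le.mp (not_lt.mp hc), Set.mem_univ _⟩

/-- The morphism `x ↦ γ (G x)`, where `G : ℝ → [0,1]` goes from `0` to `1`. -/
noncomputable def ofReparam {Z : LC} (γ : Path (∞ : OnePoint Z) ∞) (G : ℝ → unitInterval)
    (hG : Continuous G) (h0 : Tendsto G atBot (𝓝 0)) (h1 : Tendsto G atTop (𝓝 1)) : RR ⟶ Z :=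
  mk' (X := RR) (fun x => γ (G x)) (γ.continuous.comp hG) (by
    have : cocompact ℝ = atBot ⊔ atTop := cocompact_eq_atBot_atTop
    change Tendsto _ (cocompact ℝ) _
    rw [this]
    refine Tendsto.sup ?_ ?_
    · have := (γ.continuous.tendsto 0).comp h0
      rwa [γ.source] at this
    · have := (γ.continuous.tendsto 1).comp h1
      rwa [γ.target] at this)

theorem homotopic_ofReparam {Z : LC} (γ : Path (∞ : OnePoint Z) ∞) (G : ℝ → unitInterval)
    (hG : Continuous G) (h0 : Tendsto G atBot (𝓝 0)) (h1 : Tendsto G atTop (𝓝 1)) :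
    Homotopic (ofReparam γ G hG h0 h1) (ofLoop γ) := by
  let C : ℝ × unitInterval → unitInterval := fun p =>
    ⟨(1 - (p.2 : ℝ)) * (G p.1 : ℝ) + (p.2 : ℝ) * (unitInterval.sigmoid p.1 : ℝ), by
      have a1 := (G p.1).2.1
      have a2 := (G p.1).2.2
      have b1 := (unitInterval.sigmoid p.1).2.1
      have b2 := (unitInterval.sigmoid p.1).2.2
      have c1 := p.2.2.1
      have c2 := p.2.2.2
      constructor
      · have := mul_nonneg (sub_nonneg.mpr c2) a1
        have := mul_nonneg c1 b1
        linarith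
      · have := mul_le_mul_of_nonneg_left a2 (sub_nonneg.mpr c2)
        have := mul_le_mul_of_nonneg_left b2 c1
        linarith⟩
  have hC : Continuous C := by
    refine Continuous.subtype_mk ?_ _
    have e1 : Continuous fun p : ℝ × unitInterval => (p.2 : ℝ) :=
      continuous_subtype_val.comp continuous_snd
    have e2 : Continuous fun p : ℝ × unitInterval => (G p.1 : ℝ) :=
      continuous_subtype_val.comp (hG.comp continuous_fst)
    have e3 : Continuous fun p : ℝ × unitInterval => (unitInterval.sigmoid p.1 : ℝ) :=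
      continuous_subtype_val.comp (unitInterval.continuous_sigmoid.comp continuous_fst)
    exact ((continuous_const.sub e1).mul e2).add (e1.mul e3)
  have hlim : Tendsto (fun p => γ (C p)) (cocompact (ℝ × unitInterval)) (𝓝 ∞) := by
    apply tendsto_of_bounds
    intro N hN
    have n0 : γ ⁻¹' N ∈ 𝓝 (0 : unitInterval) := by
      apply γ.continuous.continuousAt
      rwa [γ.source]
    have n1 : γ ⁻¹' N ∈ 𝓝 (1 : unitInterval) := by
      apply γ.continuous.continuousAt
      rwa [γ.target]
    obtain ⟨ε0, he0, hb0⟩ := Metric.mem_nhds_iff.mp n0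
    obtain ⟨ε1, he1, hb1⟩ := Metric.mem_nhds_iff.mp n1
    have g0 := (h0.eventually (Metric.ball_mem_nhds _ he0)).and
      (unitInterval.tendsto_sigmoid_atBot.eventually (Metric.ball_mem_nhds _ he0))
    have g1 := (h1.eventually (Metric.ball_mem_nhds _ he1)).and
      (unitInterval.tendsto_sigmoid_atTop.eventually (Metric.ball_mem_nhds _ he1))
    obtain ⟨A0, hA0⟩ := eventually_atBot.mp g0
    obtain ⟨A1, hA1⟩ := eventually_atTop.mp g1
    refine ⟨max |A0| |A1|, fun x s hx => ?_⟩
    have c1 := s.2.1
    have c2 := s.2.2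
    rcases le_or_gt 0 x with hx0 | hx0
    · rw [abs_of_nonneg hx0] at hx
      have hx1 : A1 ≤ x := (le_abs_self A1).trans ((le_max_right _ _).trans hx.le)
      obtain ⟨d1, d2⟩ := hA1 x hx1
      refine hb1 (Metric.mem_ball.mpr ?_)
      rw [Subtype.dist_eq, Real.dist_eq, abs_lt] at d1 d2 ⊢
      have e1 := mul_le_mul_of_nonneg_left d1.1.le (sub_nonneg.mpr c2)
      have a1 := (G x).2.2
      have b1 := (unitInterval.sigmoid x).2.2
      change -ε1 < ((1 - (s : ℝ)) * (G x : ℝ) + (s : ℝ) * (unitInterval.sigmoid x : ℝ)) - 1 ∧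
        ((1 - (s : ℝ)) * (G x : ℝ) + (s : ℝ) * (unitInterval.sigmoid x : ℝ)) - 1 < ε1
      have f1 : (1 : ℝ) - ε1 < G x := by
        have := d1.1; change -ε1 < (G x : ℝ) - 1 at this; linarith
      have f2 : (1 : ℝ) - ε1 < unitInterval.sigmoid x := by
        have := d2.1; change -ε1 < (unitInterval.sigmoid x : ℝ) - 1 at this; linarith
      have m1 := convex_Ioo (1 - ε1) (1 + ε1) ⟨f1, by linarith⟩ ⟨f2, by linarith⟩
        (sub_nonneg.mpr c2) c1 (sub_add_cancel 1 (s : ℝ))
      simp only [smul_eq_mul, Set.mem_Ioo] at m1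
      constructor <;> linarith [m1.1, m1.2]
    · rw [abs_of_neg hx0] at hx
      have hx1 : x ≤ A0 := by
        have := (neg_abs_le A0)
        have := (le_max_left |A0| |A1|).trans hx.le
        linarith
      obtain ⟨d1, d2⟩ := hA0 x hx1
      refine hb0 (Metric.mem_ball.mpr ?_)
      rw [Subtype.dist_eq, Real.dist_eq, abs_lt] at d1 d2 ⊢
      have a1 := (G x).2.1
      have b1 := (unitInterval.sigmoid x).2.1
      change -ε0 < ((1 - (s : ℝ)) * (G x : ℝ) + (s : ℝ) * (unitInterval.sigmoid x : ℝ)) - 0 ∧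
        ((1 - (s : ℝ)) * (G x : ℝ) + (s : ℝ) * (unitInterval.sigmoid x : ℝ)) - 0 < ε0
      have f1 : (G x : ℝ) < ε0 := by
        have := d1.2; change (G x : ℝ) - 0 < ε0 at this; linarith
      have f2 : (unitInterval.sigmoid x : ℝ) < ε0 := by
        have := d2.2; change (unitInterval.sigmoid x : ℝ) - 0 < ε0 at this; linarith
      have m1 := convex_Ioo (-ε0) ε0 ⟨by linarith, f1⟩ ⟨by linarith, f2⟩
        (sub_nonneg.mpr c2) c1 (sub_add_cancel 1 (s : ℝ))
      simp only [smul_eq_mul, Set.mem_Ioo] at m1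
      constructor <;> linarith [m1.1, m1.2]
  refine ⟨mk' (X := LC.of (ℝ × unitInterval)) (fun p => γ (C p)) (γ.continuous.comp hC) hlim,
    ?_, ?_⟩
  · apply hom_ext
    intro x
    change γ (C (x, 0)) = γ (G x)
    congr 1
    apply Subtype.ext
    simp [C]
  · apply hom_ext
    intro x
    change γ (C (x, 1)) = γ (unitInterval.sigmoid x)
    congr 1
    apply Subtype.ext
    simp [C]

/-! ### `pinch'` is homotopic to `pinch` -/

theorem circ_of_pos (s : unitInterval) (x : NNReal) (h : (s : ℝ) = (x : ℝ) / (1 + x)) :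
    circ s = app collHH (x : OnePoint NNReal) := by
  by_cases hx : x = 0
  · subst hx
    have : s = 0 := by
      apply Subtype.ext
      rw [h]
      simp
    rw [this, circ_zero, app_collHH_zero]
  · rw [app_collHH_of_pos x hx]
    have hx0 : (0 : ℝ) < x := lt_of_le_of_ne x.2 (fun h => hx (Subtype.ext h.symm))
    have : s = unitInterval.sigmoid (Real.log x) := by
      apply Subtype.ext
      rw [h]
      change _ = (1 + Real.exp (-Real.log x))⁻¹
      rw [Real.exp_neg, Real.exp_log hx0]
      field_simp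
      ring
    rw [this, circ_sigmoid]

theorem circ_of_neg (s : unitInterval) (x : NNReal) (h : (s : ℝ) = 1 / (1 + (x : ℝ))) :
    circ s = app neg (app collHH (x : OnePoint NNReal)) := by
  by_cases hx : x = 0
  · subst hx
    have : s = 1 := by
      apply Subtype.ext
      rw [h]
      simp
    rw [this, circ_one, app_collHH_zero]
    exact (app_infty neg).symm
  · rw [app_collHH_of_pos x hx, app_neg_coe]
    have hx0 : (0 : ℝ) < x := lt_of_le_of_ne x.2 (fun h => hx (Subtype.ext h.symm))
    have : s = unitInterval.sigmoid (-Real.log x) := by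
      apply Subtype.ext
      rw [h]
      change _ = (1 + Real.exp (-(-Real.log x)))⁻¹
      rw [_root_.neg_neg, Real.exp_log hx0, one_div]
    rw [this, circ_sigmoid]

/-- The reparametrization `x ↦ (1 + x / (1 + |x|)) / 2`. -/
noncomputable def repG (x : ℝ) : unitInterval :=
  ⟨(1 + x / (1 + |x|)) / 2, by
    have h1 : 0 < 1 + |x| := by positivity
    have h2 : |x / (1 + |x|)| ≤ 1 := by
      rw [abs_div, abs_of_pos h1, div_le_one h1]
      linarith
    have h3 := abs_le.mp h2
    constructor <;> linarith [h3.1, h3.2]⟩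

theorem repG_of_nonneg {x : ℝ} (hx : 0 ≤ x) : (repG x : ℝ) = (1 + x / (1 + x)) / 2 := by
  change (1 + x / (1 + |x|)) / 2 = _
  rw [abs_of_nonneg hx]

theorem repG_neg {x : ℝ} (hx : 0 ≤ x) : (repG (-x) : ℝ) = (1 / (1 + x)) / 2 := by
  change (1 + -x / (1 + |-x|)) / 2 = _
  rw [abs_neg, abs_of_nonneg hx]
  have : 0 < 1 + x := by linarith
  field_simp
  ring

theorem continuous_repG : Continuous repG := by
  refine Continuous.subtype_mk ?_ _
  refine (continuous_const.add (continuous_id.div (continuous_const.add continuous_abs)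
    ?_)).div_const 2
  intro x
  have : 0 < 1 + |x| := by positivity
  exact this.ne'

theorem tendsto_one_div_one_add : Tendsto (fun x : ℝ => 1 / (1 + x)) atTop (𝓝 0) := by
  simp only [one_div]
  exact tendsto_inv_atTop_zero.comp (tendsto_atTop_add_const_left _ 1 tendsto_id)

theorem tendsto_repG_atTop : Tendsto repG atTop (𝓝 1) := by
  rw [tendsto_subtype_rng]
  have h1 : Tendsto (fun x : ℝ => 1 - (1 / (1 + x)) / 2) atTop (𝓝 (1 - 0 / 2)) :=
    tendsto_const_nhds.sub (tendsto_one_div_one_add.div_const 2)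
  have h2 : (1 : ℝ) - 0 / 2 = ((1 : unitInterval) : ℝ) := by simp
  rw [h2] at h1
  refine h1.congr' ?_
  filter_upwards [eventually_ge_atTop 0] with x hx
  rw [repG_of_nonneg hx]
  have : 0 < 1 + x := by linarith
  field_simp
  ring

theorem tendsto_repG_atBot : Tendsto repG atBot (𝓝 0) := by
  rw [tendsto_subtype_rng]
  have h1 : Tendsto (fun x : ℝ => (1 / (1 + -x)) / 2) atBot (𝓝 (0 / 2)) :=
    (tendsto_one_div_one_add.comp tendsto_neg_atBot_atTop).div_const 2
  have h2 : (0 : ℝ) / 2 = ((0 : unitInterval) : ℝ) := by simp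
  rw [h2] at h1
  refine h1.congr' ?_
  filter_upwards [eventually_le_atBot 0] with x hx
  have := repG_neg (neg_nonneg.mpr hx)
  rw [_root_.neg_neg] at this
  exact this.symm

theorem pinch'_eq : pinch' = ofReparam ((toLoop (sumInl RR RR)).trans (toLoop (sumInr RR RR)))
    repG continuous_repG tendsto_repG_atBot tendsto_repG_atTop := by
  apply RR_hom_ext
  · apply hom_ext
    intro x
    rw [app_comp, app_comp, app_incPos]
    unfold pinch'
    rw [app_glueRR_of_nonneg, app_comp]
    change _ = ((toLoop (sumInl RR RR)).trans (toLoop (sumInr RR RR))) (repG x)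
    have hx : (0 : ℝ) ≤ x := x.2
    have h0 : 0 < 1 + (x : ℝ) := by linarith
    rw [Path.trans_apply]
    by_cases h : (repG x : ℝ) ≤ 1 / 2
    · rw [dif_pos h]
      have hx0 : x = 0 := by
        rw [repG_of_nonneg hx] at h
        have h1 : (x : ℝ) / (1 + x) ≤ 0 := by linarith
        rw [div_le_iff₀ h0, zero_mul] at h1
        exact NNReal.coe_injective (le_antisymm h1 hx)
      subst hx0
      rw [app_collHH_zero, app_infty]
      change _ = app (sumInl RR RR) (circ _)
      have : circ ⟨2 * (repG ((0 : NNReal) : ℝ) : ℝ), (unitInterval.mul_pos_mem_iff zero_lt_two).2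
          ⟨(repG ((0 : NNReal) : ℝ)).2.1, h⟩⟩ = ∞ := by
        have h1 : (⟨2 * (repG ((0 : NNReal) : ℝ) : ℝ), (unitInterval.mul_pos_mem_iff zero_lt_two).2
          ⟨(repG ((0 : NNReal) : ℝ)).2.1, h⟩⟩ : unitInterval) = 1 := by
          apply Subtype.ext
          change 2 * (repG ((0 : NNReal) : ℝ) : ℝ) = 1
          rw [repG_of_nonneg (NNReal.coe_nonneg 0)]
          simp
        rw [h1, circ_one]
      rw [this]
      exact (app_infty _).symm
    · rw [dif_neg h]
      change _ = app (sumInr RR RR) (circ _)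
      congr 1
      symm
      apply circ_of_pos
      change 2 * (repG x : ℝ) - 1 = _
      rw [repG_of_nonneg hx]
      ring
  · apply hom_ext
    intro x
    rw [app_comp, app_comp, app_incNeg]
    unfold pinch'
    rw [app_glueRR_of_nonpos, app_comp, app_comp]
    change _ = ((toLoop (sumInl RR RR)).trans (toLoop (sumInr RR RR))) (repG (-x))
    have hx : (0 : ℝ) ≤ x := x.2
    have h0 : 0 < 1 + (x : ℝ) := by linarith
    have h : (repG (-x) : ℝ) ≤ 1 / 2 := by
      rw [repG_neg hx]
      have : 1 / (1 + (x : ℝ)) ≤ 1 := by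
        rw [div_le_one h0]; linarith
      linarith
    rw [Path.trans_apply, dif_pos h]
    change _ = app (sumInl RR RR) (circ _)
    congr 1
    symm
    apply circ_of_neg
    change 2 * (repG (-x) : ℝ) = _
    rw [repG_neg hx]
    ring

theorem homotopic_pinch' : Homotopic pinch' pinch := by
  rw [pinch'_eq]
  exact homotopic_ofReparam _ _ _ _ _

/-- A morphism glued from `collHH ≫ b` on the positive half and `collHH ≫ a` on the negative half
is homotopic to the concatenation of `neg ≫ a` and `b`. -/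
theorem homotopic_glueRR {Z : LC} (a b : RR ⟶ Z)
    (w : zeroHH ≫ collHH ≫ b = zeroHH ≫ collHH ≫ a) :
    Homotopic (glueRR (collHH ≫ b) (collHH ≫ a) w) (cat (neg ≫ a) b) := by
  have h : glueRR (collHH ≫ b) (collHH ≫ a) w = pinch' ≫ sumDesc (neg ≫ a) b := by
    apply RR_hom_ext
    · rw [incPos_glueRR]
      unfold pinch'
      rw [incPos_glueRR_assoc, Category.assoc, sumInr_desc]
    · rw [incNeg_glueRR]
      unfold pinch'
      rw [incNeg_glueRR_assoc, Category.assoc, Category.assoc, sumInl_desc,
        ← Category.assoc neg, neg_neg, Category.id_comp]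
  rw [h, ← pinch_desc]
  exact homotopic_pinch'.comp_right _

/-- The line with both orientations: `glueRR collHH 0` is homotopic to the identity. -/
theorem homotopic_glueRR_id :
    Homotopic (glueRR collHH 0 (by rw [zeroHH_collHH, comp_zero])) (𝟙 RR) := by
  have h := homotopic_glueRR (0 : RR ⟶ RR) (𝟙 RR)
    (by rw [comp_zero, comp_zero, Category.comp_id, zeroHH_collHH])
  have e : glueRR (collHH ≫ 𝟙 RR) (collHH ≫ (0 : RR ⟶ RR))
      (by rw [comp_zero, comp_zero, Category.comp_id, zeroHH_collHH]) =
      glueRR collHH 0 (by rw [zeroHH_collHH, comp_zero]) := by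
    apply RR_hom_ext
    · rw [incPos_glueRR, incPos_glueRR, Category.comp_id]
    · rw [incNeg_glueRR, incNeg_glueRR, comp_zero]
  have e2 : neg ≫ (0 : RR ⟶ RR) = 0 := comp_zero
  rw [e, e2] at h
  exact h.trans (zero_cat _)

/-- `glueRR 0 collHH` is homotopic to the reflection. -/
theorem homotopic_glueRR_neg :
    Homotopic (glueRR 0 collHH (by rw [zeroHH_collHH, comp_zero])) neg := by
  have h := homotopic_glueRR (𝟙 RR) (0 : RR ⟶ RR)
    (by rw [comp_zero, comp_zero, Category.comp_id, zeroHH_collHH])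
  have e : glueRR (collHH ≫ (0 : RR ⟶ RR)) (collHH ≫ 𝟙 RR)
      (by rw [comp_zero, comp_zero, Category.comp_id, zeroHH_collHH]) =
      glueRR 0 collHH (by rw [zeroHH_collHH, comp_zero]) := by
    apply RR_hom_ext
    · rw [incPos_glueRR, incPos_glueRR, comp_zero]
    · rw [incNeg_glueRR, incNeg_glueRR, Category.comp_id]
  rw [e, Category.comp_id] at h
  exact h.trans (cat_zero _)

/-- `0 ⟶ [0,∞) ⟶ ℝ` is a cofibre square. -/
theorem isPushout_zeroHH {Z : LC} (hZ : IsZero Z) (k : 𝟙_ LC ⟶ Z) (l : Z ⟶ RR) :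
    IsPushout zeroHH k collHH l := by
  refine isPushout_collapse _ _ ?_ hZ k l
  intro s
  rw [mem_range_expHH]
  constructor
  · rintro h ⟨u, hu⟩
    induction u using OnePoint.rec with
    | infty => exact OnePoint.coe_ne_infty _ (hu.symm.trans (app_infty zeroHH))
    | coe u => exact h (OnePoint.coe_injective hu).symm
  · rintro h rfl
    exact h ⟨((() : Unit) : OnePoint Unit), rfl⟩

/-! ### The collapse of the end `1` of the interval -/

/-- the open embedding `[0,∞) → [0,1]`, `s ↦ s / (1 + s)` -/
noncomputable def endFun (s : NNReal) : unitInterval :=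
  ⟨(s : ℝ) / (1 + s), by
    have hs : (0 : ℝ) ≤ s := s.2
    constructor
    · positivity
    · rw [div_le_one (by positivity)]; linarith⟩

theorem mem_range_endFun (t : unitInterval) : t ∈ Set.range endFun ↔ t ≠ 1 := by
  constructor
  · rintro ⟨s, rfl⟩ h
    have h' : (s : ℝ) / (1 + s) = 1 := congrArg Subtype.val h
    have hs : (0 : ℝ) ≤ s := s.2
    rw [div_eq_one_iff_eq (by positivity)] at h'
    linarith
  · intro h
    have h1 : (t : ℝ) < 1 := lt_of_le_of_ne t.2.2 (fun h' => h (Subtype.ext h'))
    have h2 : (0 : ℝ) < 1 - t := by linarith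
    refine ⟨⟨(t : ℝ) / (1 - t), div_nonneg t.2.1 h2.le⟩, ?_⟩
    apply Subtype.ext
    change (t : ℝ) / (1 - t) / (1 + (t : ℝ) / (1 - t)) = t
    field_simp
    ring

theorem isOpenEmbedding_endFun : IsOpenEmbedding endFun := by
  have hc : Continuous endFun := by
    apply Continuous.subtype_mk
    apply Continuous.div NNReal.continuous_coe (continuous_const.add NNReal.continuous_coe)
    intro s
    have hs : (0 : ℝ) ≤ s := s.2
    have h1 : 0 < 1 + NNReal.toReal s := by linarith
    exact h1.ne'
  let U : Set unitInterval := {t | (t : ℝ) < 1}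
  have hU : IsOpen U := isOpen_lt continuous_subtype_val continuous_const
  let inv : U → NNReal := fun t => ⟨(t.1 : ℝ) / (1 - t.1), by
    have h0 : (t.1 : ℝ) < 1 := t.2
    exact div_nonneg t.1.2.1 (by linarith)⟩
  have hinv : Continuous inv := by
    apply Continuous.subtype_mk
    have e1 : Continuous fun t : U => (t.1 : ℝ) :=
      continuous_subtype_val.comp continuous_subtype_val
    apply e1.div (continuous_const.sub e1)
    intro t
    have h0 : (t.1 : ℝ) < 1 := t.2
    exact (sub_pos.mpr h0).ne'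
  let fwd : NNReal → U := fun s => ⟨endFun s, by
    change (s : ℝ) / (1 + s) < 1
    have hs : (0 : ℝ) ≤ s := s.2
    rw [div_lt_one (by positivity)]
    linarith⟩
  let e : NNReal ≃ₜ U :=
    { toFun := fwd
      invFun := inv
      left_inv := by
        intro s
        apply NNReal.eq
        change (s : ℝ) / (1 + s) / (1 - (s : ℝ) / (1 + s)) = s
        have hs : (0 : ℝ) ≤ s := s.2
        have h1 : (0 : ℝ) < 1 + s := by linarith
        have h2 : 1 - (s : ℝ) / (1 + s) = 1 / (1 + s) := by field_simp; ring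
        rw [h2]
        field_simp
      right_inv := by
        intro t
        apply Subtype.ext
        apply Subtype.ext
        change (t.1 : ℝ) / (1 - t.1) / (1 + (t.1 : ℝ) / (1 - t.1)) = t.1
        have h0 : (t.1 : ℝ) < 1 := t.2
        have h2 : (0 : ℝ) < 1 - t.1 := by linarith
        field_simp
        ring
      continuous_toFun := hc.subtype_mk _
      continuous_invFun := hinv }
  exact hU.isOpenEmbedding_subtypeVal.comp e.isOpenEmbedding

/-- The collapse `[0,1] ⟶ [0,∞)` of the end `1` to the base point. -/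
noncomputable def endColl : II ⟶ HH := ofOpen (X := II) (Y := HH) endFun isOpenEmbedding_endFun

theorem endFun_zero : endFun 0 = 0 := by
  apply Subtype.ext
  change ((0 : NNReal) : ℝ) / (1 + ((0 : NNReal) : ℝ)) = 0
  simp

theorem point_zero_endColl : point (X := II) 0 ≫ endColl = zeroHH := by
  apply hom_ext
  intro x
  change app endColl ((0 : unitInterval) : OnePoint unitInterval) = ((0 : NNReal) : OnePoint NNReal)
  rw [← endFun_zero]
  exact app_ofOpen_coe (X := II) (Y := HH) endFun isOpenEmbedding_endFun 0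

theorem isPushout_endColl {Z : LC} (hZ : IsZero Z) (k : 𝟙_ LC ⟶ Z) (l : Z ⟶ HH) :
    IsPushout (point (X := II) 1) k endColl l := by
  refine isPushout_collapse _ _ ?_ hZ k l
  intro s
  rw [mem_range_endFun]
  constructor
  · rintro h ⟨u, hu⟩
    induction u using OnePoint.rec with
    | infty =>
      exact OnePoint.coe_ne_infty _ (hu.symm.trans (app_infty (point (X := II) 1)))
    | coe u => exact h (OnePoint.coe_injective hu).symm
  · rintro h rfl
    exact h ⟨((() : Unit) : OnePoint Unit), rfl⟩

theorem point_one_endColl : point (X := II) 1 ≫ endColl = 0 := by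
  rw [(isPushout_endColl isZero_empty 0 0).w, comp_zero]

end Vale.Agent.P251.H.LP
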