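import Vale.Agent.P251.H.Brown
import Vale.Agent.P251.T.Axioms
import Mathlib.CategoryTheory.Limits.Shapes.ZeroMorphisms

/-!
# Applications of Brown representability: products and internal Homs

For a triangulated category with small coproducts and a compact generator `G` (locally small) every
cohomological functor is representable. Hence small products exist; if moreover the category is
tensor triangulated and `A ⊗ -` preserves coproducts, it is monoidal closed.
-/

open CategoryTheory Limits Pretriangulated Category ZeroObject MonoidalCategory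

universe w v u

namespace Vale.Agent.P251.H

section compact

variable {C : Type u} [Category.{v} C] [Preadditive C] [HasZeroObject C] [HasShift C ℤ]
  [∀ n : ℤ, (shiftFunctor C n).Additive] [Pretriangulated C] [HasCoproducts.{0} C]

/-- The objects `G⟦n⟧` together with a zero object. -/
noncomputable def spheres (G : C) : Option ℤ → C
  | none => 0
  | some n => G⟦n⟧

/-- `G` is compact (all maps from shifts of `G` to coproducts factor through finite
subcoproducts). -/
def IsCpt (G : C) : Prop :=
  ∀ (n : ℤ) {I : Type} (X : I → C) (f : G⟦n⟧ ⟶ ∐ X),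
    ∃ (s : Finset I) (g : G⟦n⟧ ⟶ ∐ (fun i : s => X i)),
      g ≫ Sigma.desc (fun i : s => Sigma.ι X i) = f

/-- The shifts of `G` detect zero objects. -/
def IsGen (G : C) : Prop := ∀ X : C, (∀ (n : ℤ) (f : G⟦n⟧ ⟶ X), f = 0) → IsZero X

lemma localizing_true : Localizing (fun _ : C => True) where
  iso _ _ := trivial
  shift _ _ := trivial
  cone _ _ _ := trivial
  coprod _ _ := trivial

omit [Pretriangulated C] [HasCoproducts.{0} C] in
lemma spheres_shiftClosed (G : C) : ShiftClosed (spheres G) := by
  rintro (_ | m) n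
  · refine ⟨none, ⟨?_⟩⟩
    have h : IsZero ((0 : C)⟦n⟧) := (shiftFunctor C n).map_isZero (isZero_zero C)
    exact h.iso (isZero_zero C)
  · exact ⟨some (m + n), ⟨((shiftFunctorAdd C m n).app G).symm⟩⟩

omit [HasCoproducts.{0} C] in
lemma sum_π_ι {I : Type} [Fintype I] [DecidableEq I] (X : I → C) :
    ∑ i : I, Sigma.π X i ≫ Sigma.ι X i = 𝟙 (∐ X) := by
  refine Limits.Sigma.hom_ext _ _ (fun j => ?_)
  rw [Preadditive.comp_sum, comp_id, Finset.sum_eq_single j]
  · rw [← assoc, Sigma.ι_π_eq_id, id_comp]
  · intro i _ hij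
    rw [← assoc, Sigma.ι_π_of_ne X (Ne.symm hij), zero_comp]
  · intro h
    exact absurd (Finset.mem_univ j) h

lemma spheres_perfect {G : C} (hG : IsCpt G) :
    Perfect (fun _ : C => True) (spheres G) := by
  classical
  rintro (_ | n) B _ f
  · refine ⟨fun _ => none, fun _ => 0, 0, ?_⟩
    exact (isZero_zero C).eq_of_src _ _
  · change G⟦n⟧ ⟶ ∐ B at f
    obtain ⟨s, g, hg⟩ := hG n B f
    have key : ∀ k : ℕ, ∃ (e : Option ℤ) (u : spheres G e ⟶ B k) (j : G⟦n⟧ ⟶ spheres G e),
        ∀ h : k ∈ s, j ≫ u = g ≫ Sigma.π (fun i : s => B i) ⟨k, h⟩ := by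
      intro k
      by_cases h : k ∈ s
      · exact ⟨some n, (g ≫ Sigma.π (fun i : s => B i) ⟨k, h⟩ : G⟦n⟧ ⟶ B k),
          𝟙 (G⟦n⟧), fun _ => id_comp _⟩
      · exact ⟨none, 0, 0, fun h' => absurd h' h⟩
    choose e u j hj using key
    let q : G⟦n⟧ ⟶ ∐ fun k => spheres G (e k) :=
      ∑ k ∈ s.attach, j k.1 ≫ Sigma.ι (fun k => spheres G (e k)) k.1
    suffices hq : q ≫ Limits.Sigma.map u = f from ⟨e, u, q, hq⟩
    simp only [q]
    rw [Preadditive.sum_comp]
    have h1 : ∀ k ∈ s.attach, (j k.1 ≫ Sigma.ι (fun k => spheres G (e k)) k.1) ≫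
        Limits.Sigma.map u = g ≫ (Sigma.π (fun i : s => B i) k ≫ Sigma.ι (fun i : s => B i) k) ≫
          Sigma.desc (fun i : s => Sigma.ι B i) := by
      intro k _
      rw [assoc, Sigma.ι_map, ← assoc, hj k.1 k.2, assoc, assoc, Sigma.ι_desc]
    rw [Finset.sum_congr rfl h1, ← Preadditive.comp_sum, ← Preadditive.sum_comp]
    have h2 : ∑ k ∈ s.attach, Sigma.π (fun i : s => B i) k ≫ Sigma.ι (fun i : s => B i) k =
        𝟙 _ := by
      rw [← sum_π_ι]
      rfl
    rw [h2, id_comp, hg]

omit [∀ n : ℤ, (shiftFunctor C n).Additive] [Pretriangulated C] [HasCoproducts.{0} C] in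
lemma spheres_gen {G : C} (hG : IsGen G) (Z : C) (_ : (fun _ : C => True) Z)
    (h : ∀ i (f : spheres G i ⟶ Z), f = 0) : IsZero Z :=
  hG Z (fun n f => h (some n) f)

/-- **Brown representability**, monogenic compactly generated case. -/
theorem brown_cpt [LocallySmall.{0} C] {G : C} (hc : IsCpt G) (hg : IsGen G)
    (F : Coh.{w} C) (hF : ∀ n : ℤ, Small.{0} (F.obj (G⟦n⟧))) :
    ∃ (Y : C) (y : F.obj Y), ∀ B, Bij F y B := by
  have hF' : ∀ i, Small.{0} (F.obj (spheres G i)) := by
    rintro (_ | n)
    · have : Subsingleton (F.obj (0 : C)) := by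
        refine ⟨fun x y => ?_⟩
        rw [← F.res_id x, ← F.res_id y, (isZero_zero C).eq_of_src (𝟙 (0 : C)) 0, F.zero_res,
          F.zero_res]
      exact inferInstanceAs (Small.{0} (F.obj (0 : C)))
    · exact hF n
  obtain ⟨Y, y, _, h⟩ := brown (A := fun _ => True) localizing_true (fun _ => trivial)
    (spheres_perfect hc) (spheres_shiftClosed G) (spheres_gen hg) F hF'
  exact ⟨Y, y, fun B => h B trivial⟩

/-- Everything is in the localizing subcategory generated by `G`. -/
theorem inLoc_cpt [LocallySmall.{0} C] {G : C} (hc : IsCpt G) (hg : IsGen G)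
    (P : C → Prop) (hP : Localizing P) (hPG : P G) (B : C) : P B := by
  refine inLoc_of_generator (A := fun _ => True) localizing_true (fun _ => trivial)
    (spheres_perfect hc) (spheres_shiftClosed G) (spheres_gen hg) (B := B) trivial P hP ?_
  rintro (_ | n)
  · exact hP.isZero (isZero_zero C)
  · exact hP.shift n hPG

/-- The functor `B ↦ ∏ Hom(B, X i)`. -/
def prodCoh {I : Type} (X : I → C) : Coh.{v} C where
  obj B := ∀ i, B ⟶ X i
  res f g i := f ≫ g i
  res_id := by intros; funext; simp
  res_comp := by intros; funext; simp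
  res_add := by intros; funext; simp
  add_res := by intros; funext; simp
  exact D y hy := by
    have := fun i => D.desc₂ (y i) (congrFun hy i)
    choose z hz using this
    exact ⟨z, funext hz⟩
  prod Y := by
    refine ⟨fun x y h => funext fun i => Limits.Sigma.hom_ext _ _ (fun j =>
      congrFun (congrFun h j) i), fun x => ?_⟩
    exact ⟨fun i => Sigma.desc (fun j => x j i), funext fun j => funext fun i =>
      Sigma.ι_desc _ _⟩

/-- Small products exist. -/
theorem hasProducts_of_cpt [LocallySmall.{0} C] {G : C} (hc : IsCpt G) (hg : IsGen G) :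
    HasProducts.{0} C := by
  refine hasProducts_of_limit_fans (fun {I} X => ?_) ?_
  · exact Fan.mk (brown_cpt hc hg (prodCoh X)
      (fun n => inferInstanceAs (Small.{0} (∀ i, G⟦n⟧ ⟶ X i)))).choose
      (brown_cpt hc hg (prodCoh X)
      (fun n => inferInstanceAs (Small.{0} (∀ i, G⟦n⟧ ⟶ X i)))).choose_spec.choose
  · intro I X
    have h := (brown_cpt hc hg (prodCoh X)
      (fun n => inferInstanceAs (Small.{0} (∀ i, G⟦n⟧ ⟶ X i)))).choose_spec.choose_spec
    refine Fan.IsLimit.mk _ (fun s => ((h _).surj (fun i => s.proj i)).choose) ?_ ?_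
    · intro s i
      exact congrFun ((h _).surj (fun i => s.proj i)).choose_spec i
    · intro s m hm
      refine (h _).1 ?_
      funext i
      exact (hm i).trans (congrFun ((h _).surj (fun i => s.proj i)).choose_spec i).symm

end compact

section closed

open Vale.Agent.P251.T

variable {T : Type u} [Category.{v} T] [Preadditive T] [HasZeroObject T]
  [HasShift T ℤ] [∀ n : ℤ, (shiftFunctor T n).Additive] [Pretriangulated T]
  [MonoidalCategory T] [SymmetricCategory T] [TensorTriangulated T] [HasCoproducts.{0} T]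

/-- The functor `B ↦ Hom(A ⊗ B, N)`. -/
def tensorCoh (hpres : ∀ (A : T) {I : Type} (X : I → T),
    PreservesColimit (Discrete.functor X) (tensorLeft A)) (A N : T) : Coh.{v} T where
  obj B := A ⊗ B ⟶ N
  res f g := A ◁ f ≫ g
  res_id := by simp
  res_comp := by simp
  res_add := by simp
  add_res := by intros; rw [MonoidalPreadditive.whiskerLeft_add, Preadditive.add_comp]
  exact {X Y Z f g h} D y hy := by
    have D' : Dist (A ◁ f) (A ◁ g) _ := TensorTriangulated.distinguished A _ D
    exact D'.desc₂ y hy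
  prod {I} X := by
    have := hpres A X
    let hl := isColimitOfHasCoproductOfPreservesColimit (tensorLeft A) X
    refine ⟨fun x y h => Cofan.IsColimit.hom_ext hl _ _ (fun i => congrFun h i), fun x => ?_⟩
    exact ⟨Cofan.IsColimit.desc hl x, funext fun i => Cofan.IsColimit.fac hl x i⟩

/-- The category is monoidal closed. -/
theorem nonempty_monoidalClosed [LocallySmall.{0} T] (hc : IsCpt (𝟙_ T)) (hg : IsGen (𝟙_ T))
    (hpres : ∀ (A : T) {I : Type} (X : I → T),
      PreservesColimit (Discrete.functor X) (tensorLeft A)) :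
    Nonempty (MonoidalClosed T) := by
  have H : ∀ A N : T, ∃ (Y : T) (y : A ⊗ Y ⟶ N), ∀ B,
      Function.Bijective (fun f : B ⟶ Y => A ◁ f ≫ y) := by
    intro A N
    exact brown_cpt hc hg (tensorCoh hpres A N)
      (fun n => inferInstanceAs (Small.{0} (A ⊗ (𝟙_ T)⟦n⟧ ⟶ N)))
  choose Y y hy using H
  let e : ∀ (A B N : T), (A ⊗ B ⟶ N) ≃ (B ⟶ Y A N) := fun A B N =>
    (Equiv.ofBijective _ (hy A N B)).symm
  refine ⟨{ closed := fun A => ⟨Adjunction.rightAdjointOfEquiv (F := tensorLeft A)
    (G_obj := Y A) (fun B N => e A B N) ?_, Adjunction.adjunctionOfEquivRight _ _⟩ }⟩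
  intro X' X N f g
  apply (e A X' N).symm.injective
  rw [Equiv.symm_apply_apply]
  show A ◁ f ≫ g = A ◁ (f ≫ e A X N g) ≫ y A N
  rw [MonoidalCategory.whiskerLeft_comp, assoc]
  congr 1
  exact ((e A X N).symm_apply_apply g).symm

/-- The remaining axioms of a stable homotopy category are automatic. -/
theorem stableCat_of [LocallySmall.{0} T] [IsTriangulated T] (hc : IsCpt (𝟙_ T))
    (hg : IsGen (𝟙_ T)) [MonoidalClosed T] [HasProducts.{0} T] : StableCat T where
  compact n _ X f := hc n X f
  generator := hg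

end closed

end Vale.Agent.P251.H
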