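import Vale.Agent.P251.H.HCof
import Vale.Agent.P251.H.LCone
import Vale.Agent.P251.G.Cofibre

/-!
# P251, part H: the cofibre of an h-cofibration is its mapping cone

`HCof.exists_cone_inverse`: for an h-cofibration `i : A ⟶ B` the canonical map from the mapping
cone (any pushout of `A ⟶ A ⊗ CI` along `i`) to the cofibre `B/A` (any pushout of `A ⟶ 0` along
`i`) is a homotopy equivalence.
-/

open CategoryTheory MonoidalCategory Limits Topology OnePoint

namespace Vale.Agent.P251.H

open Vale.Agent.P251.G Vale.Agent.P251.G.LC Vale.Agent.P251.H.LP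

universe v u

section lc

/-- the maximum, as a map `[0,1] × [0,1] → [0,1]` -/
noncomputable def maxII : II ⊗ II ⟶ II :=
  ofCompact (X := LC.of (unitInterval × unitInterval)) (Y := II) (fun p => max p.1 p.2)
    (continuous_fst.max continuous_snd)

theorem isOpenEmbedding_endFun_prod :
    IsOpenEmbedding (Prod.map endFun id : NNReal × unitInterval → unitInterval × unitInterval) :=
  isOpenEmbedding_endFun.prodMap IsOpenEmbedding.id

theorem app_endColl_one : app endColl ((1 : unitInterval) : OnePoint unitInterval) = ∞ := by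
  have := congrArg (fun m => app m ((() : Unit) : OnePoint Unit)) point_one_endColl
  exact this

theorem app_endColl_endFun (s : NNReal) :
    app endColl ((endFun s : unitInterval) : OnePoint unitInterval) = (s : OnePoint NNReal) :=
  app_ofOpen_coe (X := II) (Y := HH) endFun isOpenEmbedding_endFun s

/-- the contraction of the half line to the point at infinity -/
noncomputable def contrHH : HH ⊗ II ⟶ HH :=
  factorOpen (B := LC.of (unitInterval × unitInterval)) (U := LC.of (NNReal × unitInterval))
    (Prod.map endFun id) isOpenEmbedding_endFun_prod (maxII ≫ endColl) (by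
      rintro ⟨u, t⟩ h
      have hu : u = 1 := by
        by_contra hu
        obtain ⟨s, hs⟩ := (mem_range_endFun u).mpr hu
        exact h ⟨(s, t), Prod.ext hs rfl⟩
      subst hu
      change app endColl ((max (1 : unitInterval) t : unitInterval) : OnePoint unitInterval) = ∞
      rw [max_eq_left unitInterval.le_one']
      exact app_endColl_one)

theorem app_contrHH (s : NNReal) (t : unitInterval) :
    app contrHH (smash (s : OnePoint NNReal) (t : OnePoint unitInterval)) =
      app endColl ((max (endFun s) t : unitInterval) : OnePoint unitInterval) := rfl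

theorem incl_zero_contrHH : incl 0 HH ≫ contrHH = 𝟙 HH := by
  apply LC.hom_ext
  intro s
  rw [app_comp, app_incl, app_contrHH, max_eq_left unitInterval.nonneg', app_endColl_endFun]
  rfl

theorem incl_one_contrHH : incl 1 HH ≫ contrHH = 0 := by
  apply LC.hom_ext
  intro s
  rw [app_comp, app_incl, app_contrHH, max_eq_right unitInterval.le_one', app_endColl_one]
  rfl

theorem zeroHH_contrHH : zeroHH ▷ II ≫ contrHH = (λ_ II).hom ≫ endColl := by
  apply tensor_ext
  intro x t
  rw [app_comp, app_whiskerRight_smash]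
  change app contrHH (smash ((0 : NNReal) : OnePoint NNReal) (t : OnePoint unitInterval)) =
    app endColl (t : OnePoint unitInterval)
  rw [app_contrHH, endFun_zero, max_eq_right unitInterval.nonneg']

end lc

namespace StabInput

variable {M : Type u} [Category.{v} M] [MonoidalCategory M] [SymmetricCategory M]
    [MonoidalClosed M] [HasZeroMorphisms M] [HasColimitsOfSize.{0, 0} M] [StabInput M]

open Functor.LaxMonoidal Functor.OplaxMonoidal

/-- the base point of the half line in `M` -/
abbrev ptHH : 𝟙_ M ⟶ CI M := ε (J M) ≫ (J M).map zeroHH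

/-- the base of the cone -/
def coneBase (X : M) : X ⟶ X ⊗ CI M := (ρ_ X).inv ≫ X ◁ ptHH

theorem coneBase_def (X : M) : coneBase X = (ρ_ X).inv ≫ X ◁ ptHH := rfl

@[reassoc]
theorem coneBase_naturality {X Y : M} (f : X ⟶ Y) :
    coneBase X ≫ f ▷ CI M = f ≫ coneBase Y := by
  rw [coneBase_def, coneBase_def, Category.assoc, whisker_exchange,
    rightUnitor_inv_naturality_assoc]

/-- the collapse of the end of a cylinder: the map to the cone -/
noncomputable def cylCone (X : M) : X ⊗ I M ⟶ X ⊗ CI M := X ◁ (J M).map endColl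

@[reassoc]
theorem cylCone_naturality {X Y : M} (f : X ⟶ Y) :
    f ▷ I M ≫ cylCone Y = cylCone X ≫ f ▷ CI M := (whisker_exchange _ _).symm

@[reassoc]
theorem inc_zero_cylCone (X : M) : inc 0 X ≫ cylCone X = coneBase X := by
  rw [inc_def, cylCone, coneBase_def, Category.assoc, ← MonoidalCategory.whiskerLeft_comp,
    Category.assoc, ← Functor.map_comp, point_zero_endColl]

omit [SymmetricCategory M] [HasColimitsOfSize.{0, 0} M] [StabInput M] in
theorem whiskerLeft_zero' (X : M) {Y Z : M} : X ◁ (0 : Y ⟶ Z) = 0 := by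
  have h : (tensorLeft X).map (0 : Y ⟶ Z) = 0 := by
    have : (tensorLeft X).PreservesZeroMorphisms := inferInstance
    exact (tensorLeft X).map_zero _ _
  exact h

omit [HasColimitsOfSize.{0, 0} M] [StabInput M] in
theorem zero_whiskerRight' (X : M) {Y Z : M} : (0 : Y ⟶ Z) ▷ X = 0 := by
  have h : (0 : Y ⟶ Z) ▷ X = (β_ Y X).hom ≫ X ◁ (0 : Y ⟶ Z) ≫ (β_ Z X).inv := by
    rw [← Category.assoc, ← BraidedCategory.braiding_naturality_left, Category.assoc,
      Iso.hom_inv_id, Category.comp_id]
  rw [h, whiskerLeft_zero', zero_comp, comp_zero]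

theorem J_map_zero (X Y : LC) : (J M).map (0 : X ⟶ Y) = 0 := by
  have h : (0 : X ⟶ Y) = (0 : X ⟶ LC.of Empty) ≫ (0 : LC.of Empty ⟶ Y) := by
    rw [zero_comp]
  rw [h, Functor.map_comp,
    (isZero_empty (M := M)).eq_of_tgt ((J M).map (0 : X ⟶ LC.of Empty)) 0, zero_comp]

@[reassoc]
theorem inc_one_cylCone (X : M) : inc 1 X ≫ cylCone X = 0 := by
  rw [inc_def, cylCone, Category.assoc, ← MonoidalCategory.whiskerLeft_comp,
    Category.assoc, ← Functor.map_comp, point_one_endColl, J_map_zero, comp_zero,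
    whiskerLeft_zero', comp_zero]

/-- the contraction of the cone -/
noncomputable def coneContr (X : M) : (X ⊗ CI M) ⊗ I M ⟶ X ⊗ CI M :=
  (α_ X (CI M) (I M)).hom ≫ X ◁ (μ (J M) HH II ≫ (J M).map contrHH)

theorem inc_tensor' (t : unitInterval) (X Y : M) :
    inc t (X ⊗ Y) ≫ (α_ X Y (I M)).hom = X ◁ inc t Y := by
  rw [inc_def, inc_def, Category.assoc, associator_naturality_right,
    MonoidalCategory.whiskerLeft_comp]
  simp

theorem inc_zero_coneContr (X : M) : inc 0 (X ⊗ CI M) ≫ coneContr X = 𝟙 _ := by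
  rw [coneContr, reassoc_of% (inc_tensor' 0 X (CI M)), ← MonoidalCategory.whiskerLeft_comp]
  have h : inc 0 (CI M) ≫ μ (J M) HH II ≫ (J M).map contrHH = 𝟙 _ := by
    have h1 : inc 0 ((J M).obj HH) ≫ μ (J M) HH II = (J M).map (incl 0 HH) := by
      rw [inc_def, incl, Category.assoc, MonoidalCategory.whiskerLeft_comp, Category.assoc,
        μ_natural_right, right_unitality_inv_assoc, ← Functor.map_comp]
    rw [reassoc_of% h1, ← Functor.map_comp, incl_zero_contrHH]
    exact (J M).map_id HH
  rw [h, MonoidalCategory.whiskerLeft_id]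

theorem inc_one_coneContr (X : M) : inc 1 (X ⊗ CI M) ≫ coneContr X = 0 := by
  rw [coneContr, reassoc_of% (inc_tensor' 1 X (CI M)), ← MonoidalCategory.whiskerLeft_comp]
  have h : inc 1 (CI M) ≫ μ (J M) HH II ≫ (J M).map contrHH = 0 := by
    have h1 : inc 1 ((J M).obj HH) ≫ μ (J M) HH II = (J M).map (incl 1 HH) := by
      rw [inc_def, incl, Category.assoc, MonoidalCategory.whiskerLeft_comp, Category.assoc,
        μ_natural_right, right_unitality_inv_assoc, ← Functor.map_comp]
    rw [reassoc_of% h1, ← Functor.map_comp, incl_one_contrHH]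
    exact J_map_zero _ _
  rw [h, whiskerLeft_zero']

theorem coneBase_coneContr (X : M) : coneBase X ▷ I M ≫ coneContr X = cylCone X := by
  have h1 : (ptHH : 𝟙_ M ⟶ CI M) ▷ I M ≫ μ (J M) HH II ≫ (J M).map contrHH =
      (λ_ (I M)).hom ≫ (J M).map endColl := by
    rw [comp_whiskerRight, Category.assoc, μ_natural_left_assoc, ← Functor.map_comp,
      zeroHH_contrHH, Functor.map_comp, ← Functor.LaxMonoidal.left_unitality_assoc]
  rw [coneContr, cylCone, coneBase_def, comp_whiskerRight, Category.assoc,
    associator_naturality_middle_assoc, ← MonoidalCategory.whiskerLeft_comp, h1,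
    MonoidalCategory.whiskerLeft_comp]
  rw [MonoidalCategory.triangle_assoc, MonoidalCategory.inv_hom_whiskerRight_assoc]

/-- the cofibre of an h-cofibration is homotopy equivalent to its mapping cone -/
theorem HCof.exists_cone_inverse {A B C O Q : M} {i : A ⟶ B} (hi : HCof i)
    {k : A ⊗ CI M ⟶ C} {i' : B ⟶ C} (hC : IsPushout (coneBase A) i k i')
    (hO : IsZero O) {z : A ⟶ O} {q : B ⟶ Q} {z' : O ⟶ Q} (hQ : IsPushout i z q z')
    (e : C ⟶ Q) (h1 : k ≫ e = 0) (h2 : i' ≫ e = q) :
    ∃ g : Q ⟶ C, MHtpy (e ≫ g) (𝟙 C) ∧ MHtpy (g ≫ e) (𝟙 Q) := by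
  have hz : z = 0 := hO.eq_of_tgt _ _
  have hz' : z' = 0 := hO.eq_of_src _ _
  subst hz hz'
  obtain ⟨K, hK0, hK1⟩ := hi C i' (cylCone A ≫ k) (by
    rw [inc_zero_cylCone_assoc, hC.w])
  -- the inverse
  have hg0 : i ≫ inc 1 B ≫ K = (0 : A ⟶ O) ≫ 0 := by
    rw [← inc_naturality_assoc, hK1, inc_one_cylCone_assoc, zero_comp, zero_comp]
  let g : Q ⟶ C := hQ.desc (inc 1 B ≫ K) 0 hg0
  have hqg : q ≫ g = inc 1 B ≫ K := hQ.inl_desc _ _ _
  refine ⟨g, ?_, ?_⟩
  · -- `e ≫ g ∼ 𝟙`
    have hCI := isPushout_whiskerRight (I M) hC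
    have hc : coneBase A ▷ I M ≫ coneContr A ≫ k = i ▷ I M ≫ K := by
      rw [← Category.assoc, coneBase_coneContr, hK1]
    refine MHtpy.symm ⟨hCI.desc (coneContr A ≫ k) K hc, ?_, ?_⟩
    · apply hC.hom_ext
      · rw [← inc_naturality_assoc, hCI.inl_desc, ← Category.assoc, inc_zero_coneContr,
          Category.id_comp, Category.comp_id]
      · rw [← inc_naturality_assoc, hCI.inr_desc, hK0, Category.comp_id]
    · apply hC.hom_ext
      · rw [← inc_naturality_assoc, hCI.inl_desc, ← Category.assoc, inc_one_coneContr,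
          zero_comp, ← Category.assoc, h1, zero_comp]
      · rw [← inc_naturality_assoc, hCI.inr_desc, ← Category.assoc, h2, hqg]
  · -- `g ≫ e ∼ 𝟙`
    have hQI := isPushout_whiskerRight (I M) hQ
    have hc : i ▷ I M ≫ K ≫ e = (0 : A ⟶ O) ▷ I M ≫ 0 := by
      rw [← Category.assoc, hK1, Category.assoc, h1, comp_zero, comp_zero]
    refine MHtpy.symm ⟨hQI.desc (K ≫ e) 0 hc, ?_, ?_⟩
    · apply hQ.hom_ext
      · rw [← inc_naturality_assoc, hQI.inl_desc, ← Category.assoc, hK0, h2, Category.comp_id]
      · exact hO.eq_of_src _ _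
    · apply hQ.hom_ext
      · rw [← inc_naturality_assoc, hQI.inl_desc, ← Category.assoc, ← hqg, Category.assoc]
      · exact hO.eq_of_src _ _

end StabInput

end Vale.Agent.P251.H
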