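import Vale.Agent.P251.H.Puppe

/-!
# P251, part H: the second and third unstable Puppe statements

`Ex a b`: for every `g : B ⟶ Y` with `g ≫ b` null homotopic there is `g₁ : B ⊗ S ⟶ X ⊗ S` with
`g₁ ≫ (a ▷ S)` homotopic to `g ▷ S`.  For a mapping cone `X -f-> Y -i-> C -q-> X ⊗ S` we have
`Ex f i` (file `Puppe`), `Ex i q` and `Ex q (f ▷ S)`.
-/

open CategoryTheory MonoidalCategory Limits Topology OnePoint

namespace Vale.Agent.P251.H

open Vale.Agent.P251.G Vale.Agent.P251.G.LC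

universe v u

namespace StabInput

variable {M : Type u} [Category.{v} M] [MonoidalCategory M] [SymmetricCategory M]
    [MonoidalClosed M] [HasZeroMorphisms M] [HasColimitsOfSize.{0, 0} M] [StabInput M]

open Functor.LaxMonoidal Functor.OplaxMonoidal

/-- unstable exactness -/
def Ex {X Y Z : M} (a : X ⟶ Y) (b : Y ⟶ Z) : Prop :=
  ∀ (B : M) (g : B ⟶ Y), MHtpy (g ≫ b) 0 →
    ∃ g₁ : B ⊗ S M ⟶ X ⊗ S M, MHtpy (g₁ ≫ a ▷ S M) (g ▷ S M)

variable {X Y C : M} {f : X ⟶ Y} {k : X ⊗ CI M ⟶ C} {i : Y ⟶ C}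

theorem ex_cone (hC : IsPushout (coneBase X) f k i) : Ex f i := fun _ g hg => exists_puppe hC g hg

/-- exactness can be transported along a homotopy equivalence of the target -/
theorem Ex.of_comp {X Y Z Z' : M} {a : X ⟶ Y} {b : Y ⟶ Z} {b' : Y ⟶ Z'} (h : Ex a b)
    (r : Z' ⟶ Z) (hr : MHtpy (b' ≫ r) b) : Ex a b' := by
  intro B g hg
  refine h B g ?_
  have h1 : MHtpy ((g ≫ b') ≫ r) (0 ≫ r) := hg.comp_right r
  rw [zero_comp] at h1
  refine MHtpy.trans ?_ h1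
  rw [Category.assoc]
  exact MHtpy.symm (MHtpy.comp_left g hr)

theorem hCof_cone (hC : IsPushout (coneBase X) f k i) : HCof i :=
  HCof.of_isPushout hC (hCof_coneBase X)

/-- the collapse of a mapping cone `C` onto `X ⊗ S` is the cofibre of `i` -/
theorem isPushout_collapse (hC : IsPushout (coneBase X) f k i) {q : C ⟶ X ⊗ S M}
    (hk : k ≫ q = ccoll X) (hi : i ≫ q = 0) {O : M} (hO : IsZero O) (z : Y ⟶ O)
    (z' : O ⟶ X ⊗ S M) : IsPushout i z q z' := by
  have h1 : IsPushout (coneBase X) (f ≫ z) (k ≫ q) z' := by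
    rw [hk]
    exact isPushout_ccoll X hO _ _
  have hc : i ≫ q = z ≫ z' := by
    rw [hi, hO.eq_of_src z' 0, comp_zero]
  exact (IsPushout.of_left h1.flip hc.symm hC.flip).flip

theorem exists_collapse (hC : IsPushout (coneBase X) f k i) :
    ∃ q : C ⟶ X ⊗ S M, k ≫ q = ccoll X ∧ i ≫ q = 0 :=
  ⟨hC.desc (ccoll X) 0 (by rw [coneBase_ccoll, comp_zero]), hC.inl_desc _ _ _, hC.inr_desc _ _ _⟩

/-- **Second Puppe statement.** -/
theorem ex_collapse (hC : IsPushout (coneBase X) f k i) {q : C ⟶ X ⊗ S M}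
    (hk : k ≫ q = ccoll X) (hi : i ≫ q = 0) : Ex i q := by
  have hD := IsPushout.of_hasPushout (coneBase Y) i
  have hO := isZero_empty (M := M)
  have hQ := isPushout_collapse hC hk hi hO 0 0
  -- the comparison map
  let e : Limits.pushout (coneBase Y) i ⟶ X ⊗ S M := hD.desc 0 q (by rw [comp_zero, hi])
  obtain ⟨g, h1, -⟩ := (hCof_cone hC).exists_cone_inverse (k := Limits.pushout.inl (coneBase Y) i)
    (i' := Limits.pushout.inr (coneBase Y) i) hD hO hQ e (hD.inl_desc _ _ _) (hD.inr_desc _ _ _)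
  refine (ex_cone hD).of_comp g ?_
  have h2 : Limits.pushout.inr (coneBase Y) i ≫ e = q := hD.inr_desc _ _ _
  rw [← h2, Category.assoc]
  have h3 := MHtpy.comp_left (Limits.pushout.inr (coneBase Y) i) h1
  rwa [Category.comp_id] at h3

section third

/-- the point `0` of the circle -/
def sbase (Y : M) : Y ⟶ Y ⊗ S M :=
  (ρ_ Y).inv ≫ Y ◁ (ε (J M) ≫ (J M).map (point (X := RR) (0 : ℝ)))

@[reassoc]
theorem sbase_naturality {X Y : M} (f : X ⟶ Y) : sbase X ≫ f ▷ S M = f ≫ sbase Y := by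
  rw [sbase, sbase, Category.assoc, whisker_exchange, ← rightUnitor_inv_naturality_assoc]

theorem coneBase_map {Y : M} (a : HH ⟶ RR)
    (ha : LP.zeroHH ≫ a = point (X := RR) (0 : ℝ)) :
    coneBase Y ≫ Y ◁ (J M).map a = sbase Y := by
  rw [coneBase, sbase, Category.assoc, ← MonoidalCategory.whiskerLeft_comp, Category.assoc,
    ← Functor.map_comp, ha]

theorem sbase_map {Y : M} (w : RR ⟶ RR) (hw : point (X := RR) (0 : ℝ) ≫ w = 0) :
    sbase Y ≫ Y ◁ (J M).map w = 0 := by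
  rw [sbase, Category.assoc, ← MonoidalCategory.whiskerLeft_comp, Category.assoc,
    ← Functor.map_comp, hw, J_map_zero, comp_zero, whiskerLeft_zero', comp_zero]

open LP

variable {D : M} {k' : Y ⊗ CI M ⟶ D} {i' : C ⟶ D}

/-- The two maps from the double mapping cone to `Y ⊗ S` are opposite. -/
theorem collapse_htpy (hC : IsPushout (coneBase X) f k i) (hD : IsPushout (coneBase Y) i k' i')
    {q : C ⟶ X ⊗ S M} (hk : k ≫ q = ccoll X) (hi : i ≫ q = 0)
    {e : D ⟶ X ⊗ S M} (hke : k' ≫ e = 0) (hie : i' ≫ e = q)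
    {q' : D ⟶ Y ⊗ S M} (hk' : k' ≫ q' = ccoll Y) (hi' : i' ≫ q' = 0) :
    MHtpy q' ((e ≫ f ▷ S M) ≫ Y ◁ (J M).map neg) := by
  have hp1 : zeroHH ≫ incPos = point (X := RR) (0 : ℝ) := zeroHH_incPos
  have hp2 : zeroHH ≫ incNeg = point (X := RR) (0 : ℝ) := zeroHH_incNeg
  -- the glued map
  let c : C ⟶ Y ⊗ S M := hC.desc (X ◁ (J M).map incPos ≫ f ▷ S M) (sbase Y) (by
    rw [← Category.assoc, coneBase_map incPos hp1, sbase_naturality])
  have hkc : k ≫ c = X ◁ (J M).map incPos ≫ f ▷ S M := hC.inl_desc _ _ _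
  have hic : i ≫ c = sbase Y := hC.inr_desc _ _ _
  let m : D ⟶ Y ⊗ S M := hD.desc (Y ◁ (J M).map incNeg) c (by
    rw [coneBase_map incNeg hp2, hic])
  have hkm : k' ≫ m = Y ◁ (J M).map incNeg := hD.inl_desc _ _ _
  have him : i' ≫ m = c := hD.inr_desc _ _ _
  -- first map
  let w₁ : RR ⟶ RR := glueRR collHH 0 (by rw [zeroHH_collHH, comp_zero])
  let w₂ : RR ⟶ RR := glueRR 0 collHH (by rw [zeroHH_collHH, comp_zero])
  have h1p : incPos ≫ w₁ = collHH := incPos_glueRR _ _ _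
  have h1n : incNeg ≫ w₁ = 0 := incNeg_glueRR _ _ _
  have h2p : incPos ≫ w₂ = 0 := incPos_glueRR _ _ _
  have h2n : incNeg ≫ w₂ = collHH := incNeg_glueRR _ _ _
  have h10 : point (X := RR) (0 : ℝ) ≫ w₁ = 0 := by
    rw [← hp1, Category.assoc, h1p]
    exact zeroHH_collHH
  have h20 : point (X := RR) (0 : ℝ) ≫ w₂ = 0 := by
    rw [← hp1, Category.assoc, h2p, comp_zero]
  have e1 : m ≫ Y ◁ (J M).map w₁ = e ≫ f ▷ S M := by
    apply hD.hom_ext
    · rw [reassoc_of% hkm, ← MonoidalCategory.whiskerLeft_comp, ← Functor.map_comp, h1n,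
        J_map_zero, whiskerLeft_zero', reassoc_of% hke, zero_comp]
    · rw [reassoc_of% him, reassoc_of% hie]
      apply hC.hom_ext
      · rw [reassoc_of% hkc, reassoc_of% hk, ← whisker_exchange,
          ← MonoidalCategory.whiskerLeft_comp_assoc, ← Functor.map_comp, h1p]
        rfl
      · rw [reassoc_of% hic, sbase_map _ h10, reassoc_of% hi, zero_comp]
  have e2 : m ≫ Y ◁ (J M).map w₂ = q' := by
    apply hD.hom_ext
    · rw [reassoc_of% hkm, ← MonoidalCategory.whiskerLeft_comp, ← Functor.map_comp, h2n, hk']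
      rfl
    · rw [reassoc_of% him, hi']
      apply hC.hom_ext
      · rw [reassoc_of% hkc, ← whisker_exchange,
          ← MonoidalCategory.whiskerLeft_comp_assoc, ← Functor.map_comp, h2p,
          J_map_zero, whiskerLeft_zero', zero_comp, comp_zero]
      · rw [reassoc_of% hic, sbase_map _ h20, comp_zero]
  have t1 : MHtpy (m ≫ Y ◁ (J M).map w₁) (m ≫ Y ◁ (J M).map (𝟙 RR)) :=
    MHtpy.comp_left m (MHtpy.whiskerLeft Y (MHtpy.map homotopic_glueRR_id))
  have t2 : MHtpy (m ≫ Y ◁ (J M).map w₂) (m ≫ Y ◁ (J M).map neg) :=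
    MHtpy.comp_left m (MHtpy.whiskerLeft Y (MHtpy.map homotopic_glueRR_neg))
  rw [e1, CategoryTheory.Functor.map_id, MonoidalCategory.whiskerLeft_id, Category.comp_id] at t1
  rw [e2] at t2
  exact t2.trans (t1.symm.comp_right _)

/-- **Third Puppe statement.** -/
theorem ex_whiskerRight (hC : IsPushout (coneBase X) f k i) {q : C ⟶ X ⊗ S M}
    (hk : k ≫ q = ccoll X) (hi : i ≫ q = 0) : Ex q (f ▷ S M) := by
  have hD := IsPushout.of_hasPushout (coneBase Y) i
  have hO := isZero_empty (M := M)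
  have hQ := isPushout_collapse hC hk hi hO 0 0
  -- the comparison map
  let e : Limits.pushout (coneBase Y) i ⟶ X ⊗ S M := hD.desc 0 q (by rw [comp_zero, hi])
  have hke : Limits.pushout.inl (coneBase Y) i ≫ e = 0 := hD.inl_desc _ _ _
  have hie : Limits.pushout.inr (coneBase Y) i ≫ e = q := hD.inr_desc _ _ _
  obtain ⟨r, h1, h2⟩ := (hCof_cone hC).exists_cone_inverse (k := Limits.pushout.inl (coneBase Y) i)
    (i' := Limits.pushout.inr (coneBase Y) i) hD hO hQ e hke hie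
  obtain ⟨q', hk', hi'⟩ := exists_collapse hD
  have hop := collapse_htpy hC hD hk hi hke hie hk' hi'
  intro B g hg
  obtain ⟨g₁, hg₁⟩ := ex_collapse hD hk' hi' B (g ≫ r) (by
    have s1 : MHtpy ((g ≫ r) ≫ q') ((g ≫ r) ≫ (e ≫ f ▷ S M) ≫ Y ◁ (J M).map neg) :=
      MHtpy.comp_left _ hop
    have s2 : (g ≫ r) ≫ (e ≫ f ▷ S M) ≫ Y ◁ (J M).map neg =
        (g ≫ r ≫ e) ≫ (f ▷ S M ≫ Y ◁ (J M).map neg) := by simp only [Category.assoc]
    have s3 : MHtpy ((g ≫ r ≫ e) ≫ (f ▷ S M ≫ Y ◁ (J M).map neg))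
        ((g ≫ 𝟙 _) ≫ (f ▷ S M ≫ Y ◁ (J M).map neg)) :=
      (MHtpy.comp_left g h2).comp_right _
    have s4 : (g ≫ 𝟙 _) ≫ (f ▷ S M ≫ Y ◁ (J M).map neg) = (g ≫ f ▷ S M) ≫ Y ◁ (J M).map neg := by
      simp only [Category.assoc, Category.id_comp]
    have s5 : MHtpy ((g ≫ f ▷ S M) ≫ Y ◁ (J M).map neg) (0 ≫ Y ◁ (J M).map neg) :=
      hg.comp_right _
    rw [zero_comp] at s5
    rw [s2] at s1
    rw [s4] at s3
    exact s1.trans (s3.trans s5))
  refine ⟨g₁, ?_⟩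
  have u1 : g₁ ≫ q ▷ S M = (g₁ ≫ (Limits.pushout.inr (coneBase Y) i) ▷ S M) ≫ e ▷ S M := by
    rw [Category.assoc, ← MonoidalCategory.comp_whiskerRight, hie]
  have u2 : MHtpy ((g₁ ≫ (Limits.pushout.inr (coneBase Y) i) ▷ S M) ≫ e ▷ S M)
      ((g ≫ r) ▷ S M ≫ e ▷ S M) := hg₁.comp_right _
  have u3 : (g ≫ r) ▷ S M ≫ e ▷ S M = (g ≫ r ≫ e) ▷ S M := by
    simp only [MonoidalCategory.comp_whiskerRight, Category.assoc]
  have u4 : MHtpy ((g ≫ r ≫ e) ▷ S M) ((g ≫ 𝟙 _) ▷ S M) :=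
    (MHtpy.comp_left g h2).whiskerRight _
  rw [u1]
  rw [u3] at u2
  rw [Category.comp_id] at u4
  exact u2.trans u4

end third

end StabInput

end Vale.Agent.P251.H
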