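import Vale.Agent.P251.H.PiGrp
import Vale.Agent.P251.H.Grp
import Vale.Agent.P251.H.Wst
import Vale.Agent.P251.H.Puppe2

/-!
# P251, part H: exactness of the stable classes

* the stable classes `PiM A X` are abelian groups, `mapM` is additive;
* for a mapping cone `X ⟶ Y ⟶ C ⟶ X ⊗ S` the sequence
  `PiM A X ⟶ PiM A Y ⟶ PiM A C ⟶ PiM A (X ⊗ S) ⟶ PiM A (Y ⊗ S)` is exact.
-/

open CategoryTheory MonoidalCategory Limits Topology OnePoint

namespace Vale.Agent.P251.H

open Vale.Agent.P251.G Vale.Agent.P251.G.LC Vale.Agent.P251.H.LP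

universe v u

variable {M : Type u} [Category.{v} M] [MonoidalCategory M] [SymmetricCategory M]
    [MonoidalClosed M] [HasZeroMorphisms M] [HasColimitsOfSize.{0, 0} M] [StabInput M]

namespace HM

/-- The group structures on morphisms out of suspensions. -/
noncomputable instance coGrp : CoGrp (K := HM M) (⟨StabInput.S M⟩ : HM M) where
  add {B Z} f g := Quotient.map₂ (sa := setoid (B.obj ⊗ StabInput.S M) Z.obj)
    (sb := setoid (B.obj ⊗ StabInput.S M) Z.obj) (sc := setoid (B.obj ⊗ StabInput.S M) Z.obj)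
    StabInput.madd (fun _ _ h _ _ k => StabInput.MHtpy.madd h k) f g
  neg {B Z} f := Quotient.map (sa := setoid (B.obj ⊗ StabInput.S M) Z.obj)
    (sb := setoid (B.obj ⊗ StabInput.S M) Z.obj)
    StabInput.mneg (fun _ _ h => StabInput.MHtpy.mneg h) f
  add_assoc := by
    rintro B Z ⟨f⟩ ⟨g⟩ ⟨h⟩
    exact Quotient.sound (s := setoid (B.obj ⊗ StabInput.S M) Z.obj)
      (StabInput.madd_assoc f g h)
  zero_add := by
    rintro B Z ⟨f⟩
    exact Quotient.sound (s := setoid (B.obj ⊗ StabInput.S M) Z.obj) (StabInput.zero_madd f)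
  neg_add := by
    rintro B Z ⟨f⟩
    exact Quotient.sound (s := setoid (B.obj ⊗ StabInput.S M) Z.obj) (StabInput.mneg_madd f)
  add_comp := by
    rintro B Z Z' ⟨f⟩ ⟨g⟩ ⟨h⟩
    exact congrArg (Quotient.mk (setoid (B.obj ⊗ StabInput.S M) Z'.obj))
      (StabInput.madd_comp f g h)
  whiskerRight_add := by
    rintro B B' Z ⟨b⟩ ⟨f⟩ ⟨g⟩
    exact congrArg (Quotient.mk (setoid (B.obj ⊗ StabInput.S M) Z.obj))
      (StabInput.whiskerRight_madd b f g)
  add_comm := by
    rintro B Z ⟨f⟩ ⟨g⟩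
    exact Quotient.sound (s := setoid ((B.obj ⊗ StabInput.S M) ⊗ StabInput.S M) Z.obj)
      (StabInput.madd_comm f g)

end HM

namespace StabInput

noncomputable instance : CoGrp (stab M).S := HM.coGrp

/-- the stable classes are abelian groups -/
noncomputable instance (A X : HM M) : AddCommGroup ((stab M).coPt.Pi A X) :=
  StabObj.instAddCommGroupPiCoPt (stab M) A X

/-- `mapM A f` as a homomorphism of abelian groups -/
noncomputable abbrev mapMHom (A : M) {X Y : M} (f : X ⟶ Y) : PiM A X →+ PiM A Y :=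
  (stab M).mapHom _ ((HM.proj M).map f)

theorem mapM_map_zero (A : M) {X Y : M} (f : X ⟶ Y) : mapM A f 0 = 0 := (mapMHom A f).map_zero

theorem mapM_add (A : M) {X Y : M} (f : X ⟶ Y) (a b : PiM A X) :
    mapM A f (a + b) = mapM A f a + mapM A f b := (mapMHom A f).map_add a b

theorem mapM_sub (A : M) {X Y : M} (f : X ⟶ Y) (a b : PiM A X) :
    mapM A f (a - b) = mapM A f a - mapM A f b := (mapMHom A f).map_sub a b

theorem mapM_zero_hom (A : M) {X Y : M} (x : PiM A X) : mapM A (0 : X ⟶ Y) x = 0 :=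
  (stab M).map_zero_hom _ x

theorem mapM_injective_iff (A : M) {X Y : M} (f : X ⟶ Y) :
    Function.Injective (mapM A f) ↔ ∀ x, mapM A f x = 0 → x = 0 :=
  (stab M).map_injective_iff _ _

theorem piM_subsingleton_of_isZero (A : M) {Z : M} (hZ : IsZero Z) (x : PiM A Z) : x = 0 := by
  have h := mapM_id A Z x
  have h0 : 𝟙 Z = 0 := hZ.eq_of_src _ _
  rw [h0, mapM_zero_hom] at h
  exact h.symm

/-- unstable exactness gives `ExS` in the homotopy category -/
theorem Ex.exS {X Y Z : M} {a : X ⟶ Y} {b : Y ⟶ Z} (h : Ex a b) :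
    StabObj.ExS (stab M).S ((HM.proj M).map a) ((HM.proj M).map b) := by
  rintro B ⟨g⟩ hg
  obtain ⟨g', hg'⟩ := h B.obj g ((HM.proj_map_eq_iff (g ≫ b) 0).mp hg)
  exact ⟨(HM.proj M).map g', HM.sound hg'⟩

/-- **Exactness of the stable classes.** -/
theorem Ex.exact {X Y Z : M} {a : X ⟶ Y} {b : Y ⟶ Z} (h : Ex a b) (A : M) (y : PiM A Y)
    (hy : mapM A b y = 0) : ∃ x, mapM A a x = y :=
  (stab M).exact_of_exS _ _ h.exS _ y hy

end StabInput

end Vale.Agent.P251.H
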