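import Vale.Agent.P251.H.Naive
import Mathlib.Analysis.SpecialFunctions.Trigonometric.Deriv
import Mathlib.Analysis.SpecialFunctions.Trigonometric.Basic

/-!
# P251, part H: the swap of `ℝ ⊗ ℝ` is homotopic to `(-1) ⊗ 1`
-/

open CategoryTheory MonoidalCategory Limits Topology OnePoint

namespace Vale.Agent.P251.H

open Vale.Agent.P251.G Vale.Agent.P251.G.LC

/-- the reflection of the plane at angle `π t / 2`: an involution depending on `t` -/
noncomputable def reflMap (q : (ℝ × ℝ) × unitInterval) : (ℝ × ℝ) × unitInterval :=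
  ((- Real.cos (Real.pi / 2 * q.2.1) * q.1.1 + Real.sin (Real.pi / 2 * q.2.1) * q.1.2,
    Real.sin (Real.pi / 2 * q.2.1) * q.1.1 + Real.cos (Real.pi / 2 * q.2.1) * q.1.2), q.2)

theorem reflMap_reflMap (q : (ℝ × ℝ) × unitInterval) : reflMap (reflMap q) = q := by
  obtain ⟨⟨x, y⟩, t⟩ := q
  have h := Real.sin_sq_add_cos_sq (Real.pi / 2 * t.1)
  simp only [reflMap]
  refine Prod.ext (Prod.ext ?_ ?_) rfl
  · simp only
    linear_combination x * h
  · simp only
    linear_combination y * h

theorem continuous_reflMap : Continuous reflMap := by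
  unfold reflMap
  fun_prop

/-- `reflMap` as a homeomorphism -/
noncomputable def reflHomeo : ((ℝ × ℝ) × unitInterval) ≃ₜ ((ℝ × ℝ) × unitInterval) where
  toFun := reflMap
  invFun := reflMap
  left_inv := reflMap_reflMap
  right_inv := reflMap_reflMap
  continuous_toFun := continuous_reflMap
  continuous_invFun := continuous_reflMap

/-- the reflection `x ↦ -x` of the line -/
noncomputable def negRR : RR ⟶ RR := (ofHomeo (X := RR) (Y := RR) (Homeomorph.neg ℝ)).hom

/-- the projection of the cylinder in `LC` -/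
def prLC (X : LC) : X ⊗ II ⟶ X := X ◁ projII ≫ (ρ_ X).hom

theorem app_prLC_coe (X : LC) (x : X) (t : unitInterval) :
    app (prLC X) (((x, t) : X × unitInterval) : OnePoint (X × unitInterval)) = (x : OnePoint X) :=
  rfl

/-- the swap of the plane is homotopic to the reflection of the first coordinate -/
theorem homotopic_swap : LC.Homotopic (negRR ▷ RR) (β_ RR RR).hom := by
  refine ⟨(ofHomeo (X := (RR ⊗ RR) ⊗ II) (Y := (RR ⊗ RR) ⊗ II) reflHomeo).hom ≫ prLC (RR ⊗ RR),
    ?_, ?_⟩
  · apply hom_ext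
    rintro ⟨x, y⟩
    change (((reflMap ((x, y), (0 : unitInterval))).1 : ℝ × ℝ) : OnePoint (ℝ × ℝ)) =
      (((-x, y) : ℝ × ℝ) : OnePoint (ℝ × ℝ))
    congr 1
    simp [reflMap]
  · apply hom_ext
    rintro ⟨x, y⟩
    change (((reflMap ((x, y), (1 : unitInterval))).1 : ℝ × ℝ) : OnePoint (ℝ × ℝ)) =
      (((y, x) : ℝ × ℝ) : OnePoint (ℝ × ℝ))
    congr 1
    simp [reflMap]

end Vale.Agent.P251.H
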