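import Vale.Agent.P251.H.FlatCat
import Vale.Agent.P251.H.HCofCone
import Vale.Agent.P251.H.MonLoc.LCModel
import Vale.Agent.P251.H.MonLoc.Sign

/-!
# P251, part H: the cone, the circle and the desuspension in the category of flat objects

`flatCone W : ConeModel (FlatCat W)`, `flatSign W : SignModel (flatCone W)`,
`flatL W : FlatCat W`, `flatLam W : flatL W ⊗ (flatCone W).S ⟶ 𝟙_`.
-/

open CategoryTheory MonoidalCategory Limits ZeroObject

namespace Vale.Agent.P251.H

open Vale.Agent.P251.G Vale.Agent.P251.G.LC

universe v u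

namespace StabInput

variable {M : Type u} [Category.{v} M] [MonoidalCategory M] [SymmetricCategory M]
    [MonoidalClosed M] [HasZeroMorphisms M] [HasColimitsOfSize.{0, 0} M] [StabInput M]

open Functor.LaxMonoidal Functor.OplaxMonoidal

/-- cofibre squares of `LC` based at a point -/
theorem isCofibre_of_point {X Y : LC} (x : X) (g : X ⟶ Y)
    (h : IsPushout (point x) (0 : 𝟙_ LC ⟶ LC.of Empty) g (0 : LC.of Empty ⟶ Y)) :
    IsCofibre (ε (J M) ≫ (J M).map (point x)) ((J M).map g) := by
  have h1 : IsCofibre ((J M).map (point x)) ((J M).map g) :=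
    ⟨_, StabInput.isZero_empty, _, _, StabInput.pushout _ _ _ _ (injective_point x) h⟩
  exact h1.of_iso (Functor.Monoidal.εIso (J M)).symm (Iso.refl _) (Iso.refl _)
    (by simp) (by simp)

theorem isCofibre_collI : IsCofibre (pt 1 : 𝟙_ M ⟶ I M) ((J M).map collI) :=
  isCofibre_of_point (1 : unitInterval) collI (isPushout_collI LC.isZero_empty 0 0)

theorem isCofibre_openPart :
    IsCofibre (ε (J M) ≫ (J M).map (point (X := HH) 0)) ((J M).map openPart) :=
  isCofibre_of_point (X := HH) (0 : NNReal) openPart (isPushout_openPart LC.isZero_empty 0 0)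

theorem flat_of_contr (W : MorphismProperty M) [GoodW W] {Z : M} (h : MHtpy (𝟙 Z) 0) :
    Flat W Z := by
  refine (flatInput W).flat_of_hequiv (0 : (0 : M) ⟶ Z) (0 : Z ⟶ (0 : M)) ?_ ?_
    ((flatInput W).flat_of_isZero (isZero_zero M))
  · exact MHtpy.of_eq ((isZero_zero M).eq_of_src _ _)
  · rw [zero_comp]
    exact h.symm

theorem homotopic_HH : LC.Homotopic (𝟙 HH) 0 := ⟨contrHH, incl_zero_contrHH, incl_one_contrHH⟩

theorem flat_CI (W : MorphismProperty M) [GoodW W] : Flat W (CI M) := by
  refine flat_of_contr W ?_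
  have h := MHtpy.map (M := M) homotopic_HH
  rwa [CategoryTheory.Functor.map_id, J_map_zero] at h

variable (W : MorphismProperty M) [hW : GoodW W]

/-- the circle as a flat object -/
def flatS : FlatCat W := (JF W).obj I.RRF

variable {W} in
/-- homotopies in `M` give homotopies in the category of flat objects -/
theorem htpy_flat {X Y : FlatCat W} {f g : X ⟶ Y} (h : MHtpy f.hom g.hom) :
    CofCat.Htpy f g := by
  obtain ⟨H, h0, h1⟩ := h
  exact ⟨ObjectProperty.homMk H, ObjectProperty.hom_ext _ h0, ObjectProperty.hom_ext _ h1⟩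

/-- the cone of the unit and the circle in the category of flat objects -/
noncomputable def flatCone : ConeModel (FlatCat W) where
  CI := ⟨CI M, flat_CI W⟩
  S := (JF W).obj I.RRF
  c := ObjectProperty.homMk (ε (J M) ≫ (J M).map (point (X := HH) 0))
  q := ObjectProperty.homMk ((J M).map collI)
  s := ObjectProperty.homMk ((J M).map openPart)
  e₀_q := by
    ext
    change (ε (J M) ≫ (J M).map (point (X := II) 0)) ≫ (J M).map collI =
      ε (J M) ≫ (J M).map (point (X := HH) 0)
    rw [Category.assoc, ← Functor.map_comp, point_collI]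
  isPushout_q := isPushout_flat_of_hom (isCofibre_collI.isPushout
    ((Flat W).ι.map_isZero (isZero_zero (FlatCat W))) _ _)
  isPushout_s := isPushout_flat_of_hom (isCofibre_openPart.isPushout
    ((Flat W).ι.map_isZero (isZero_zero (FlatCat W))) _ _)

/-- the two halves of the circle, the reflection, and the homotopies -/
noncomputable def flatSign : SignModel (flatCone W) where
  pos := ObjectProperty.homMk ((J M).map posRR)
  neg := ObjectProperty.homMk ((J M).map minRR)
  isPushout := by
    refine isPushout_flat_of_hom ?_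
    have h := StabInput.pushout (M := M) _ _ _ _ (injective_point (X := HH) 0)
      isPushout_halfLines
    exact h.of_iso (Functor.Monoidal.εIso (J M)).symm (Iso.refl _) (Iso.refl _) (Iso.refl _)
      (by change (J M).map (point (X := HH) 0) ≫ 𝟙 _ = η (J M) ≫ ε (J M) ≫ _; simp)
      (by change (J M).map (point (X := HH) 0) ≫ 𝟙 _ = η (J M) ≫ ε (J M) ≫ _; simp)
      ((Category.comp_id ((J M).map posRR)).trans (Category.id_comp ((J M).map posRR)).symm)
      ((Category.comp_id ((J M).map minRR)).trans (Category.id_comp ((J M).map minRR)).symm)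
  flip := ObjectProperty.homMk ((J M).map negRR)
  pos_flip := by
    ext
    exact ((J M).map_comp _ _).symm.trans (congrArg (J M).map posRR_negRR)
  neg_flip := by
    ext
    exact ((J M).map_comp _ _).symm.trans (congrArg (J M).map minRR_negRR)
  ex := ObjectProperty.homMk ((J M).map expRR)
  pos_ex := by
    ext
    exact ((J M).map_comp _ _).symm.trans (congrArg (J M).map posRR_expRR)
  neg_ex := by
    ext
    exact ((J M).map_comp _ _).symm.trans
      ((congrArg (J M).map minRR_expRR).trans (J_map_zero _ _))
  htpy_ex := htpy_flat ((MHtpy.map homotopic_expRR).trans (MHtpy.of_eq ((J M).map_id _)))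
  htpy_swap := by
    refine htpy_flat ?_
    have h := MHtpy.map (M := M) homotopic_swap
    have h1 := (MHtpy.comp_left (μ (J M) RR RR) h).comp_right (δ (J M) RR RR)
    refine (MHtpy.of_eq ?_).trans (h1.trans (MHtpy.of_eq ?_))
    · change (J M).map negRR ▷ (J M).obj RR = _
      rw [Category.assoc, ← Functor.LaxMonoidal.μ_natural_left_assoc, Functor.Monoidal.μ_δ,
        Category.comp_id]
    · change _ = (β_ ((J M).obj RR) ((J M).obj RR)).hom
      rw [Functor.LaxBraided.braided]
      simp

/-- the desuspension of the unit as a flat object -/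
def flatL : FlatCat W := ⟨(L : M), (flatInput W).flat_L⟩

/-- the map `L ⊗ S ⟶ 𝟙` -/
noncomputable def flatLam : flatL W ⊗ (flatCone W).S ⟶ 𝟙_ (FlatCat W) :=
  ObjectProperty.homMk (lam : (L : M) ⊗ (J M).obj RR ⟶ 𝟙_ M)

theorem flatLam_mem (h : W (lam : (L : M) ⊗ (J M).obj RR ⟶ 𝟙_ M)) :
    CofCat.W (flatLam W) := h

end StabInput

end Vale.Agent.P251.H
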