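import Vale.Agent.P251.H.BLocMain
import Vale.Agent.P251.S.TensorShift

/-!
# P251, part H: existence of Bousfield localizations in a (monogenic) stable homotopy category

`nonempty_bLoc : ∀ K X, Nonempty (S.BLoc K X)`.
-/

set_option linter.unusedSectionVars false

open CategoryTheory Limits Pretriangulated ZeroObject MonoidalCategory Opposite

universe w v u

namespace Vale.Agent.P251.H

open Vale.Agent.P251.T BL

variable {T : Type u} [Category.{v} T] [Preadditive T] [HasZeroObject T] [HasShift T ℤ]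
  [∀ n : ℤ, (shiftFunctor T n).Additive] [Pretriangulated T]
  [MonoidalCategory T] [SymmetricCategory T] [TensorTriangulated T]

/-- `K`-homology: `π₀ (K ⊗ X)`. -/
def khom (K : T) : T ⥤ AddCommGrpCat.{v} :=
  tensorLeft K ⋙ preadditiveCoyoneda.obj (op (𝟙_ T))

instance khom_homological (K : T) : (khom K).IsHomological where
  map_zero X Y := by
    change (preadditiveCoyoneda.obj (op (𝟙_ T))).map (K ◁ (0 : X ⟶ Y)) = 0
    rw [MonoidalPreadditive.whiskerLeft_zero, Functor.map_zero]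
  exact Δ hΔ := by
    rw [ShortComplex.ab_exact_iff]
    intro x hx
    obtain ⟨y, hy⟩ := Triangle.coyoneda_exact₂ _ (S.dist_whiskerLeft K hΔ) x hx
    exact ⟨y, hy.symm⟩

lemma khom_copGen [HasCoproducts.{0} T] (hc : IsCpt (𝟙_ T)) (K : T)
    (hpres : ∀ {I : Type} (X : I → T), PreservesColimit (Discrete.functor X) (tensorLeft K)) :
    CopGen (khom K) := by
  intro I X x
  have := hpres X
  let e := PreservesCoproduct.iso (tensorLeft K) X
  have he : ∀ i, Sigma.ι (fun j => K ⊗ X j) i ≫ e.inv = K ◁ (Sigma.ι X i) := by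
    intro i
    have := ι_comp_sigmaComparison (tensorLeft K) X i
    simpa [e, PreservesCoproduct.inv_hom] using this
  have h1 : BL.IsCpt (𝟙_ T) := (cpt_of_cpt hc 0).of_iso ((shiftFunctorZero T ℤ).app (𝟙_ T))
  change 𝟙_ T ⟶ K ⊗ ∐ X at x
  obtain ⟨s, hs⟩ := h1 (fun j => K ⊗ X j) (x ≫ e.hom)
  have h2 : x = ∑ i ∈ s, ((x ≫ e.hom) ≫ proj _ i) ≫ (K ◁ (Sigma.ι X i)) := by
    have h3 : x = (x ≫ e.hom) ≫ e.inv := by simp
    conv_lhs => rw [h3, hs, Preadditive.sum_comp]
    refine Finset.sum_congr rfl fun i _ => ?_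
    rw [← he]
    simp only [Category.assoc]
    rfl
  rw [h2]
  refine AddSubgroup.sum_mem _ fun i _ => ?_
  exact AddSubgroup.mem_iSup_of_mem i ⟨(x ≫ e.hom) ≫ proj _ i, rfl⟩

lemma ac_iff (hg : IsGen (𝟙_ T)) (K A : T) : Ac (khom K) A ↔ S.Acyclic K A := by
  constructor
  · intro h
    refine hg _ fun n f => ?_
    -- `f : 𝟙⟦n⟧ ⟶ K ⊗ A`
    have h1 := h (-n)
    let e : (K ⊗ (A⟦-n⟧)) ≅ (K ⊗ A)⟦-n⟧ := ((tensorLeft K).commShiftIso (-n)).app A
    let c : ((𝟙_ T)⟦n⟧)⟦-n⟧ ≅ 𝟙_ T := (shiftFunctorCompIsoId T n (-n) (by simp)).app (𝟙_ T)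
    have h2 : c.inv ≫ f⟦-n⟧' ≫ e.inv = 0 := h1 (c.inv ≫ f⟦-n⟧' ≫ e.inv)
    apply (shiftFunctor T (-n)).map_injective
    rw [Functor.map_zero, ← cancel_epi c.inv, ← cancel_mono e.inv, Category.assoc, h2]
    simp
  · intro h n x
    have h1 : IsZero (K ⊗ (A⟦n⟧)) := by
      have h2 : IsZero ((K ⊗ A)⟦n⟧) := (shiftFunctor T n).map_isZero h
      exact h2.of_iso (((tensorLeft K).commShiftIso n).app A)
    exact h1.eq_of_tgt _ _

/-- **Existence of Bousfield localizations.** -/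
theorem nonempty_bLoc [HasCoproducts.{0} T] [LocallySmall.{0} T] (hc : IsCpt (𝟙_ T))
    (hg : IsGen (𝟙_ T)) (K : T)
    (hpres : ∀ {I : Type} (X : I → T), PreservesColimit (Discrete.functor X) (tensorLeft K))
    (X : T) : Nonempty (S.BLoc K X) := by
  obtain ⟨A, L, a, l, d, D, hA, hL⟩ := exists_acyclization (H := khom K) hc hg
    (khom_copGen hc K hpres) (fun n => inferInstanceAs (Small.{0} (𝟙_ T ⟶ K ⊗ (𝟙_ T)⟦n⟧))) X
  rw [ac_iff hg] at hA
  refine ⟨⟨L, l, ?_, fun W hW f => hL W ((ac_iff hg K W).2 hW) f⟩⟩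
  exact (Triangle.isZero₁_iff_isIso₂ _ (S.dist_whiskerLeft K D)).1 hA

/-- Bousfield localizations exist in every (locally small) stable homotopy category. -/
theorem nonempty_bLoc_of_stableCat [IsTriangulated T] [MonoidalClosed T] [HasCoproducts.{0} T]
    [HasProducts.{0} T] [StableCat T] [LocallySmall.{0} T] (K X : T) :
    Nonempty (S.BLoc K X) :=
  nonempty_bLoc (fun n _ X f => StableCat.compact n X f) StableCat.generator K
    (fun _ => inferInstance) X

end Vale.Agent.P251.H
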