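 
import Mathlib.CategoryTheory.EssentiallySmall
import Mathlib.CategoryTheory.Localization.Predicate

/-!
# P251, part H: localizations with small Hom sets
-/

open CategoryTheory

namespace Vale.Agent.P251.H

universe w v u v' u'

section

variable {C : Type u} [Category.{v} C] (W : MorphismProperty C)

/-- From a locally small localization, one with small Hom sets (and the same objects). -/
theorem exists_small_localization {D : Type u'} [Category.{v'} D] (L : C ⥤ D)
    [L.IsLocalization W] [LocallySmall.{w} D] :
    ∃ (D' : Type u') (_ : Category.{w} D') (L' : C ⥤ D'), L'.IsLocalization W :=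
  ⟨ShrinkHoms D, inferInstance, L ⋙ (ShrinkHoms.equivalence D).functor, inferInstance⟩

end

end Vale.Agent.P251.H
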