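 
import Vale.Agent.P251.H.BrownApp

/-!
# P251, part H: smallness of Hom sets from a small generating family

In a triangulated category with coproducts (indexed by `Type`) which is perfectly generated by a
small family `S`, it is enough that the sets `Hom(S i, X)` are small.
-/

open CategoryTheory Limits Pretriangulated Category ZeroObject

universe w v u

namespace Vale.Agent.P251.H

variable {C : Type u} [Category.{v} C] [Preadditive C] [HasZeroObject C] [HasShift C ℤ]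
  [∀ n : ℤ, (shiftFunctor C n).Additive] [Pretriangulated C] [HasCoproducts.{0} C]

section tower

variable {ι : Type} (S : ι → C) (F : Coh.{w} C)

theorem exists_stage_succ_of_small (hsm : ∀ i X, Small.{0} (S i ⟶ X)) (s : Stage S F) :
    ∃ (t : Stage S F) (τ : s.A ⟶ t.A), F.res τ t.x = s.x ∧
      ∀ (i : ι) (f : S i ⟶ s.A), F.res f s.x = 0 → f ≫ τ = 0 := by
  have hsm' : ∀ i : ι, Small.{0} {f : S i ⟶ s.A // F.res f s.x = 0} := fun i =>
    have := hsm i s.A
    inferInstance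
  let K : Type := Σ i : ι, Shrink.{0} {f : S i ⟶ s.A // F.res f s.x = 0}
  let p : (∐ fun k : K => S k.1) ⟶ s.A := Sigma.desc (fun k => ((equivShrink _).symm k.2).1)
  obtain ⟨Z, τ, δ, D⟩ := exists_cone p
  have hp : F.res p s.x = 0 := by
    refine F.sigma_ext _ (fun k => ?_)
    rw [F.res_zero, ← F.res_comp, Sigma.ι_desc]
    exact ((equivShrink _).symm k.2).2
  obtain ⟨z, hz⟩ := F.exact D s.x hp
  refine ⟨⟨Z, (inLoc_localizing S).cone D
    ((inLoc_localizing S).coprod (fun k : K => S k.1) (fun k => inLoc_self S k.1)) s.hA, z⟩,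
    τ, hz, fun i f hf => ?_⟩
  have h1 : Sigma.ι (fun k : K => S k.1) ⟨i, equivShrink _ ⟨f, hf⟩⟩ ≫ p = f := by
    simp [p]
  show f ≫ τ = 0
  rw [← h1, assoc, D.zero₁₂, comp_zero]

theorem exists_tower_of_small (hsm : ∀ i X, Small.{0} (S i ⟶ X))
    (hF : ∀ i, Small.{0} (F.obj (S i))) : Nonempty (Tower S F) := by
  obtain ⟨s₀, h₀⟩ := exists_stage_zero S F hF
  choose next τ res_τ kill using exists_stage_succ_of_small S F hsm
  choose c hc using h₀
  let s : ℕ → Stage S F := fun k => Nat.rec s₀ (fun _ t => next t) k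
  exact ⟨{
    A := fun k => (s k).A
    hA := fun k => (s k).hA
    x := fun k => (s k).x
    τ := fun k => τ (s k)
    res_τ := fun k => res_τ (s k)
    kill := fun k => kill (s k)
    c := c
    res_c := hc }⟩

end tower

section main

variable {ι : Type} {S : ι → C}

theorem exists_rep_S_of_small {F : Coh.{w} C} {A : C → Prop} (hloc : Localizing A)
    (hsm : ∀ i X, Small.{0} (S i ⟶ X))
    (hS : ∀ i, A (S i)) (hperf : Perfect A S) (hsh : ShiftClosed S)
    (hF : ∀ i, Small.{0} (F.obj (S i))) :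
    ∃ (Y : C) (y : F.obj Y), InLoc S Y ∧ ∀ i, Bij F y (S i) := by
  obtain ⟨t⟩ := exists_tower_of_small S F hsm hF
  obtain ⟨Y, q, δ, y, D, hY, hy⟩ := t.exists_hocolim
  have htA : ∀ k, A (t.A k) := fun k => t.hA k A hloc hS
  refine ⟨Y, y, hY, fun i => Bij.mk' (fun f hf => ?_) (fun z => ?_)⟩
  · -- injectivity
    have h1 : f ≫ δ = 0 := by
      obtain ⟨j, ⟨e⟩⟩ := hsh.pred i
      obtain ⟨p, hp⟩ := (shiftFunctor C (1 : ℤ)).map_surjective (e.hom ≫ f ≫ δ)
      have h2 : p ≫ t.φ = 0 := by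
        apply (shiftFunctor C (1 : ℤ)).map_injective
        rw [Functor.map_comp, hp, Functor.map_zero, assoc, assoc, D.zero₃₁, comp_zero, comp_zero]
      have h3 := t.φ_inj hloc hS hperf htA p h2
      rw [← cancel_epi e.hom, ← hp, h3, Functor.map_zero, comp_zero]
    obtain ⟨g, hg⟩ := D.lift₃ f h1
    obtain ⟨g', hg'⟩ := t.lift_φ hperf htA hy g (by rw [← F.res_comp, hg, hf])
    rw [← hg, ← hg', assoc, D.zero₁₂, comp_zero]
  · refine ⟨t.c i z ≫ Sigma.ι t.A 0 ≫ q, ?_⟩
    rw [F.res_comp, F.res_comp, hy, t.res_c]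

/-- The localizing subcategory `A` is generated by `S`. -/
theorem inLoc_of_generator_of_small {A : C → Prop} (hloc : Localizing A)
    (hsm : ∀ i X, Small.{0} (S i ⟶ X))
    (hS : ∀ i, A (S i)) (hperf : Perfect A S) (hsh : ShiftClosed S)
    (hG : ∀ Z, A Z → (∀ i (f : S i ⟶ Z), f = 0) → IsZero Z) {B : C} (hB : A B) :
    InLoc S B := by
  obtain ⟨Y, y, hY, hbij⟩ := exists_rep_S_of_small (F := homCoh B) hloc hsm hS hperf hsh
    (fun i => hsm i B)
  change Y ⟶ B at y
  obtain ⟨Z, g, δ, D⟩ := exists_cone y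
  have hZ : IsZero Z := by
    refine hG Z (hloc.cone D (hY A hloc hS) hB) (fun i f => ?_)
    have h1 : f ≫ δ = 0 := by
      obtain ⟨j, ⟨e⟩⟩ := hsh.pred i
      obtain ⟨p, hp⟩ := (shiftFunctor C (1 : ℤ)).map_surjective (e.hom ≫ f ≫ δ)
      have h2 : p ≫ y = 0 := by
        apply (shiftFunctor C (1 : ℤ)).map_injective
        rw [Functor.map_comp, hp, Functor.map_zero, assoc, assoc, D.zero₃₁, comp_zero, comp_zero]
      have h3 : p = 0 := (hbij j).inj h2
      rw [← cancel_epi e.hom, ← hp, h3, Functor.map_zero, comp_zero]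
    obtain ⟨a, ha⟩ := D.lift₃ f h1
    obtain ⟨a', ha'⟩ := (hbij i).surj a
    change a' ≫ y = a at ha'
    rw [← ha, ← ha', assoc, D.zero₁₂, comp_zero]
  have : IsIso y := (Triangle.isZero₃_iff_isIso₁ _ D).1 hZ
  exact (inLoc_localizing S).iso (asIso y) hY

omit [HasCoproducts.{0} C] in
/-- smallness of Hom sets out of a cone -/
theorem small_hom_cone {X Y Z : C} {f : X ⟶ Y} {g : Y ⟶ Z} {h : Z ⟶ X⟦(1 : ℤ)⟧} (D : Dist f g h)
    (W : C) (h₁ : Small.{0} (X⟦(1 : ℤ)⟧ ⟶ W)) (h₂ : Small.{0} (Y ⟶ W)) :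
    Small.{0} (Z ⟶ W) := by
  classical
  let s : (Y ⟶ W) → (Z ⟶ W) := fun φ =>
    if H : ∃ ψ : Z ⟶ W, g ≫ ψ = φ then H.choose else 0
  have hs : ∀ ψ : Z ⟶ W, g ≫ s (g ≫ ψ) = g ≫ ψ := fun ψ => by
    have H : ∃ ψ' : Z ⟶ W, g ≫ ψ' = g ≫ ψ := ⟨ψ, rfl⟩
    change g ≫ (if H : ∃ ψ' : Z ⟶ W, g ≫ ψ' = g ≫ ψ then H.choose else 0) = g ≫ ψ
    rw [dif_pos H]
    exact H.choose_spec
  refine small_of_surjective (f := fun p : (X⟦(1 : ℤ)⟧ ⟶ W) × (Y ⟶ W) => s p.2 + h ≫ p.1)
    (fun ψ => ?_)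
  obtain ⟨a, ha⟩ := D.rot.desc₂ (ψ - s (g ≫ ψ)) (by
    rw [Preadditive.comp_sub, hs, sub_self])
  exact ⟨(a, g ≫ ψ), by
    change s (g ≫ ψ) + h ≫ a = ψ
    rw [ha]; abel⟩

theorem localizing_small : Localizing (C := C) (fun X => ∀ (n : ℤ) (W : C),
    Small.{0} (X⟦n⟧ ⟶ W)) where
  iso {X Y} e h n W := by
    have := h n W
    exact small_of_injective (f := fun φ : Y⟦n⟧ ⟶ W => (shiftFunctor C n).map e.hom ≫ φ)
      (fun φ ψ hφ => (cancel_epi ((shiftFunctor C n).map e.hom)).mp hφ)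
  shift {X} m h n W := by
    have := h (m + n) W
    exact small_of_injective (f := fun φ : (X⟦m⟧)⟦n⟧ ⟶ W =>
      ((shiftFunctorAdd C m n).app X).hom ≫ φ)
      (fun φ ψ hφ => (cancel_epi _).mp hφ)
  cone {X Y Z} f g k D h₁ h₂ n W := by
    obtain ⟨f', g', k', D'⟩ := Dist.exists_shift D n
    refine small_hom_cone D' W ?_ (h₂ n W)
    have := h₁ (n + 1) W
    exact small_of_injective (f := fun φ : (X⟦n⟧)⟦(1 : ℤ)⟧ ⟶ W =>
      ((shiftFunctorAdd C n 1).app X).hom ≫ φ)
      (fun φ ψ hφ => (cancel_epi _).mp hφ)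
  coprod {I} X h n W := by
    have := fun i => h i n W
    refine small_of_injective (f := fun (φ : (∐ X)⟦n⟧ ⟶ W) (i : I) =>
      (shiftFunctor C n).map (Sigma.ι X i) ≫ φ) (fun φ ψ hφ => ?_)
    exact Cofan.IsColimit.hom_ext
      (isColimitOfHasCoproductOfPreservesColimit (shiftFunctor C n) X) _ _
      (fun i => congrFun hφ i)

/-- Smallness of all Hom sets from smallness of the Hom sets out of a perfect generating
family. -/
theorem locallySmall_of_generator (hsm : ∀ i X, Small.{0} (S i ⟶ X))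
    (hperf : Perfect (fun _ => True) S) (hsh : ShiftClosed S)
    (hG : ∀ Z, (∀ i (f : S i ⟶ Z), f = 0) → IsZero Z) : LocallySmall.{0} C where
  hom_small X Y := by
    have h := inLoc_of_generator_of_small (A := fun _ => True) localizing_true hsm
      (fun _ => trivial) hperf hsh (fun Z _ => hG Z) (B := X) trivial _ localizing_small
      (fun i n W => by
        obtain ⟨j, ⟨e⟩⟩ := hsh i n
        have := hsm j W
        exact small_of_injective (f := fun φ : (S i)⟦n⟧ ⟶ W => e.inv ≫ φ)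
          (fun φ ψ hφ => (cancel_epi _).mp hφ)) 0 Y
    exact small_of_injective (f := fun φ : X ⟶ Y => ((shiftFunctorZero C ℤ).app X).hom ≫ φ)
      (fun φ ψ hφ => (cancel_epi _).mp hφ)

/-- Smallness of all Hom sets, for a compact generator. -/
theorem locallySmall_of_cpt {G : C} (hc : IsCpt G) (hg : IsGen G)
    (hsm : ∀ (n : ℤ) (X : C), Small.{0} (G⟦n⟧ ⟶ X)) : LocallySmall.{0} C := by
  refine locallySmall_of_generator (S := spheres G) ?_ (spheres_perfect hc)
    (spheres_shiftClosed G) (fun Z h => spheres_gen hg Z trivial h)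
  · rintro (_ | n) X
    · have : Subsingleton ((0 : C) ⟶ X) := ⟨fun a b => (isZero_zero C).eq_of_src _ _⟩
      exact inferInstanceAs (Small.{0} ((0 : C) ⟶ X))
    · exact hsm n X

end main

end Vale.Agent.P251.H
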