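import Vale.Agent.P251.H.MonLoc.Final
import Vale.Agent.P251.H.SmallHom
import Vale.Agent.P251.H.Shrink
import Vale.Agent.P251.H.BrownApp
import Vale.Agent.P251.H.BLoc
import Vale.Agent.P251.I.Spaces
import Vale.Agent.P251.St.Base

/-!
# P251, part H: assembling a stable homotopy category

* `exists_shCat`: a locally small tensor triangulated category with coproducts and a compact
  generating unit is a stable homotopy category `St.SHCat` (products, internal homs and Bousfield
  localizations exist).
* `exists_small_loc`: if the localizations of a stable model have compact generating units with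
  small Hom sets, there is a localization with Hom sets in `Type`.
-/

open CategoryTheory MonoidalCategory Limits Pretriangulated

universe v u

namespace Vale.Agent.P251.H

open Vale.Agent.P251.T

/-- From a compactly generated tensor triangulated category to a stable homotopy category. -/
theorem exists_shCat (T : Type 1) [Category.{0} T] [Preadditive T] [HasZeroObject T]
    [HasShift T ℤ] [∀ n : ℤ, (shiftFunctor T n).Additive] [Pretriangulated T] [IsTriangulated T]
    [MonoidalCategory T] [SymmetricCategory T] [TensorTriangulated T] [HasCoproducts.{0} T]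
    (hpres : ∀ (A : T) {I : Type} (X : I → T),
      PreservesColimit (Discrete.functor X) (tensorLeft A))
    (hc : IsCpt (𝟙_ T)) (hg : IsGen (𝟙_ T)) (F : I.SpaceFunctor T) :
    ∃ T' : St.SHCat, Nonempty (I.SpaceFunctor T'.C) ∧ ∀ K X : T'.C, Nonempty (S.BLoc K X) := by
  have := locallySmall_self.{0} T
  have hp : HasProducts.{0} T := hasProducts_of_cpt hc hg
  obtain ⟨cl⟩ := nonempty_monoidalClosed hc hg hpres
  let sc : StableCat T := stableCat_of hc hg
  refine ⟨{ C := T }, ⟨F⟩, fun K X => ?_⟩
  exact nonempty_bLoc hc hg K (fun X => hpres K X) X

section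

variable {C : Type 1} [Category.{0} C] [HasZeroObject C] [HasZeroMorphisms C]
  [HasBinaryCoproducts C] [CofCat C] [MonoidalCategory C] [SymmetricCategory C] [TensorCofCat C]
  [HasCoproducts.{0} C] [∀ J : Type, CofCat.CofCoproducts C J]

/-- If the unit of the canonical localization is a compact generator with small Hom sets, there is
a localization whose Hom sets are in `Type`. -/
theorem exists_small_loc (P : StabModel C)
    (hc : IsCpt (𝟙_ (TT P (CofCat.W (C := C)).Q)))
    (hg : IsGen (𝟙_ (TT P (CofCat.W (C := C)).Q)))
    (hs : ∀ (n : ℤ) (X : TT P (CofCat.W (C := C)).Q),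
      Small.{0} ((𝟙_ (TT P (CofCat.W (C := C)).Q))⟦n⟧ ⟶ X)) :
    ∃ (D : Type 1) (_ : Category.{0} D) (L : C ⥤ D), L.IsLocalization (CofCat.W (C := C)) := by
  have h : LocallySmall.{0} (TT P (CofCat.W (C := C)).Q) := locallySmall_of_cpt hc hg hs
  have h' : LocallySmall.{0} (CofCat.W (C := C)).Localization := h
  exact exists_small_localization (CofCat.W (C := C)) (CofCat.W (C := C)).Q

end

end Vale.Agent.P251.H
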