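import Vale.Agent.P251.H.BLocTool
import Vale.Agent.P251.H.BrownApp

/-!
# P251, part H: homology of an arbitrary object comes from finite objects

`H : T ⥤ AddCommGrpCat` homological and generated on coproducts; `G` a triangulated subcategory
of compact objects. Every class of `H F` comes from an object of `G`, and a class of an object of `G`
over `F` which dies in `H F` dies in an object of `G` over `F`.
-/

open CategoryTheory Limits Pretriangulated

universe w v u

namespace Vale.Agent.P251.H.BL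

variable {T : Type u} [Category.{v} T]

/-- approximation property -/
structure Appr (G : ObjectProperty T) (H : T ⥤ AddCommGrpCat.{w}) (F : T) : Prop where
  surj (x : H.obj F) : ∃ (A : T) (_ : G A) (g : A ⟶ F) (y : H.obj A), H.map g y = x
  inj (C : T) (hC : G C) (c : C ⟶ F) (x : H.obj C) (hx : H.map c x = 0) :
    ∃ (D : T) (_ : G D) (a : C ⟶ D) (b : D ⟶ F), a ≫ b = c ∧ H.map a x = 0

variable {G : ObjectProperty T} {H : T ⥤ AddCommGrpCat.{w}}

lemma Appr.of_iso {F F' : T} (h : Appr G H F) (e : F ≅ F') : Appr G H F' where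
  surj x := by
    obtain ⟨A, hA, g, y, hy⟩ := h.surj (H.map e.inv x)
    refine ⟨A, hA, g ≫ e.hom, y, ?_⟩
    rw [map_comp_apply', hy, ← map_comp_apply', e.inv_hom_id, map_id_apply']
  inj C hC c x hx := by
    obtain ⟨D, hD, a, b, hab, ha⟩ := h.inj C hC (c ≫ e.inv) x (by
      rw [map_comp_apply', hx, map_zero])
    exact ⟨D, hD, a, b ≫ e.hom, by rw [reassoc_of% hab, e.inv_hom_id, Category.comp_id], ha⟩

lemma Appr.of_mem {F : T} (hF : G F) : Appr G H F where
  surj x := ⟨F, hF, 𝟙 F, x, by simp⟩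
  inj C _ c x hx := ⟨F, hF, c, 𝟙 F, by simp, hx⟩

variable [Preadditive T] [HasZeroObject T] [HasShift T ℤ]
  [∀ n : ℤ, (shiftFunctor T n).Additive] [Pretriangulated T]
  [G.IsTriangulated] [G.IsClosedUnderIsomorphisms] [H.IsHomological]

lemma Appr.cone {X Y Z : T} {i : X ⟶ Y} {q : Y ⟶ Z} {d : Z ⟶ X⟦(1 : ℤ)⟧}
    (hΔ : Triangle.mk i q d ∈ distTriang T) (h₁ : Appr G H X) (h₂ : Appr G H Y)
    (h₁' : Appr G H (X⟦(1 : ℤ)⟧)) (h₂' : Appr G H (Y⟦(1 : ℤ)⟧)) : Appr G H Z where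
  surj x := by
    obtain ⟨C, hC, c, y, hy⟩ := h₁'.surj (H.map d x)
    obtain ⟨D, hD, a, b, hab, ha⟩ := h₂'.inj C hC (c ≫ i⟦(1 : ℤ)⟧') y (by
      rw [map_comp_apply', hy, ← map_comp_apply', mor₃₁ hΔ, map_zero_apply'])
    obtain ⟨E, e, f, hE⟩ := distinguished_cocone_triangle₁ a
    have hEG : G E := G.ext_of_isTriangulatedClosed₁ _ hE hC hD
    obtain ⟨φ, hφ⟩ := tr_fill hΔ hE c b hab
    obtain ⟨w, hw⟩ := ex₂ H hE y ha
    obtain ⟨u, hu⟩ := ex₃ H hΔ (x - H.map φ w) (by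
      rw [map_sub, ← map_comp_apply', ← hφ, map_comp_apply', hw, hy, sub_self])
    obtain ⟨A, hA, g, u₀, hu₀⟩ := h₂.surj u
    refine ⟨E ⊞ A, ?_, biprod.desc φ (g ≫ q), H.map biprod.inl w + H.map biprod.inr u₀, ?_⟩
    · exact prop_biprod' G hEG hA
    · rw [map_add, ← map_comp_apply', ← map_comp_apply', biprod.inl_desc, biprod.inr_desc,
        map_comp_apply', hu₀, hu]
      abel
  inj C hC c x hx := by
    obtain ⟨C₁, hC₁, a, b₁, hab, ha⟩ := h₁'.inj C hC (c ≫ d) x (by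
      rw [map_comp_apply', hx, map_zero])
    obtain ⟨D, e₀, f, hD⟩ := distinguished_cocone_triangle₁ a
    have hDG : G D := G.ext_of_isTriangulatedClosed₁ _ hD hC hC₁
    obtain ⟨x₁, hx₁⟩ := ex₂ H hD x ha
    obtain ⟨e, he⟩ := coyon₃ hΔ (e₀ ≫ c) (by
      rw [Category.assoc, ← hab, ← Category.assoc, mor₁₂ hD, zero_comp])
    obtain ⟨w', hw'⟩ := ex₂ H hΔ (H.map e x₁) (by
      rw [← map_comp_apply', he, map_comp_apply', hx₁, hx])
    obtain ⟨A, hA, g, w₀, hw₀⟩ := h₁.surj w'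
    obtain ⟨M, hM, m, b, hmb, hm⟩ := h₂.inj (D ⊞ A) (prop_biprod' G hDG hA)
      (biprod.desc e (-(g ≫ i))) (H.map biprod.inl x₁ + H.map biprod.inr w₀) (by
        rw [map_add, ← map_comp_apply', ← map_comp_apply', biprod.inl_desc, biprod.inr_desc,
          map_neg_apply', map_comp_apply', hw₀, hw', add_neg_cancel])
    obtain ⟨C₂, j, k, hC₂⟩ := distinguished_cocone_triangle
      (biprod.lift (biprod.fst ≫ e₀) (-m) : D ⊞ A ⟶ C ⊞ M)
    have hC₂G : G C₂ := G.ext_of_isTriangulatedClosed₃ _ hC₂ (prop_biprod' G hDG hA)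
      (prop_biprod' G hC hM)
    obtain ⟨r, hr⟩ := yon₂ hC₂ (biprod.desc c (b ≫ q)) (by
      rw [biprod.lift_desc, Preadditive.neg_comp, ← Category.assoc m, hmb]
      apply biprod.hom_ext'
      · simp [he, Preadditive.comp_add, Preadditive.comp_neg]
      · simp [mor₁₂ hΔ, Preadditive.comp_add, Preadditive.comp_neg, Preadditive.neg_comp])
    refine ⟨C₂, hC₂G, biprod.inl ≫ j, r, by rw [Category.assoc, hr, biprod.inl_desc], ?_⟩
    have h0 : (biprod.fst ≫ e₀) ≫ biprod.inl ≫ j = m ≫ biprod.inr ≫ j := by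
      have h := mor₁₂ hC₂
      rw [biprod.lift_eq, Preadditive.add_comp, Preadditive.neg_comp, Preadditive.neg_comp,
        add_neg_eq_zero] at h
      simpa using h
    have h1 : x₁ = H.map (biprod.fst : D ⊞ A ⟶ D)
        (H.map biprod.inl x₁ + H.map biprod.inr w₀) := by
      rw [map_add, ← map_comp_apply', ← map_comp_apply', biprod.inl_fst, biprod.inr_fst,
        map_id_apply', map_zero_apply', add_zero]
    rw [← hx₁, h1, ← map_comp_apply', ← map_comp_apply', ← Category.assoc, h0, map_comp_apply', hm,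
      map_zero]

omit [H.IsHomological] [G.IsClosedUnderIsomorphisms] in
lemma kills_zero {C F : T} (x : H.obj C) [H.Additive] :
    ∃ (D : T) (_ : G D) (a : C ⟶ D) (b : D ⟶ F), a ≫ b = 0 ∧ H.map a x = 0 := by
  obtain ⟨D, hD, hG⟩ := G.exists_prop_of_containsZero
  exact ⟨D, hG, 0, 0, by simp, map_zero_apply' H x⟩

lemma kills_add {C F : T} (x : H.obj C) (c c' : C ⟶ F)
    (h : ∃ (D : T) (_ : G D) (a : C ⟶ D) (b : D ⟶ F), a ≫ b = c ∧ H.map a x = 0)
    (h' : ∃ (D : T) (_ : G D) (a : C ⟶ D) (b : D ⟶ F), a ≫ b = c' ∧ H.map a x = 0) :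
    ∃ (D : T) (_ : G D) (a : C ⟶ D) (b : D ⟶ F), a ≫ b = c + c' ∧ H.map a x = 0 := by
  obtain ⟨D, hD, a, b, hab, ha⟩ := h
  obtain ⟨D', hD', a', b', hab', ha'⟩ := h'
  refine ⟨D ⊞ D', prop_biprod' G hD hD', biprod.lift a a', biprod.desc b b', ?_, ?_⟩
  · rw [biprod.lift_desc, hab, hab']
  · rw [biprod.lift_eq, map_add_apply', map_comp_apply', map_comp_apply', ha, ha', map_zero,
      map_zero, add_zero]

lemma kills_sum {C F : T} (x : H.obj C) {I : Type} (s : Finset I) (c : I → (C ⟶ F))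
    (h : ∀ i ∈ s, ∃ (D : T) (_ : G D) (a : C ⟶ D) (b : D ⟶ F), a ≫ b = c i ∧ H.map a x = 0) :
    ∃ (D : T) (_ : G D) (a : C ⟶ D) (b : D ⟶ F), a ≫ b = ∑ i ∈ s, c i ∧ H.map a x = 0 := by
  classical
  induction s using Finset.induction_on with
  | empty => simpa using kills_zero x
  | insert i s his ih =>
    rw [Finset.sum_insert his]
    exact kills_add x _ _ (h i (Finset.mem_insert_self i s))
      (ih fun j hj => h j (Finset.mem_insert_of_mem hj))

section Cop

variable [HasCoproducts.{0} T]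

/-- `C` is compact: a map to a coproduct is a finite sum of maps to the summands. -/
def IsCpt (C : T) : Prop :=
  ∀ ⦃I : Type⦄ (X : I → T) (f : C ⟶ ∐ X), ∃ s : Finset I, f = ∑ i ∈ s, f ≫ proj X i ≫ Sigma.ι X i

lemma Appr.coprod (hG : ∀ C, G C → IsCpt C) (hH : CopGen H) {I : Type} (F : I → T)
    (h : ∀ i, Appr G H (F i)) : Appr G H (∐ F) where
  surj x := by
    have hx := hH F x
    induction hx using AddSubgroup.iSup_induction' with
    | hp i y hy =>
      obtain ⟨z, rfl⟩ := hy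
      obtain ⟨A, hA, g, y, hy⟩ := (h i).surj z
      refine ⟨A, hA, g ≫ Sigma.ι F i, y, ?_⟩
      rw [map_comp_apply', hy]
    | h1 =>
      obtain ⟨D, hD, hG⟩ := G.exists_prop_of_containsZero
      exact ⟨D, hG, 0, 0, by simp⟩
    | hadd y z _ _ hy hz =>
      obtain ⟨A, hA, g, y, rfl⟩ := hy
      obtain ⟨A', hA', g', y', rfl⟩ := hz
      refine ⟨A ⊞ A', prop_biprod' G hA hA', biprod.desc g g',
        H.map biprod.inl y + H.map biprod.inr y', ?_⟩
      rw [map_add, ← map_comp_apply', ← map_comp_apply', biprod.inl_desc, biprod.inr_desc]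
  inj C hC c x hx := by
    obtain ⟨s, hs⟩ := hG C hC F c
    rw [hs]
    refine kills_sum x s _ fun i _ => ?_
    obtain ⟨D, hD, a, b, hab, ha⟩ := (h i).inj C hC (c ≫ proj F i) x (by
      rw [map_comp_apply', hx, map_zero])
    exact ⟨D, hD, a, b ≫ Sigma.ι F i, by rw [← Category.assoc, hab, Category.assoc], ha⟩

lemma appr_all [LocallySmall.{0} T] {S : T} (hc : Vale.Agent.P251.H.IsCpt S) (hg : Vale.Agent.P251.H.IsGen S)
    (hSG : ∀ n : ℤ, G (S⟦n⟧))
    (hG : ∀ C, G C → IsCpt C) (hH : CopGen H) (X : T) : Appr G H X := by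
  suffices h : ∀ X : T, ∀ k : ℤ, Appr G H (X⟦k⟧) from
    (h X 0).of_iso ((shiftFunctorZero T ℤ).app X)
  refine inLoc_cpt hc hg _ ⟨?_, ?_, ?_, ?_⟩ ?_
  · intro X Y e hX k
    exact (hX k).of_iso ((shiftFunctor T k).mapIso e)
  · intro X n hX k
    exact (hX (n + k)).of_iso ((shiftFunctorAdd T n k).app X)
  · intro X Y Z f g h hΔ hX hY k
    obtain ⟨h', hΔ'⟩ := shift_dist hΔ k
    exact Appr.cone hΔ' (hX k) (hY k) ((hX (k + 1)).of_iso ((shiftFunctorAdd T k 1).app X))
      ((hY (k + 1)).of_iso ((shiftFunctorAdd T k 1).app Y))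
  · intro I X hX k
    exact (Appr.coprod hG hH (fun i => (X i)⟦k⟧) fun i => hX i k).of_iso
      (PreservesCoproduct.iso (shiftFunctor T k) X).symm
  · intro k
    exact Appr.of_mem (hSG k)

end Cop

end Vale.Agent.P251.H.BL
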