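import Vale.Agent.P251.H.BLocFin

/-!
# P251, part H: an essentially small class of objects closed under cones and bounded coproducts
-/

open CategoryTheory Limits Pretriangulated ZeroObject

universe w v u

namespace Vale.Agent.P251.H.BL

variable {T : Type u} [Category.{v} T] [HasCoproducts.{0} T]

/-- coproducts of families of objects of `P` indexed by subsets of `J` -/
def copProp (J : Type) (P : ObjectProperty T) : ObjectProperty T := fun Z =>
  ∃ (s : Set J) (X : s → T), (∀ j, P (X j)) ∧ Nonempty (Z ≅ ∐ X)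

instance copProp_small (J : Type) (P : ObjectProperty T)
    [ObjectProperty.EssentiallySmall.{w} P] :
    ObjectProperty.EssentiallySmall.{w} (copProp J P) where
  exists_small_le' := by
    obtain ⟨P', _, -, hP⟩ := ObjectProperty.EssentiallySmall.exists_small_le.{w} P
    let φ : (Σ (s : Set J), (s → Subtype P')) → T := fun t => ∐ fun j => (t.2 j).1
    refine ⟨ObjectProperty.ofObj φ, inferInstance, ?_⟩
    rintro Z ⟨s, X, hX, ⟨e⟩⟩
    have h := fun j => hP _ (hX j)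
    choose X' hX' e' using h
    exact ⟨_, ⟨(⟨s, fun j => ⟨X' j, hX' j⟩⟩ : Σ (s : Set J), (s → Subtype P'))⟩,
      ⟨e ≪≫ Limits.Sigma.mapIso fun j => (e' j).some⟩⟩

/-- Trees with branching `J`. -/
inductive Tr (J : Type) : Type
  | leaf : Tr J
  | node : (J → Tr J) → Tr J

variable [Preadditive T] [HasZeroObject T] [HasShift T ℤ]
  [∀ n : ℤ, (shiftFunctor T n).Additive] [Pretriangulated T]

/-- Objects built from the `S⟦n⟧` by cones and coproducts, indexed by trees. -/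
def cl (J : Type) (S : T) : Tr J → ObjectProperty T
  | .leaf => lev S 0
  | .node f => coneProp (⨆ j, cl J S (f j)) (⨆ j, cl J S (f j)) ⊔
      copProp J (⨆ j, cl J S (f j))

/-- Objects built from the `S⟦n⟧` by cones and coproducts indexed by subsets of `J`. -/
def Cl (J : Type) (S : T) : ObjectProperty T := ⨆ t, cl J S t

instance cl_small (J : Type) (S : T) [LocallySmall.{w} T] (t : Tr J) :
    ObjectProperty.EssentiallySmall.{w} (cl J S t) := by
  induction t with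
  | leaf => exact inferInstanceAs (ObjectProperty.EssentiallySmall.{w} (lev S 0))
  | node f ih => exact inferInstanceAs (ObjectProperty.EssentiallySmall.{w} (_ ⊔ _))

instance Cl_small (J : Type) (S : T) [LocallySmall.{w} T] :
    ObjectProperty.EssentiallySmall.{w} (Cl J S) :=
  inferInstanceAs (ObjectProperty.EssentiallySmall.{w} (⨆ t, cl J S t))

lemma Cl_iff {J : Type} {S X : T} : Cl J S X ↔ ∃ t, cl J S t X := by
  simp [Cl]

variable {J : Type} {S : T}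

lemma cl_iso (t : Tr J) {X X' : T} (hX : cl J S t X) (e : X ≅ X') : cl J S t X' := by
  cases t with
  | leaf => exact lev_iso S 0 hX e
  | node f =>
    rcases hX with h | ⟨s, Y, hY, ⟨e'⟩⟩
    · exact Or.inl (coneProp_iso h e)
    · exact Or.inr ⟨s, Y, hY, ⟨e.symm ≪≫ e'⟩⟩

omit [HasCoproducts.{0} T] [Preadditive T] [HasZeroObject T] [HasShift T ℤ]
  [∀ n : ℤ, (shiftFunctor T n).Additive] [Pretriangulated T] in
lemma iSup_iff {I : Type} (P : I → ObjectProperty T) (X : T) :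
    (⨆ i, P i) X ↔ ∃ i, P i X := by simp

lemma cl_shift (t : Tr J) {X : T} (hX : cl J S t X) (n : ℤ) : cl J S t (X⟦n⟧) := by
  induction t generalizing X with
  | leaf => exact lev_shift S 0 hX n
  | node f ih =>
    rcases hX with ⟨A, B, f, g, h, hΔ, hA, hB⟩ | ⟨s, Y, hY, ⟨e⟩⟩
    · obtain ⟨h', hΔ'⟩ := shift_dist hΔ n
      rw [iSup_iff] at hA hB
      obtain ⟨i, hA⟩ := hA
      obtain ⟨j, hB⟩ := hB
      exact Or.inl ⟨_, _, _, _, _, hΔ', (iSup_iff _ _).2 ⟨i, ih i hA⟩,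
        (iSup_iff _ _).2 ⟨j, ih j hB⟩⟩
    · refine Or.inr ⟨s, fun j => (Y j)⟦n⟧, fun j => ?_,
        ⟨(shiftFunctor T n).mapIso e ≪≫ PreservesCoproduct.iso (shiftFunctor T n) Y⟩⟩
      obtain ⟨i, hi⟩ := (iSup_iff _ _).1 (hY j)
      exact (iSup_iff _ _).2 ⟨i, ih i hi⟩

lemma Cl.iso {X X' : T} (hX : Cl J S X) (e : X ≅ X') : Cl J S X' := by
  rw [Cl_iff] at hX ⊢
  obtain ⟨t, ht⟩ := hX
  exact ⟨t, cl_iso t ht e⟩

lemma Cl.shift {X : T} (hX : Cl J S X) (n : ℤ) : Cl J S (X⟦n⟧) := by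
  rw [Cl_iff] at hX ⊢
  obtain ⟨t, ht⟩ := hX
  exact ⟨t, cl_shift t ht n⟩

lemma Cl.cone [Nontrivial J] {X Y Z : T} {f : X ⟶ Y} {g : Y ⟶ Z} {h : Z ⟶ X⟦(1 : ℤ)⟧}
    (hΔ : Triangle.mk f g h ∈ distTriang T) (hX : Cl J S X) (hY : Cl J S Y) : Cl J S Z := by
  classical
  rw [Cl_iff] at hX hY ⊢
  obtain ⟨s, hs⟩ := hX
  obtain ⟨t, ht⟩ := hY
  obtain ⟨i, j, hij⟩ := exists_pair_ne J
  refine ⟨.node fun k => if k = i then s else t, Or.inl ⟨_, _, _, _, _, hΔ,
    (iSup_iff _ _).2 ⟨i, ?_⟩, (iSup_iff _ _).2 ⟨j, ?_⟩⟩⟩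
  · simpa using hs
  · simpa [hij.symm] using ht

lemma Cl.coprod' {s : Set J} (X : s → T) (hX : ∀ j, Cl J S (X j)) : Cl J S (∐ X) := by
  classical
  have h := fun j => Cl_iff.1 (hX j)
  choose t ht using h
  refine Cl_iff.2 ⟨.node fun k => if h : k ∈ s then t ⟨k, h⟩ else .leaf,
    Or.inr ⟨s, X, fun j => (iSup_iff _ _).2 ⟨j.1, ?_⟩, ⟨Iso.refl _⟩⟩⟩
  simpa using ht j

lemma Cl.coprod {I : Type} (e : I ↪ J) (X : I → T) (hX : ∀ i, Cl J S (X i)) :
    Cl J S (∐ X) := by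
  let e' : I ≃ Set.range e := Equiv.ofInjective e e.injective
  refine (Cl.coprod' (fun j => X (e'.symm j)) (fun j => hX _)).iso ?_
  exact Limits.Sigma.reindex e'.symm X

lemma Cl.self (n : ℤ) : Cl J S (S⟦n⟧) :=
  Cl_iff.2 ⟨.leaf, Or.inr ⟨n, ⟨Iso.refl _⟩⟩⟩

lemma Cl.of_isZero {X : T} (hX : IsZero X) : Cl J S X :=
  Cl_iff.2 ⟨.leaf, Or.inl hX⟩

/-- Induction principle. -/
lemma Cl.ind {P : T → Prop} (iso : ∀ {X Y : T}, (X ≅ Y) → P X → P Y)
    (base : ∀ X, lev S 0 X → P X)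
    (cone : ∀ {X Y Z : T} {f : X ⟶ Y} {g : Y ⟶ Z} {h : Z ⟶ X⟦(1 : ℤ)⟧},
      Triangle.mk f g h ∈ distTriang T → Cl J S X → Cl J S Y → P X → P Y → P Z)
    (coprod : ∀ {s : Set J} (X : s → T), (∀ j, Cl J S (X j)) → (∀ j, P (X j)) → P (∐ X))
    {X : T} (hX : Cl J S X) : P X := by
  obtain ⟨t, ht⟩ := Cl_iff.1 hX
  clear hX
  induction t generalizing X with
  | leaf => exact base _ ht
  | node f ih =>
    have key : ∀ Y, (⨆ j, cl J S (f j)) Y → Cl J S Y ∧ P Y := by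
      intro Y hY
      obtain ⟨j, hj⟩ := (iSup_iff _ _).1 hY
      exact ⟨Cl_iff.2 ⟨_, hj⟩, ih j hj⟩
    rcases ht with ⟨A, B, f, g, h, hΔ, hA, hB⟩ | ⟨s, Y, hY, ⟨e⟩⟩
    · exact cone hΔ (key _ hA).1 (key _ hB).1 (key _ hA).2 (key _ hB).2
    · exact iso e.symm (coprod Y (fun j => (key _ (hY j)).1) fun j => (key _ (hY j)).2)

lemma Cl.of_fin [Nontrivial J] {X : T} (hX : Fin S X) : Cl J S X := by
  obtain ⟨k, hk⟩ := (fin_iff S X).1 hX
  clear hX
  induction k generalizing X with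
  | zero => exact Cl_iff.2 ⟨.leaf, hk⟩
  | succ k ih =>
    rcases hk with h | ⟨A, B, f, g, h, hΔ, hA, hB⟩
    · exact ih h
    · exact Cl.cone hΔ (ih hA) (ih hB)

end Vale.Agent.P251.H.BL
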