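import Vale.Agent.P251.H.BLocAppr
import Mathlib.Data.Countable.Small

/-!
# P251, part H: essentially small classes of objects; finite objects
-/

open CategoryTheory Limits Pretriangulated ZeroObject

universe w v u

namespace Vale.Agent.P251.H.BL

variable {T : Type u} [Category.{v} T] [Preadditive T] [HasZeroObject T] [HasShift T ℤ]
  [∀ n : ℤ, (shiftFunctor T n).Additive] [Pretriangulated T]

/-- cones of maps from objects of `P` to objects of `Q` -/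
def coneProp (P Q : ObjectProperty T) : ObjectProperty T := fun Z =>
  ∃ (X Y : T) (f : X ⟶ Y) (g : Y ⟶ Z) (h : Z ⟶ X⟦(1 : ℤ)⟧),
    Triangle.mk f g h ∈ distTriang T ∧ P X ∧ Q Y

/-- the cone of a map (a choice) -/
noncomputable def coneObj {X Y : T} (f : X ⟶ Y) : T := (distinguished_cocone_triangle f).choose

lemma coneObj_spec {X Y : T} (f : X ⟶ Y) : ∃ (g : Y ⟶ coneObj f) (h : coneObj f ⟶ X⟦(1 : ℤ)⟧),
    Triangle.mk f g h ∈ distTriang T :=
  (distinguished_cocone_triangle f).choose_spec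

lemma nonempty_iso_coneObj {X Y Z X' Y' : T} {f : X ⟶ Y} {g : Y ⟶ Z} {h : Z ⟶ X⟦(1 : ℤ)⟧}
    (hΔ : Triangle.mk f g h ∈ distTriang T) (e : X ≅ X') (e' : Y ≅ Y') :
    Nonempty (Z ≅ coneObj (e.inv ≫ f ≫ e'.hom)) := by
  obtain ⟨g', h', hΔ'⟩ := coneObj_spec (e.inv ≫ f ≫ e'.hom)
  exact ⟨Triangle.π₃.mapIso (isoTriangleOfIso₁₂ _ _ hΔ hΔ' e e' (by
    change f ≫ e'.hom = e.hom ≫ e.inv ≫ f ≫ e'.hom
    simp))⟩

instance coneProp_small (P Q : ObjectProperty T) [LocallySmall.{w} T]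
    [ObjectProperty.EssentiallySmall.{w} P] [ObjectProperty.EssentiallySmall.{w} Q] :
    ObjectProperty.EssentiallySmall.{w} (coneProp P Q) where
  exists_small_le' := by
    obtain ⟨P', _, -, hP⟩ := ObjectProperty.EssentiallySmall.exists_small_le.{w} P
    obtain ⟨Q', _, -, hQ⟩ := ObjectProperty.EssentiallySmall.exists_small_le.{w} Q
    let φ : (Σ (X : Subtype P') (Y : Subtype Q'), (X.1 ⟶ Y.1)) → T := fun t => coneObj t.2.2
    refine ⟨ObjectProperty.ofObj φ, inferInstance, ?_⟩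
    rintro Z ⟨X, Y, f, g, h, hΔ, hX, hY⟩
    obtain ⟨X', hX', ⟨e⟩⟩ := hP _ hX
    obtain ⟨Y', hY', ⟨e'⟩⟩ := hQ _ hY
    obtain ⟨i⟩ := nonempty_iso_coneObj hΔ e e'
    exact ⟨_, ⟨(⟨⟨X', hX'⟩, ⟨Y', hY'⟩, _⟩ : Σ (X : Subtype P') (Y : Subtype Q'), (X.1 ⟶ Y.1))⟩,
      ⟨i⟩⟩

/-- Finite objects, graded by complexity. -/
def lev (S : T) : ℕ → ObjectProperty T
  | 0 => fun X => IsZero X ∨ ∃ n : ℤ, Nonempty (X ≅ S⟦n⟧)
  | k + 1 => lev S k ⊔ coneProp (lev S k) (lev S k)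

/-- Finite objects: the closure of the `S⟦n⟧` under cones. -/
def Fin (S : T) : ObjectProperty T := ⨆ k, lev S k

lemma lev_mono (S : T) {k l : ℕ} (h : k ≤ l) : lev S k ≤ lev S l := by
  induction l, h using Nat.le_induction with
  | base => exact le_rfl
  | succ l _ ih => exact ih.trans le_sup_left

lemma fin_iff (S X : T) : Fin S X ↔ ∃ k, lev S k X := by
  simp [Fin]

set_option backward.defeqAttrib.useBackward true in
lemma coneProp_iso {P Q : ObjectProperty T} {Z Z' : T} (hZ : coneProp P Q Z) (e : Z ≅ Z') :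
    coneProp P Q Z' := by
  obtain ⟨X, Y, f, g, h, hΔ, hX, hY⟩ := hZ
  refine ⟨X, Y, f, g ≫ e.hom, e.inv ≫ h, ?_, hX, hY⟩
  exact isomorphic_distinguished _ hΔ _
    (Triangle.isoMk _ _ (Iso.refl _) (Iso.refl _) e.symm)

lemma lev_iso (S : T) (k : ℕ) {X X' : T} (hX : lev S k X) (e : X ≅ X') : lev S k X' := by
  induction k with
  | zero =>
    rcases hX with h | ⟨n, ⟨i⟩⟩
    · exact Or.inl (h.of_iso e.symm)
    · exact Or.inr ⟨n, ⟨e.symm ≪≫ i⟩⟩
  | succ k ih =>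
    rcases hX with h | h
    · exact Or.inl (ih h)
    · exact Or.inr (coneProp_iso h e)

lemma lev_shift (S : T) (k : ℕ) {X : T} (hX : lev S k X) (n : ℤ) : lev S k (X⟦n⟧) := by
  induction k generalizing X with
  | zero =>
    rcases hX with h | ⟨m, ⟨i⟩⟩
    · exact Or.inl ((shiftFunctor T n).map_isZero h)
    · exact Or.inr ⟨m + n, ⟨(shiftFunctor T n).mapIso i ≪≫ ((shiftFunctorAdd T m n).app S).symm⟩⟩
  | succ k ih =>
    rcases hX with h | ⟨A, B, f, g, h, hΔ, hA, hB⟩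
    · exact Or.inl (ih h)
    · obtain ⟨h', hΔ'⟩ := shift_dist hΔ n
      exact Or.inr ⟨_, _, _, _, _, hΔ', ih hA, ih hB⟩

instance (S : T) : (Fin S).IsClosedUnderIsomorphisms where
  of_iso e h := by
    rw [fin_iff] at h ⊢
    obtain ⟨k, hk⟩ := h
    exact ⟨k, lev_iso S k hk e⟩

lemma fin_cone (S : T) {X Y Z : T} {f : X ⟶ Y} {g : Y ⟶ Z} {h : Z ⟶ X⟦(1 : ℤ)⟧}
    (hΔ : Triangle.mk f g h ∈ distTriang T) (hX : Fin S X) (hY : Fin S Y) : Fin S Z := by
  rw [fin_iff] at hX hY ⊢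
  obtain ⟨k, hk⟩ := hX
  obtain ⟨l, hl⟩ := hY
  exact ⟨max k l + 1, Or.inr ⟨_, _, _, _, _, hΔ, lev_mono S (le_max_left k l) _ hk,
    lev_mono S (le_max_right k l) _ hl⟩⟩

lemma fin_shift (S : T) {X : T} (hX : Fin S X) (n : ℤ) : Fin S (X⟦n⟧) := by
  rw [fin_iff] at hX ⊢
  obtain ⟨k, hk⟩ := hX
  exact ⟨k, lev_shift S k hk n⟩

lemma fin_self (S : T) (n : ℤ) : Fin S (S⟦n⟧) :=
  (fin_iff S _).2 ⟨0, Or.inr ⟨n, ⟨Iso.refl _⟩⟩⟩

instance (S : T) : (Fin S).IsTriangulated where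
  exists_zero := ⟨0, isZero_zero T, (fin_iff S _).2 ⟨0, Or.inl (isZero_zero T)⟩⟩
  toIsStableUnderShift := ⟨fun n => ⟨fun _ hX => fin_shift S hX n⟩⟩
  toIsTriangulatedClosed₂ := ObjectProperty.IsTriangulatedClosed₂.mk' (fun _ hΔ h₁ h₃ =>
    fin_cone S (inv_rot_of_distTriang _ hΔ) (fin_shift S h₃ (-1)) h₁)

instance lev_small (S : T) [LocallySmall.{w} T] (k : ℕ) :
    ObjectProperty.EssentiallySmall.{w} (lev S k) := by
  induction k with
  | zero =>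
    let φ : Option ℤ → T := fun t => t.elim (0 : T) (fun n => S⟦n⟧)
    refine ⟨ObjectProperty.ofObj φ, inferInstance, ?_⟩
    rintro X (hX | ⟨n, ⟨e⟩⟩)
    · exact ⟨_, ⟨(none : Option ℤ)⟩, ⟨hX.iso (isZero_zero T)⟩⟩
    · exact ⟨_, ⟨(some n : Option ℤ)⟩, ⟨e⟩⟩
  | succ k ih => exact inferInstanceAs (ObjectProperty.EssentiallySmall.{w} (_ ⊔ _))

instance fin_small (S : T) [LocallySmall.{w} T] :
    ObjectProperty.EssentiallySmall.{w} (Fin S) :=
  inferInstanceAs (ObjectProperty.EssentiallySmall.{w} (⨆ k, lev S k))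

variable [HasCoproducts.{0} T]

omit [HasZeroObject T] [∀ n : ℤ, (shiftFunctor T n).Additive] [Pretriangulated T]
  [HasShift T ℤ] in
lemma IsCpt.of_iso {X X' : T} (h : IsCpt X) (e : X ≅ X') : IsCpt X' := by
  intro I F f
  obtain ⟨s, hs⟩ := h F (e.hom ≫ f)
  refine ⟨s, ?_⟩
  rw [← cancel_epi e.hom, hs, Preadditive.comp_sum]
  simp

/-- finite sums of maps through the summands -/
def FS {C : T} {I : Type} (F : I → T) (f : C ⟶ ∐ F) : Prop :=
  ∃ s : Finset I, f = ∑ i ∈ s, f ≫ proj F i ≫ Sigma.ι F i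

omit [HasZeroObject T] [∀ n : ℤ, (shiftFunctor T n).Additive] [Pretriangulated T]
  [HasShift T ℤ] in
lemma FS.forall {C : T} {I : Type} {F : I → T} {f : C ⟶ ∐ F} (h : FS F f) :
    ∃ s : Finset I, ∀ t : Finset I, s ⊆ t → f = ∑ i ∈ t, f ≫ proj F i ≫ Sigma.ι F i := by
  classical
  obtain ⟨s, hs⟩ := h
  refine ⟨s, fun t ht => ?_⟩
  rw [← Finset.sum_subset ht, ← hs]
  intro i _ hi
  rw [hs]
  simp only [Preadditive.sum_comp, Category.assoc]
  refine Finset.sum_eq_zero fun j hj => ?_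
  have hji : j ≠ i := by
    rintro rfl
    exact hi hj
  rw [ι_proj_ne_assoc F hji]
  simp

omit [HasZeroObject T] [∀ n : ℤ, (shiftFunctor T n).Additive] [Pretriangulated T]
  [HasShift T ℤ] in
lemma FS.add {C : T} {I : Type} {F : I → T} {f g : C ⟶ ∐ F} (hf : FS F f) (hg : FS F g) :
    FS F (f + g) := by
  classical
  obtain ⟨s, hs⟩ := hf.forall
  obtain ⟨t, ht⟩ := hg.forall
  refine ⟨s ∪ t, ?_⟩
  simp only [Preadditive.add_comp, Finset.sum_add_distrib]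
  rw [← hs _ Finset.subset_union_left, ← ht _ Finset.subset_union_right]

omit [HasZeroObject T] [∀ n : ℤ, (shiftFunctor T n).Additive] [Pretriangulated T]
  [HasShift T ℤ] in
lemma FS.zero {C : T} {I : Type} (F : I → T) : FS F (0 : C ⟶ ∐ F) := ⟨∅, by simp⟩

omit [HasZeroObject T] [∀ n : ℤ, (shiftFunctor T n).Additive] [Pretriangulated T]
  [HasShift T ℤ] in
lemma FS.precomp {C D : T} {I : Type} {F : I → T} {f : C ⟶ ∐ F} (hf : FS F f) (u : D ⟶ C) :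
    FS F (u ≫ f) := by
  obtain ⟨s, hs⟩ := hf
  refine ⟨s, ?_⟩
  conv_lhs => rw [hs]
  rw [Preadditive.comp_sum]
  simp

omit [HasZeroObject T] [∀ n : ℤ, (shiftFunctor T n).Additive] [Pretriangulated T]
  [HasShift T ℤ] in
lemma FS.ι {C : T} {I : Type} (F : I → T) (i : I) (u : C ⟶ F i) : FS F (u ≫ Sigma.ι F i) :=
  ⟨{i}, by simp⟩

omit [HasZeroObject T] [∀ n : ℤ, (shiftFunctor T n).Additive] [Pretriangulated T]
  [HasShift T ℤ] in
lemma FS.sum {C : T} {I J : Type} {F : I → T} (s : Finset J) (f : J → (C ⟶ ∐ F))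
    (h : ∀ j ∈ s, FS F (f j)) : FS F (∑ j ∈ s, f j) := by
  classical
  induction s using Finset.induction_on with
  | empty => simpa using FS.zero F
  | insert i s his ih =>
    rw [Finset.sum_insert his]
    exact (h i (Finset.mem_insert_self i s)).add
      (ih fun j hj => h j (Finset.mem_insert_of_mem hj))

lemma IsCpt.cone {X Y Z : T} {f : X ⟶ Y} {g : Y ⟶ Z} {h : Z ⟶ X⟦(1 : ℤ)⟧}
    (hΔ : Triangle.mk f g h ∈ distTriang T) (hX : IsCpt (X⟦(1 : ℤ)⟧)) (hY : IsCpt Y) :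
    IsCpt Z := by
  intro I F a
  obtain ⟨s, hs⟩ := hY F (g ≫ a)
  obtain ⟨b, hb⟩ := yon₃ hΔ (a - ∑ i ∈ s, a ≫ proj F i ≫ Sigma.ι F i) (by
    rw [Preadditive.comp_sub, Preadditive.comp_sum, sub_eq_zero, hs]
    refine Finset.sum_congr rfl fun i _ => ?_
    simp)
  have h1 : FS F (h ≫ b) := FS.precomp (hX F b) h
  have h2 : FS F (∑ i ∈ s, a ≫ proj F i ≫ Sigma.ι F i) :=
    FS.sum _ _ fun i _ => by simpa using FS.ι F i (a ≫ proj F i)
  have h3 := h1.add h2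
  rw [hb, sub_add_cancel] at h3
  exact h3

omit [Pretriangulated T] [HasShift T ℤ] [∀ n : ℤ, (shiftFunctor T n).Additive]
  [HasZeroObject T] in
lemma IsCpt.of_isZero {X : T} (h : IsZero X) : IsCpt X := by
  intro I F f
  exact ⟨∅, h.eq_of_src _ _⟩

lemma lev_cpt {S : T} (hS : ∀ n : ℤ, IsCpt (S⟦n⟧)) (k : ℕ) {X : T} (hX : lev S k X) :
    IsCpt X := by
  induction k generalizing X with
  | zero =>
    rcases hX with h | ⟨n, ⟨e⟩⟩
    · exact IsCpt.of_isZero h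
    · exact (hS n).of_iso e.symm
  | succ k ih =>
    rcases hX with h | ⟨A, B, f, g, h, hΔ, hA, hB⟩
    · exact ih h
    · exact IsCpt.cone hΔ (ih (lev_shift S k hA 1)) (ih hB)

lemma fin_cpt {S : T} (hS : ∀ n : ℤ, IsCpt (S⟦n⟧)) (X : T) (hX : Fin S X) : IsCpt X := by
  rw [fin_iff] at hX
  obtain ⟨k, hk⟩ := hX
  exact lev_cpt hS k hk

end Vale.Agent.P251.H.BL
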