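import Vale.Agent.P251.H.BLocPerf

/-!
# P251, part H: existence of Bousfield localizations

`exists_acyclization`: for a homological functor `H` which is generated on coproducts, in a
compactly generated triangulated category, every object `X` sits in a triangle `A ⟶ X ⟶ L`
with `A` acyclic and `L` local (no maps from acyclic objects).

`nonempty_bLoc`: Bousfield localizations with respect to every object of a (monogenic) stable
homotopy category exist.
-/

open CategoryTheory Limits Pretriangulated ZeroObject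

universe w v u

namespace Vale.Agent.P251.H.BL

section main

variable {T : Type u} [Category.{v} T] [HasCoproducts.{0} T] [Preadditive T] [HasZeroObject T]
  [HasShift T ℤ] [∀ n : ℤ, (shiftFunctor T n).Additive] [Pretriangulated T]
  {H : T ⥤ AddCommGrpCat.{w}} [H.IsHomological] {J : Type} {S : T}

lemma cpt_of_cpt (hc : Vale.Agent.P251.H.IsCpt S) (n : ℤ) : IsCpt (S⟦n⟧) := by
  classical
  intro I X f
  obtain ⟨s, g, rfl⟩ := hc n X f
  have h1 : g ≫ Sigma.desc (fun i : s => Sigma.ι X i) =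
      ∑ i ∈ (Finset.univ : Finset s), (g ≫ Sigma.π (fun i : s => X i) i) ≫ Sigma.ι X i := by
    conv_lhs => rw [← Category.id_comp (Sigma.desc _), ← sum_π_ι, Preadditive.sum_comp,
      Preadditive.comp_sum]
    refine Finset.sum_congr rfl fun i _ => ?_
    simp
  rw [h1]
  exact FS.sum _ _ fun i _ => FS.ι X i _

lemma ac_localizing (hH : CopGen H) : Localizing (Ac H) where
  iso e h n x := by
    have : H.map ((e.hom)⟦n⟧') (H.map ((e.inv)⟦n⟧') x) = x := by
      rw [← map_comp_apply', ← Functor.map_comp, e.inv_hom_id, CategoryTheory.Functor.map_id, map_id_apply']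
    rw [← this, h n (H.map ((e.inv)⟦n⟧') x), map_zero]
  shift {X} m h n x := by
    let e := (shiftFunctorAdd T m n).app X
    have : H.map e.hom (H.map e.inv x) = x := by
      rw [← map_comp_apply', e.inv_hom_id, map_id_apply']
    rw [← this, h (m + n) (H.map e.inv x), map_zero]
  cone {X Y Z f g k} D hX hY n x := by
    obtain ⟨h', hΔ'⟩ := shift_dist D n
    let e := (shiftFunctorAdd T n 1).app X
    have h0 : H.map h' x = 0 := by
      have : H.map e.hom (H.map e.inv (H.map h' x)) = H.map h' x := by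
        rw [← map_comp_apply', e.inv_hom_id, map_id_apply']
      rw [← this, hX (n + 1) (H.map e.inv (H.map h' x)), map_zero]
    obtain ⟨y, hy⟩ := ex₃ H hΔ' x h0
    rw [← hy, hY n y, map_zero]
  coprod {I} X h n x := by
    have hx := (hH.shift n) X x
    induction hx using AddSubgroup.iSup_induction' with
    | hp i y hy =>
      obtain ⟨z, rfl⟩ := hy
      rw [h i n z, map_zero]
    | h1 => rfl
    | hadd y z _ _ hy hz => rw [hy, hz, add_zero]

/-- Acyclization. -/
theorem exists_acyclization [LocallySmall.{0} T] (hc : Vale.Agent.P251.H.IsCpt S)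
    (hg : Vale.Agent.P251.H.IsGen S) (hH : CopGen H)
    (hsm : ∀ n : ℤ, Small.{0} (H.obj (S⟦n⟧))) (X : T) :
    ∃ (A L : T) (a : A ⟶ X) (l : X ⟶ L) (d : L ⟶ A⟦(1 : ℤ)⟧), Dist a l d ∧ Ac H A ∧
      ∀ B, Ac H B → ∀ f : B ⟶ L, f = 0 := by
  have hcpt : ∀ n : ℤ, IsCpt (S⟦n⟧) := cpt_of_cpt hc
  have happ : ∀ X, Appr (Fin S) H X := fun X =>
    appr_all hc hg (fin_self S) (fin_cpt hcpt) hH X
  -- the bound
  let J : Type := ℕ ⊕ (Σ n : ℤ, Shrink.{0} (H.obj (S⟦n⟧)))
  have hS : ∀ n : ℤ, Bd J (H.obj (S⟦n⟧)) := by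
    intro n
    refine ⟨fun j => match j with
      | .inl _ => 0
      | .inr ⟨m, x⟩ => if h : m = n then
          (equivShrink (H.obj (S⟦n⟧))).symm (cast (by rw [h]) x) else 0, fun x => ?_⟩
    refine ⟨.inr ⟨n, equivShrink _ x⟩, ?_⟩
    simp
  -- representatives of the small acyclic objects
  have hloc := ac_localizing hH
  let P : ObjectProperty T := Cl J S ⊓ Ac H
  have hP : ObjectProperty.EssentiallySmall.{0} P :=
    ObjectProperty.EssentiallySmall.of_le (inf_le_left : P ≤ Cl J S)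
  obtain ⟨Q, _, hQ, hPQ⟩ := ObjectProperty.EssentiallySmall.exists_small_le.{0} P
  let ι : Type := Shrink.{0} (Subtype Q)
  let S' : ι → T := fun i => ((equivShrink (Subtype Q)).symm i).1
  have hS' : ∀ i, P (S' i) := fun i => hQ _ ((equivShrink (Subtype Q)).symm i).2
  have hrep : ∀ Y, P Y → ∃ i, Nonempty (Y ≅ S' i) := by
    intro Y hY
    obtain ⟨Y', hY', ⟨e⟩⟩ := hPQ _ hY
    refine ⟨equivShrink _ ⟨Y', hY'⟩, ⟨e ≪≫ eqToIso ?_⟩⟩
    simp [S']
  have hsh : ShiftClosed S' := fun i n => hrep _ ⟨(hS' i).1.shift n, hloc.shift n (hS' i).2⟩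
  have hperf : Perfect (Ac H) S' := by
    intro i B hB f
    obtain ⟨N, hN, u, h, hh⟩ := pf_Cl hcpt (hS' i).1 B f
    have hfac := fun k => exists_acyclic happ hH hS (hN k) (hB k) (u k)
    choose M hM hM' σ c hc' using hfac
    have he := fun k => hrep (M k) ⟨hM k, hM' k⟩
    choose e he using he
    refine ⟨e, fun k => (he k).some.inv ≫ c k,
      h ≫ Limits.Sigma.map fun k => σ k ≫ (he k).some.hom, ?_⟩
    rw [← hh, Category.assoc]
    congr 1
    refine Limits.Sigma.hom_ext _ _ fun k => ?_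
    rw [Limits.Sigma.ι_map_assoc, Limits.Sigma.ι_map, Limits.Sigma.ι_map, ← hc']
    simp
  have hgen : ∀ Z, Ac H Z → (∀ i (f : S' i ⟶ Z), f = 0) → IsZero Z := by
    intro Z hZ h
    refine hg Z fun n f => ?_
    obtain ⟨M, hM, hM', σ, c, rfl⟩ := exists_acyclic happ hH hS (Cl.self n) hZ f
    obtain ⟨i, ⟨e⟩⟩ := hrep M ⟨hM, hM'⟩
    have h1 : c = e.hom ≫ e.inv ≫ c := by simp
    rw [h1, h i (e.inv ≫ c), comp_zero, comp_zero]
  obtain ⟨A, a, hA, hbij⟩ := brown hloc (fun i => (hS' i).2) hperf hsh hgen (homCoh X)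
    (fun i => inferInstanceAs (Small.{0} (S' i ⟶ X)))
  change A ⟶ X at a
  obtain ⟨L, l, d, D⟩ := exists_cone a
  refine ⟨A, L, a, l, d, D, hA, fun B hB f => ?_⟩
  have h1 : f ≫ d = 0 := by
    let e : (B⟦(-1 : ℤ)⟧)⟦(1 : ℤ)⟧ ≅ B := (shiftFunctorCompIsoId T (-1 : ℤ) 1 (by simp)).app B
    obtain ⟨p, hp⟩ := (shiftFunctor T (1 : ℤ)).map_surjective (e.hom ≫ f ≫ d)
    have h2 : p ≫ a = 0 := by
      apply (shiftFunctor T (1 : ℤ)).map_injective
      rw [Functor.map_comp, hp, Functor.map_zero, Category.assoc, Category.assoc, D.zero₃₁,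
        comp_zero, comp_zero]
    have h3 : p = 0 := (hbij _ (hloc.shift (-1) hB)).inj h2
    rw [← cancel_epi e.hom, ← hp, h3, Functor.map_zero, comp_zero]
  obtain ⟨b, hb⟩ := D.lift₃ f h1
  obtain ⟨b', hb'⟩ := (hbij B hB).surj b
  change b' ≫ a = b at hb'
  rw [← hb, ← hb', Category.assoc, D.zero₁₂, comp_zero]

end main

end Vale.Agent.P251.H.BL
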