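import Vale.Agent.P251.H.BLocStep

/-!
# P251, part H: maps from small objects to countable coproducts
-/

open CategoryTheory Limits Pretriangulated ZeroObject

universe w v u

namespace Vale.Agent.P251.H.BL

variable {T : Type u} [Category.{v} T] [HasCoproducts.{0} T]

/-- Every map from `M` to a countable coproduct factors through a coproduct of objects of `P`. -/
def Pf (P : ObjectProperty T) (M : T) : Prop :=
  ∀ (B : ℕ → T) (f : M ⟶ ∐ B), ∃ (N : ℕ → T) (_ : ∀ k, P (N k)) (u : ∀ k, N k ⟶ B k)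
    (h : M ⟶ ∐ N), h ≫ Limits.Sigma.map u = f

lemma Pf.of_iso {P : ObjectProperty T} {M M' : T} (h : Pf P M) (e : M ≅ M') : Pf P M' := by
  intro B f
  obtain ⟨N, hN, u, g, hg⟩ := h B (e.hom ≫ f)
  exact ⟨N, hN, u, e.inv ≫ g, by rw [Category.assoc, hg, e.inv_hom_id_assoc]⟩

variable [Preadditive T]

lemma Pf.of_cpt {P : ObjectProperty T} {M : T} (hM : P M) (hc : IsCpt M) : Pf P M := by
  intro B f
  obtain ⟨s, hs⟩ := hc B f
  refine ⟨fun _ => M, fun _ => hM, fun k => f ≫ proj B k, ∑ k ∈ s, Sigma.ι (fun _ => M) k, ?_⟩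
  rw [Preadditive.sum_comp]
  conv_rhs => rw [hs]
  refine Finset.sum_congr rfl fun k _ => ?_
  rw [Limits.Sigma.ι_map, Category.assoc]

variable [HasZeroObject T] [HasShift T ℤ]
  [∀ n : ℤ, (shiftFunctor T n).Additive] [Pretriangulated T]
  {J : Type} {S : T}

lemma Cl.biprod [Nontrivial J] {X Y : T} (hX : Cl J S X) (hY : Cl J S Y) :
    Cl J S (X ⊞ Y) := by
  have hΔ := inv_rot_of_distTriang _ (binaryBiproductTriangle_distinguished X Y)
  exact Cl.cone (J := J) (S := S) hΔ (hY.shift (-1)) hX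

lemma Pf.coprod {s : Set J} (X : s → T) (h : ∀ j, Pf (Cl J S) (X j)) :
    Pf (Cl J S) (∐ X) := by
  intro B f
  have h' := fun j => h j B (Sigma.ι X j ≫ f)
  choose N hN u g hg using h'
  refine ⟨fun k => ∐ fun j => N j k, fun k => Cl.coprod' _ fun j => hN j k,
    fun k => Sigma.desc fun j => u j k,
    Sigma.desc fun j => g j ≫ Limits.Sigma.map fun k => Sigma.ι (fun j => N j k) j, ?_⟩
  refine Limits.Sigma.hom_ext _ _ fun j => ?_
  rw [← hg, Sigma.ι_desc_assoc, Category.assoc]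
  congr 1
  refine Limits.Sigma.hom_ext _ _ fun k => ?_
  simp

lemma Pf.cone [Nontrivial J] {X Y Z : T} {f : X ⟶ Y} {g : Y ⟶ Z} {h : Z ⟶ X⟦(1 : ℤ)⟧}
    (hΔ : Triangle.mk f g h ∈ distTriang T) (hX : Pf (Cl J S) X)
    (hX' : Pf (Cl J S) (X⟦(1 : ℤ)⟧)) (hY : Pf (Cl J S) Y) : Pf (Cl J S) Z := by
  intro B a
  obtain ⟨N, hN, u, b, hb⟩ := hY B (g ≫ a)
  -- fibres of the `u k`
  have hfib : ∀ k, ∃ (F : T) (m : F ⟶ N k) (δ : B k ⟶ F⟦(1 : ℤ)⟧), Dist m (u k) δ :=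
    fun k => exists_fibre (u k)
  choose F m δ D using hfib
  obtain ⟨c, hc⟩ := (Dist.coprod D).lift₂ (f ≫ b) (by
    rw [Category.assoc, hb, ← Category.assoc, mor₁₂ hΔ, zero_comp])
  obtain ⟨P, hP, p, c', hc'⟩ := hX F c
  have hcone : ∀ k, ∃ (N' : T) (r : N k ⟶ N') (δ' : N' ⟶ (P k)⟦(1 : ℤ)⟧),
      Dist (p k ≫ m k) r δ' := fun k => exists_cone _
  choose N' r δ' D' using hcone
  have hN' : ∀ k, Cl J S (N' k) := fun k => Cl.cone (D' k) (hP k) (hN k)
  have hu' : ∀ k, ∃ u' : N' k ⟶ B k, r k ≫ u' = u k := fun k =>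
    (D' k).desc₂ (u k) (by rw [Category.assoc, (D k).zero₁₂, comp_zero])
  choose u' hu' using hu'
  have h1 : f ≫ b ≫ Limits.Sigma.map r = 0 := by
    rw [← Category.assoc, ← hc, ← hc', Category.assoc, Category.assoc]
    have : Limits.Sigma.map p ≫ Limits.Sigma.map m ≫ Limits.Sigma.map r = 0 := by
      refine Limits.Sigma.hom_ext _ _ fun k => ?_
      simp only [Limits.Sigma.ι_map_assoc, Limits.Sigma.ι_map, comp_zero]
      have := (D' k).zero₁₂
      rw [Category.assoc] at this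
      rw [reassoc_of% this, zero_comp]
    rw [this, comp_zero]
  obtain ⟨a₁, ha₁⟩ := yon₂ hΔ (b ≫ Limits.Sigma.map r) h1
  obtain ⟨a₂, ha₂⟩ := yon₃ hΔ (a - a₁ ≫ Limits.Sigma.map u') (by
    rw [Preadditive.comp_sub, ← Category.assoc g a₁, ha₁, ← hb, Category.assoc, sub_eq_zero]
    congr 1
    refine Limits.Sigma.hom_ext _ _ fun k => ?_
    rw [Limits.Sigma.ι_map, Limits.Sigma.ι_map_assoc, Limits.Sigma.ι_map, ← hu', Category.assoc])
  obtain ⟨Q, hQ, v, d, hd⟩ := hX' B a₂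
  refine ⟨fun k => N' k ⊞ Q k, fun k => ?_, fun k => biprod.desc (u' k) (v k),
    a₁ ≫ Limits.Sigma.map (fun k => biprod.inl) +
      (h ≫ d) ≫ Limits.Sigma.map (fun k => biprod.inr), ?_⟩
  · exact Cl.biprod (hN' k) (hQ k)
  · have e₁ : Limits.Sigma.map (fun k => (biprod.inl : N' k ⟶ N' k ⊞ Q k)) ≫
        Limits.Sigma.map (fun k => biprod.desc (u' k) (v k)) = Limits.Sigma.map u' := by
      refine Limits.Sigma.hom_ext _ _ fun k => ?_
      simp
    have e₂ : Limits.Sigma.map (fun k => (biprod.inr : Q k ⟶ N' k ⊞ Q k)) ≫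
        Limits.Sigma.map (fun k => biprod.desc (u' k) (v k)) = Limits.Sigma.map v := by
      refine Limits.Sigma.hom_ext _ _ fun k => ?_
      simp
    rw [Preadditive.add_comp, Category.assoc, Category.assoc, e₁, e₂, Category.assoc, hd, ha₂]
    abel

lemma pf_Cl [Nontrivial J] (hS : ∀ n : ℤ, IsCpt (S⟦n⟧)) {X : T} (hX : Cl J S X) :
    Pf (Cl J S) X := by
  suffices h : ∀ n : ℤ, Pf (Cl J S) (X⟦n⟧) from (h 0).of_iso ((shiftFunctorZero T ℤ).app X)
  refine Cl.ind (P := fun X => ∀ n : ℤ, Pf (Cl J S) (X⟦n⟧)) ?_ ?_ ?_ ?_ hX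
  · intro X Y e h n
    exact (h n).of_iso ((shiftFunctor T n).mapIso e)
  · intro X hX n
    have h := lev_shift S 0 hX n
    exact Pf.of_cpt (Cl_iff.2 ⟨.leaf, h⟩) (lev_cpt hS 0 h)
  · intro X Y Z f g h hΔ _ _ hX hY n
    obtain ⟨h', hΔ'⟩ := shift_dist hΔ n
    exact Pf.cone hΔ' (hX n) ((hX (n + 1)).of_iso ((shiftFunctorAdd T n 1).app X)) (hY n)
  · intro s X _ h n
    exact (Pf.coprod (fun j => (X j)⟦n⟧) fun j => h j n).of_iso
      (PreservesCoproduct.iso (shiftFunctor T n) X).symm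

end Vale.Agent.P251.H.BL
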