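import Vale.Agent.P251.H.BLocCls
import Mathlib.SetTheory.Cardinal.Arithmetic

/-!
# P251, part H: maps from small objects to acyclic objects factor through small acyclic objects
-/

open CategoryTheory Limits Pretriangulated ZeroObject

universe w v u

namespace Vale.Agent.P251.H.BL

section Bd

variable (J : Type)

/-- `G` is bounded by `J`. -/
def Bd (G : Type w) : Prop := ∃ f : J → G, Function.Surjective f

variable {J}

lemma Bd.of_surj {G : Type w} {G' : Type v} (h : Bd J G) (g : G → G')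
    (hg : Function.Surjective g) : Bd J G' := by
  obtain ⟨f, hf⟩ := h
  exact ⟨g ∘ f, hg.comp hf⟩

lemma bd_pair [Infinite J] : Bd J (J × J) := by
  have h : Cardinal.mk (J × J) = Cardinal.mk J := by
    rw [Cardinal.mk_prod, Cardinal.lift_id]
    exact Cardinal.mul_eq_self (Cardinal.aleph0_le_mk J)
  obtain ⟨e⟩ := Cardinal.eq.1 h
  exact ⟨e.symm, e.symm.surjective⟩

lemma bd_list [Infinite J] {G : Type w} (hG : Bd J G) : Bd J (List G) := by
  obtain ⟨e⟩ := Cardinal.eq.1 (Cardinal.mk_list_eq_mk J)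
  obtain ⟨f, hf⟩ := hG
  exact ⟨List.map f ∘ e.symm, (List.map_surjective_iff.2 hf).comp e.symm.surjective⟩

lemma bd_int_prod [Infinite J] : Nonempty (ℤ × J ↪ J) := by
  have h : Cardinal.mk (ℤ × J) ≤ Cardinal.mk J := by
    rw [Cardinal.mk_prod, Cardinal.lift_id, Cardinal.lift_id]
    have h1 : Cardinal.mk ℤ ≤ Cardinal.mk J := by
      rw [Cardinal.mk_denumerable]
      exact Cardinal.aleph0_le_mk J
    exact (mul_le_mul' h1 le_rfl).trans (Cardinal.mul_eq_self (Cardinal.aleph0_le_mk J)).le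
  exact Cardinal.le_def _ _ |>.1 h

lemma bd_nat [Infinite J] : Nonempty (ℕ ↪ J) := ⟨Infinite.natEmbedding J⟩

end Bd

variable {T : Type u} [Category.{v} T] [HasCoproducts.{0} T]
variable [Preadditive T] [HasZeroObject T] [HasShift T ℤ]
  [∀ n : ℤ, (shiftFunctor T n).Additive] [Pretriangulated T]
  {H : T ⥤ AddCommGrpCat.{w}} [H.IsHomological] {J : Type} {S : T}

omit [HasCoproducts.{0} T] in
lemma bd_cone [Infinite J] {X Y Z : T} {f : X ⟶ Y} {g : Y ⟶ Z} {h : Z ⟶ X⟦(1 : ℤ)⟧}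
    (hΔ : Triangle.mk f g h ∈ distTriang T) (hX : Bd J (H.obj (X⟦(1 : ℤ)⟧)))
    (hY : Bd J (H.obj Y)) : Bd J (H.obj Z) := by
  classical
  obtain ⟨a, ha⟩ := hX
  obtain ⟨b, hb⟩ := hY
  refine Bd.of_surj bd_pair (fun p => (if h' : ∃ z, H.map h z = a p.1 then h'.choose else 0) +
    H.map g (b p.2)) ?_
  intro z
  obtain ⟨j, hj⟩ := ha (H.map h z)
  have h1 : ∃ z, H.map h z = a j := ⟨z, hj.symm⟩
  have h2 : H.map h (z - h1.choose) = 0 := by
    rw [map_sub, h1.choose_spec, hj, sub_self]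
  obtain ⟨y, hy⟩ := ex₃ H hΔ _ h2
  obtain ⟨k, hk⟩ := hb y
  refine ⟨(j, k), ?_⟩
  dsimp only
  rw [dif_pos h1, hk, hy]
  abel

omit [HasZeroObject T] [HasShift T ℤ] [∀ n : ℤ, (shiftFunctor T n).Additive] [Pretriangulated T]
  [Preadditive T] [H.IsHomological] in
lemma bd_coprod [Infinite J] (hH : CopGen H) {I : Type} (e : Bd J I) (X : I → T)
    (hX : ∀ i, Bd J (H.obj (X i))) : Bd J (H.obj (∐ X)) := by
  obtain ⟨p, hp⟩ := e
  choose f hf using hX
  refine (bd_list bd_pair).of_surj (fun l : List (J × J) =>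
    (l.map fun q => H.map (Sigma.ι X (p q.1)) (f (p q.1) q.2)).sum) ?_
  intro x
  have hx := hH X x
  induction hx using AddSubgroup.iSup_induction' with
  | hp i y hy =>
    obtain ⟨z, rfl⟩ := hy
    obtain ⟨j, rfl⟩ := hp i
    obtain ⟨k, hk⟩ := hf (p j) z
    refine ⟨[(j, k)], ?_⟩
    simp only [List.map_cons, List.map_nil, List.sum_cons, List.sum_nil, add_zero, hk]
  | h1 => exact ⟨[], by simp⟩
  | hadd y z _ _ hy hz =>
    obtain ⟨l, rfl⟩ := hy
    obtain ⟨l', rfl⟩ := hz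
    exact ⟨l ++ l', by simp⟩

omit [HasCoproducts.{0} T] [HasZeroObject T] [HasShift T ℤ]
  [∀ n : ℤ, (shiftFunctor T n).Additive] [Pretriangulated T] [Preadditive T]
  [H.IsHomological] in
lemma bd_iso {X Y : T} (e : X ≅ Y) (hX : Bd J (H.obj X)) : Bd J (H.obj Y) :=
  hX.of_surj (H.map e.hom) fun y => ⟨H.map e.inv y, by
    rw [← map_comp_apply', e.inv_hom_id, map_id_apply']⟩

omit [HasCoproducts.{0} T] [∀ n : ℤ, (shiftFunctor T n).Additive] [Pretriangulated T]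
  [HasShift T ℤ] [HasZeroObject T] [H.IsHomological] in
lemma bd_zero [H.Additive] [Nonempty J] {X : T} (hX : IsZero X) : Bd J (H.obj X) :=
  ⟨fun _ => 0, fun x => ⟨Classical.arbitrary J, by
    rw [← map_id_apply' H x, hX.eq_of_src (𝟙 X) 0, map_zero_apply']⟩⟩

lemma bd_Cl [Infinite J] (hH : CopGen H) (hS : ∀ n : ℤ, Bd J (H.obj (S⟦n⟧))) {X : T}
    (hX : Cl J S X) (n : ℤ) : Bd J (H.obj (X⟦n⟧)) := by
  refine Cl.ind (P := fun X => ∀ n : ℤ, Bd J (H.obj (X⟦n⟧))) ?_ ?_ ?_ ?_ hX n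
  · intro X Y e h n
    exact bd_iso ((shiftFunctor T n).mapIso e) (h n)
  · rintro X (h | ⟨m, ⟨e⟩⟩) n
    · exact bd_zero ((shiftFunctor T n).map_isZero h)
    · exact bd_iso ((shiftFunctorAdd T m n).app S ≪≫ (shiftFunctor T n).mapIso e.symm)
        (hS (m + n))
  · intro X Y Z f g h hΔ _ _ hX hY n
    obtain ⟨h', hΔ'⟩ := shift_dist hΔ n
    exact bd_cone hΔ' (bd_iso ((shiftFunctorAdd T n 1).app _) (hX (n + 1))) (hY n)
  · intro s X _ h n
    refine bd_iso (PreservesCoproduct.iso (shiftFunctor T n) X).symm ?_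
    rcases isEmpty_or_nonempty s with hs | hs
    · refine bd_zero ?_
      rw [IsZero.iff_id_eq_zero]
      exact Limits.Sigma.hom_ext _ _ fun i => isEmptyElim i
    · refine bd_coprod hH ?_ _ fun j => h j n
      exact ⟨Function.invFun Subtype.val, Function.invFun_surjective Subtype.val_injective⟩

/-- `H`-acyclic objects. -/
def Ac (H : T ⥤ AddCommGrpCat.{w}) (A : T) : Prop := ∀ (n : ℤ) (x : H.obj (A⟦n⟧)), x = 0

omit [HasCoproducts.{0} T] in
lemma exists_fin {N A : T} (happ : ∀ X, Appr (Fin S) H X) (hA : Ac H A) (c : N ⟶ A) (n : ℤ)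
    (x : H.obj (N⟦n⟧)) :
    ∃ (F : T) (_ : Fin S F) (f : F ⟶ N) (z : H.obj (F⟦n⟧)), f ≫ c = 0 ∧
      H.map (f⟦n⟧') z = x := by
  obtain ⟨B, b, d, hΔ⟩ := distinguished_cocone_triangle₁ c
  obtain ⟨h', hΔ'⟩ := shift_dist hΔ n
  obtain ⟨y, hy⟩ := ex₂ H hΔ' x (hA n _)
  obtain ⟨F', hF', g, z', hz'⟩ := (happ (B⟦n⟧)).surj y
  let e : (F'⟦(-n)⟧)⟦n⟧ ≅ F' := (shiftFunctorCompIsoId T (-n) n (by simp)).app F'
  obtain ⟨g₀, hg₀⟩ := (shiftFunctor T n).map_surjective (e.hom ≫ g)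
  refine ⟨F'⟦(-n)⟧, fin_shift S hF' _, g₀ ≫ b, H.map e.inv z', ?_, ?_⟩
  · rw [Category.assoc, mor₁₂ hΔ, comp_zero]
  · rw [Functor.map_comp, hg₀, ← map_comp_apply', Category.assoc, e.inv_hom_id_assoc,
      map_comp_apply', hz', hy]

lemma exists_step [Infinite J] (happ : ∀ X, Appr (Fin S) H X) (hH : CopGen H)
    (hS : ∀ n : ℤ, Bd J (H.obj (S⟦n⟧))) {N A : T} (hN : Cl J S N) (hA : Ac H A) (c : N ⟶ A) :
    ∃ (N' : T) (_ : Cl J S N') (σ : N ⟶ N') (c' : N' ⟶ A), σ ≫ c' = c ∧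
      ∀ (n : ℤ) (x : H.obj (N⟦n⟧)), H.map (σ⟦n⟧') x = 0 := by
  have hb := fun n => bd_Cl hH hS hN n
  choose p hp using hb
  have h := fun q : ℤ × J => exists_fin happ hA c q.1 (p q.1 q.2)
  choose F hF f z hfc hz using h
  obtain ⟨N', σ, δ, hΔ⟩ := distinguished_cocone_triangle (Sigma.desc f)
  obtain ⟨e⟩ := bd_int_prod (J := J)
  obtain ⟨c', hc'⟩ := yon₂ hΔ c (Limits.Sigma.hom_ext _ _ fun q => by simp [hfc])
  refine ⟨N', Cl.cone hΔ (Cl.coprod e F fun q => Cl.of_fin (hF q)) hN, σ, c', hc',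
    fun n x => ?_⟩
  obtain ⟨j, rfl⟩ := hp n x
  have h1 : f (n, j) ≫ σ = 0 := by
    have h2 : f (n, j) = Sigma.ι F (n, j) ≫ Sigma.desc f := by simp
    rw [h2, Category.assoc, mor₁₂ hΔ, comp_zero]
  have h3 := hz (n, j)
  dsimp only at h3
  rw [← h3, ← map_comp_apply', ← Functor.map_comp, h1, Functor.map_zero, map_zero_apply']

/-- A map from an object of the class to an acyclic object factors through an acyclic object of the
class. -/
lemma exists_acyclic [Infinite J] (happ : ∀ X, Appr (Fin S) H X) (hH : CopGen H)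
    (hS : ∀ n : ℤ, Bd J (H.obj (S⟦n⟧))) {N A : T} (hN : Cl J S N) (hA : Ac H A) (c : N ⟶ A) :
    ∃ (M : T) (_ : Cl J S M) (_ : Ac H M) (σ : N ⟶ M) (c' : M ⟶ A), σ ≫ c' = c := by
  have hst := fun t : (Σ' (N : T) (_ : Cl J S N), (N ⟶ A)) =>
    exists_step happ hH hS t.2.1 hA t.2.2
  choose nx hnx σ c' hc' hk using hst
  let t : ℕ → (Σ' (N : T) (_ : Cl J S N), (N ⟶ A)) := fun k =>
    Nat.rec ⟨N, hN, c⟩ (fun _ t => ⟨nx t, hnx t, c' t⟩) k
  let X : ℕ → T := fun k => (t k).1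
  let f : ∀ k, X k ⟶ X (k + 1) := fun k => σ (t k)
  let a : ∀ k, X k ⟶ A := fun k => (t k).2.2
  have hX : ∀ k, Cl J S (X k) := fun k => (t k).2.1
  have hf : ∀ k, f k ≫ a (k + 1) = a k := fun k => hc' (t k)
  have hkill : ∀ k (n : ℤ) (x : H.obj ((X k)⟦n⟧)), H.map ((f k)⟦n⟧') x = 0 :=
    fun k => hk (t k)
  obtain ⟨M, q, w, hΔ⟩ := distinguished_cocone_triangle (𝟙 (∐ X) - Vale.Agent.P251.S.telShift f)
  obtain ⟨d, hd⟩ := tel_desc f hΔ a hf
  obtain ⟨e⟩ := bd_nat (J := J)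
  have hcop := Cl.coprod e X hX
  refine ⟨M, Cl.cone hΔ hcop hcop, ?_, Sigma.ι X 0 ≫ q, d, by rw [Category.assoc]; exact hd 0⟩
  intro n x
  obtain ⟨y, hy⟩ := tel_surj (H := shiftFunctor T n ⋙ H) (hH.shift n) f hΔ x
  rw [← hy]
  have hq : ∀ k, Sigma.ι X k ≫ q = f k ≫ Sigma.ι X (k + 1) ≫ q := by
    intro k
    have h0 := mor₁₂ hΔ
    rw [Preadditive.sub_comp, Category.id_comp, sub_eq_zero] at h0
    conv_lhs => rw [h0]
    simp [Vale.Agent.P251.S.telShift]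
  have hy' := (hH.shift n) X y
  clear hy
  induction hy' using AddSubgroup.iSup_induction' with
  | hp i y hy =>
    obtain ⟨z, rfl⟩ := hy
    change H.map (q⟦n⟧') (H.map ((Sigma.ι X i)⟦n⟧') z) = 0
    rw [← map_comp_apply', ← Functor.map_comp, hq, Functor.map_comp, map_comp_apply', hkill,
      map_zero]
  | h1 => rw [map_zero]
  | hadd y z _ _ hy hz => rw [map_add, hy, hz, add_zero]

end Vale.Agent.P251.H.BL
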