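import Vale.Agent.P251.S.Defs
import Mathlib.CategoryTheory.Triangulated.HomologicalFunctor
import Mathlib.CategoryTheory.Triangulated.Yoneda
import Mathlib.CategoryTheory.Triangulated.Subcategory
import Mathlib.Algebra.Homology.ShortComplex.Ab
import Mathlib.CategoryTheory.Limits.Preserves.Shapes.Products
import Mathlib.CategoryTheory.Adjunction.Limits
import Mathlib.CategoryTheory.ObjectProperty.Small
import Mathlib.CategoryTheory.EssentiallySmall

/-!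
# P251, part H: tools for the existence of Bousfield localizations

Functors `H : T ⥤ AddCommGrpCat` such that `H (∐ X)` is generated by the images of the `H (X i)`.
-/

open CategoryTheory Limits Pretriangulated

universe w v u

namespace Vale.Agent.P251.H.BL

section Basic

variable {T : Type u} [Category.{v} T]

lemma map_comp_apply' (H : T ⥤ AddCommGrpCat.{w}) {X Y Z : T} (f : X ⟶ Y) (g : Y ⟶ Z)
    (x : H.obj X) : H.map (f ≫ g) x = H.map g (H.map f x) := by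
  simp

lemma map_id_apply' (H : T ⥤ AddCommGrpCat.{w}) {X : T} (x : H.obj X) :
    H.map (𝟙 X) x = x := by
  simp

variable [Preadditive T]

lemma map_zero_apply' (H : T ⥤ AddCommGrpCat.{w}) [H.Additive] {X Y : T} (x : H.obj X) :
    H.map (0 : X ⟶ Y) x = 0 := by
  rw [H.map_zero]
  rfl

lemma map_add_apply' (H : T ⥤ AddCommGrpCat.{w}) [H.Additive] {X Y : T} (f g : X ⟶ Y)
    (x : H.obj X) : H.map (f + g) x = H.map f x + H.map g x := by
  rw [H.map_add]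
  rfl

lemma map_neg_apply' (H : T ⥤ AddCommGrpCat.{w}) [H.Additive] {X Y : T} (f : X ⟶ Y)
    (x : H.obj X) : H.map (-f) x = -H.map f x := by
  rw [H.map_neg]
  rfl

lemma map_sub_apply' (H : T ⥤ AddCommGrpCat.{w}) [H.Additive] {X Y : T} (f g : X ⟶ Y)
    (x : H.obj X) : H.map (f - g) x = H.map f x - H.map g x := by
  rw [H.map_sub]
  rfl

variable [HasZeroObject T] [HasShift T ℤ] [∀ n : ℤ, (shiftFunctor T n).Additive]
  [Pretriangulated T]

lemma exact_apply (H : T ⥤ AddCommGrpCat.{w}) [H.IsHomological] (Δ : Triangle T)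
    (hΔ : Δ ∈ distTriang T) (x : H.obj Δ.obj₂) (hx : H.map Δ.mor₂ x = 0) :
    ∃ y : H.obj Δ.obj₁, H.map Δ.mor₁ y = x :=
  (ShortComplex.ab_exact_iff _).1 (H.map_distinguished_exact Δ hΔ) x hx

set_option backward.defeqAttrib.useBackward true in
set_option backward.isDefEq.respectTransparency false in
lemma shift_dist {X Y Z : T} {f : X ⟶ Y} {g : Y ⟶ Z} {h : Z ⟶ X⟦(1 : ℤ)⟧}
    (hΔ : Triangle.mk f g h ∈ distTriang T) (n : ℤ) :
    ∃ h' : Z⟦n⟧ ⟶ (X⟦n⟧)⟦(1 : ℤ)⟧, Triangle.mk (f⟦n⟧') (g⟦n⟧') h' ∈ distTriang T := by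
  have hΔ' := Triangle.shift_distinguished _ hΔ n
  refine ⟨n.negOnePow • h⟦n⟧' ≫ (shiftFunctorComm T 1 n).hom.app X,
    isomorphic_distinguished _ hΔ' _ ?_⟩
  refine Triangle.isoMk _ _ (Iso.refl _) (n.negOnePow • (Iso.refl _)) (Iso.refl _) ?_ ?_ ?_
  · simp [Triangle.shiftFunctor_obj, Linear.comp_units_smul]
  · simp [Triangle.shiftFunctor_obj, Linear.units_smul_comp, Linear.comp_units_smul, smul_smul]
  · simp [Triangle.shiftFunctor_obj]

instance shift_homological (H : T ⥤ AddCommGrpCat.{w}) [H.IsHomological] (n : ℤ) :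
    (shiftFunctor T n ⋙ H).IsHomological where
  exact Δ hΔ := by
    rw [ShortComplex.ab_exact_iff]
    intro x hx
    obtain ⟨h', hh'⟩ := shift_dist hΔ n
    exact exact_apply H _ hh' x hx

section mk

variable {X Y Z A : T} {f : X ⟶ Y} {g : Y ⟶ Z} {h : Z ⟶ X⟦(1 : ℤ)⟧}

lemma mor₁₂ (hΔ : Triangle.mk f g h ∈ distTriang T) : f ≫ g = 0 :=
  comp_distTriang_mor_zero₁₂ _ hΔ

lemma mor₂₃ (hΔ : Triangle.mk f g h ∈ distTriang T) : g ≫ h = 0 :=
  comp_distTriang_mor_zero₂₃ _ hΔ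

lemma mor₃₁ (hΔ : Triangle.mk f g h ∈ distTriang T) : h ≫ f⟦(1 : ℤ)⟧' = 0 :=
  comp_distTriang_mor_zero₃₁ _ hΔ

lemma yon₂ (hΔ : Triangle.mk f g h ∈ distTriang T) (a : Y ⟶ A) (ha : f ≫ a = 0) :
    ∃ b : Z ⟶ A, g ≫ b = a := by
  obtain ⟨b, hb⟩ := Triangle.yoneda_exact₂ _ hΔ a ha
  exact ⟨b, hb.symm⟩

lemma yon₃ (hΔ : Triangle.mk f g h ∈ distTriang T) (a : Z ⟶ A) (ha : g ≫ a = 0) :
    ∃ b : X⟦(1 : ℤ)⟧ ⟶ A, h ≫ b = a := by
  obtain ⟨b, hb⟩ := Triangle.yoneda_exact₃ _ hΔ a ha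
  exact ⟨b, hb.symm⟩

lemma coyon₂ (hΔ : Triangle.mk f g h ∈ distTriang T) (a : A ⟶ Y) (ha : a ≫ g = 0) :
    ∃ b : A ⟶ X, b ≫ f = a := by
  obtain ⟨b, hb⟩ := Triangle.coyoneda_exact₂ _ hΔ a ha
  exact ⟨b, hb.symm⟩

lemma coyon₃ (hΔ : Triangle.mk f g h ∈ distTriang T) (a : A ⟶ Z) (ha : a ≫ h = 0) :
    ∃ b : A ⟶ Y, b ≫ g = a := by
  obtain ⟨b, hb⟩ := Triangle.coyoneda_exact₃ _ hΔ a ha
  exact ⟨b, hb.symm⟩

lemma coyon₁ (hΔ : Triangle.mk f g h ∈ distTriang T) (a : A ⟶ X⟦(1 : ℤ)⟧)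
    (ha : a ≫ f⟦(1 : ℤ)⟧' = 0) :
    ∃ b : A ⟶ Z, b ≫ h = a := by
  obtain ⟨b, hb⟩ := Triangle.coyoneda_exact₁ _ hΔ a ha
  exact ⟨b, hb.symm⟩

lemma tr_fill (hΔ : Triangle.mk f g h ∈ distTriang T) {E C D : T} {e : E ⟶ C} {a : C ⟶ D}
    {k : D ⟶ E⟦(1 : ℤ)⟧} (hE : Triangle.mk e a k ∈ distTriang T) (c : C ⟶ X⟦(1 : ℤ)⟧)
    (b : D ⟶ Y⟦(1 : ℤ)⟧) (hab : a ≫ b = c ≫ f⟦(1 : ℤ)⟧') :
    ∃ φ : E ⟶ Z, e ≫ c = φ ≫ h := by
  obtain ⟨φ, hφ, -⟩ := complete_distinguished_triangle_morphism₁ _ _ hE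
    (rot_of_distTriang _ (rot_of_distTriang _ hΔ)) c (-b) (by
      change a ≫ (-b) = c ≫ (-(f⟦(1 : ℤ)⟧'))
      rw [Preadditive.comp_neg, Preadditive.comp_neg, hab])
  exact ⟨φ, hφ⟩

lemma prop_biprod' (G : ObjectProperty T) [G.IsTriangulated] [G.IsClosedUnderIsomorphisms]
    {A B : T} (hA : G A) (hB : G B) : G (A ⊞ B) :=
  G.ext_of_isTriangulatedClosed₂ _ (binaryBiproductTriangle_distinguished A B) hA hB

variable (H : T ⥤ AddCommGrpCat.{w}) [H.IsHomological]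

lemma ex₂ (hΔ : Triangle.mk f g h ∈ distTriang T) (x : H.obj Y) (hx : H.map g x = 0) :
    ∃ y : H.obj X, H.map f y = x :=
  exact_apply H _ hΔ x hx

lemma ex₃ (hΔ : Triangle.mk f g h ∈ distTriang T) (x : H.obj Z) (hx : H.map h x = 0) :
    ∃ y : H.obj Y, H.map g y = x :=
  exact_apply H _ (rot_of_distTriang _ hΔ) x hx

lemma ex₁ (hΔ : Triangle.mk f g h ∈ distTriang T) (x : H.obj (X⟦(1 : ℤ)⟧))
    (hx : H.map (f⟦(1 : ℤ)⟧') x = 0) :
    ∃ y : H.obj Z, H.map h y = x :=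
  exact_apply H _ (rot_of_distTriang _ (rot_of_distTriang _ hΔ)) x (by
    change H.map (-(f⟦(1 : ℤ)⟧')) x = 0
    rw [map_neg_apply', hx, neg_zero])

end mk

end Basic

section Proj

variable {T : Type u} [Category.{v} T] [Preadditive T] [HasCoproducts.{0} T]

open Classical in
/-- The projection of a coproduct to a factor. -/
noncomputable def proj {I : Type} (X : I → T) (i : I) : ∐ X ⟶ X i :=
  Sigma.desc fun j => if h : j = i then eqToHom (by rw [h]) else 0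

@[reassoc (attr := simp)]
lemma ι_proj_self {I : Type} (X : I → T) (i : I) : Sigma.ι X i ≫ proj X i = 𝟙 (X i) := by
  simp [proj]

@[reassoc]
lemma ι_proj_ne {I : Type} (X : I → T) {i j : I} (h : j ≠ i) : Sigma.ι X j ≫ proj X i = 0 := by
  simp [proj, h]

/-- `H (∐ X)` is generated by the images of the `H (X i)`. -/
def CopGen (H : T ⥤ AddCommGrpCat.{w}) : Prop :=
  ∀ ⦃I : Type⦄ (X : I → T) (x : H.obj (∐ X)),
    x ∈ ⨆ i, (H.map (Sigma.ι X i)).hom.range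

omit [Preadditive T] in
lemma CopGen.shift {H : T ⥤ AddCommGrpCat.{w}} (hH : CopGen H) [HasShift T ℤ] (n : ℤ) :
    CopGen (shiftFunctor T n ⋙ H) := by
  intro I X x
  let e := PreservesCoproduct.iso (shiftFunctor T n) X
  have he : ∀ i, Sigma.ι (fun j => (X j)⟦n⟧) i ≫ e.inv = (Sigma.ι X i)⟦n⟧' := by
    intro i
    simp [e, PreservesCoproduct.inv_hom]
  have hx : x = H.map e.inv (H.map e.hom x) := by
    rw [← map_comp_apply', e.hom_inv_id, map_id_apply']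
  have h1 := AddSubgroup.mem_map_of_mem (H.map e.inv).hom (hH _ (H.map e.hom x))
  rw [AddSubgroup.map_iSup] at h1
  rw [hx]
  suffices hle : (⨆ i, AddSubgroup.map (H.map e.inv).hom
      (H.map (Sigma.ι (fun j => (X j)⟦n⟧) i)).hom.range) ≤
      ⨆ i, ((shiftFunctor T n ⋙ H).map (Sigma.ι X i)).hom.range from hle h1
  refine iSup_mono fun i => ?_
  rintro _ ⟨_, ⟨z, rfl⟩, rfl⟩
  refine ⟨z, ?_⟩
  change H.map ((Sigma.ι X i)⟦n⟧') z = H.map e.inv (H.map _ z)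
  rw [← map_comp_apply', he]

variable {H : T ⥤ AddCommGrpCat.{w}} [H.Additive]

lemma CopGen.exists_finset (hH : CopGen H) {I : Type} (X : I → T) (x : H.obj (∐ X)) :
    ∃ s : Finset I, ∀ t : Finset I, s ⊆ t →
      x = ∑ i ∈ t, H.map (Sigma.ι X i) (H.map (proj X i) x) := by
  classical
  have hx := hH X x
  induction hx using AddSubgroup.iSup_induction' with
  | hp i y hy =>
    obtain ⟨z, rfl⟩ := hy
    refine ⟨{i}, fun t ht => ?_⟩
    rw [Finset.sum_eq_single i]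
    · change H.map _ z = H.map _ (H.map _ (H.map _ z))
      rw [← map_comp_apply' H (Sigma.ι X i) (proj X i), ι_proj_self, map_id_apply']
    · intro j _ hj
      change H.map _ (H.map _ (H.map _ z)) = 0
      rw [← map_comp_apply' H (Sigma.ι X i) (proj X j), ι_proj_ne X (Ne.symm hj),
        map_zero_apply', map_zero]
    · intro h
      exact absurd (ht (Finset.mem_singleton_self i)) h
  | h1 => exact ⟨∅, fun t _ => by simp⟩
  | hadd y z _ _ hy hz =>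
    obtain ⟨s, hs⟩ := hy
    obtain ⟨s', hs'⟩ := hz
    refine ⟨s ∪ s', fun t ht => ?_⟩
    simp only [map_add, Finset.sum_add_distrib]
    rw [← hs t (Finset.union_subset_left ht), ← hs' t (Finset.union_subset_right ht)]

lemma CopGen.eq_zero (hH : CopGen H) {I : Type} (X : I → T) (x : H.obj (∐ X))
    (h : ∀ i, H.map (proj X i) x = 0) : x = 0 := by
  obtain ⟨s, hs⟩ := hH.exists_finset X x
  rw [hs s subset_rfl]
  simp [h]

end Proj

section Tel

variable {T : Type u} [Category.{v} T] [Preadditive T] [HasCoproducts.{0} T]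

lemma telShift_proj_zero {X : ℕ → T} (f : ∀ n, X n ⟶ X (n + 1)) :
    S.telShift f ≫ proj X 0 = 0 := by
  ext n
  simp [S.telShift, ι_proj_ne X (Nat.succ_ne_zero n)]

lemma telShift_proj_succ {X : ℕ → T} (f : ∀ n, X n ⟶ X (n + 1)) (n : ℕ) :
    S.telShift f ≫ proj X (n + 1) = proj X n ≫ f n := by
  ext m
  by_cases h : m = n
  · subst h
    simp [S.telShift]
  · have h' : m + 1 ≠ n + 1 := by omega
    simp [S.telShift, ι_proj_ne X h', ι_proj_ne_assoc X h]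

variable {H : T ⥤ AddCommGrpCat.{w}} [H.Additive]

lemma tel_inj (hH : CopGen H) {X : ℕ → T} (f : ∀ n, X n ⟶ X (n + 1)) (y : H.obj (∐ X))
    (hy : H.map (𝟙 _ - S.telShift f) y = 0) : y = 0 := by
  rw [map_sub_apply', map_id_apply', sub_eq_zero] at hy
  refine hH.eq_zero X y fun n => ?_
  induction n with
  | zero => rw [hy, ← map_comp_apply', telShift_proj_zero, map_zero_apply']
  | succ n ih => rw [hy, ← map_comp_apply', telShift_proj_succ, map_comp_apply', ih, map_zero]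

variable [HasZeroObject T] [HasShift T ℤ] [∀ n : ℤ, (shiftFunctor T n).Additive]
  [Pretriangulated T]

lemma tel_surj [H.IsHomological] (hH : CopGen H) {X : ℕ → T} (f : ∀ n, X n ⟶ X (n + 1)) {Z : T}
    {q : ∐ X ⟶ Z} {w : Z ⟶ (∐ X)⟦(1 : ℤ)⟧}
    (hΔ : Triangle.mk (𝟙 (∐ X) - S.telShift f) q w ∈ distTriang T) (x : H.obj Z) :
    ∃ y : H.obj (∐ X), H.map q y = x := by
  refine ex₃ H hΔ x ?_
  refine tel_inj (H := shiftFunctor T (1 : ℤ) ⋙ H) (hH.shift 1) f _ ?_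
  change H.map _ (H.map _ x) = 0
  rw [← map_comp_apply', mor₃₁ hΔ, map_zero_apply']

lemma tel_desc {X : ℕ → T} (f : ∀ n, X n ⟶ X (n + 1)) {Z : T}
    {q : ∐ X ⟶ Z} {w : Z ⟶ (∐ X)⟦(1 : ℤ)⟧}
    (hΔ : Triangle.mk (𝟙 (∐ X) - S.telShift f) q w ∈ distTriang T) {A : T}
    (c : ∀ n, X n ⟶ A) (hc : ∀ n, f n ≫ c (n + 1) = c n) :
    ∃ d : Z ⟶ A, ∀ n, Sigma.ι X n ≫ q ≫ d = c n := by
  obtain ⟨d, hd⟩ := yon₂ hΔ (Sigma.desc c) (by
    refine Sigma.hom_ext _ _ fun n => ?_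
    simp [S.telShift, hc, Preadditive.sub_comp])
  exact ⟨d, fun n => by rw [hd]; simp⟩

end Tel

end Vale.Agent.P251.H.BL
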