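import Vale.Agent.P251.H.CFRep
import Vale.Agent.P251.H.DayMon
import Vale.Agent.P251.H.StabInput

/-!
# P251, part H: tensor products with representables and free functors

* `CF.repEquiv : (rep a ⊗ X ⟶ Z) ≃ (X ⟶ (sh a).obj Z)`, `CF.repAdj a : tensorLeft (rep a) ⊣ sh a`;
* `CF.repTensor a b : rep a ⊗ rep b ≅ rep (a ⊗ b)`;
* `CF.FTensor A X : F.obj A ⊗ X ≅ smul A X`;
* `CF.cellEquiv n A X : (tpow (rep gen) n ⊗ F.obj A ⟶ X) ≃ (A ⟶ X.obj (gpow n))`.
-/

open CategoryTheory MonoidalCategory Topology OnePoint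

namespace Vale.Agent.P251.H

open Vale.Agent.P251.G (LC)
open Vale.Agent.P251.G.LC (smash smash_coe_coe smash_infty_left smash_infty_right)

namespace CF

section shift

variable {X Y : CF} {a b c : Sp0}

/-- a point of `X (a ⊗ b)` as a point of `(sh a X) b` -/
def shi (x : OnePoint (X.obj (a ⊗ b))) : OnePoint (((sh a).obj X).obj b) := x

/-- a point of `(sh a X) b` as a point of `X (a ⊗ b)` -/
def unshi (x : OnePoint (((sh a).obj X).obj b)) : OnePoint (X.obj (a ⊗ b)) := x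

@[simp] theorem unshi_shi (x : OnePoint (X.obj (a ⊗ b))) : unshi (shi x) = x := rfl

@[simp] theorem shi_unshi (x : OnePoint (((sh a).obj X).obj b)) : shi (unshi x) = x := rfl

@[simp] theorem shi_infty : shi (∞ : OnePoint (X.obj (a ⊗ b))) = ∞ := rfl

@[simp] theorem unshi_infty : unshi (∞ : OnePoint (((sh a).obj X).obj b)) = ∞ := rfl

theorem act_shi (w : b ⟶ c) (x : OnePoint (X.obj (a ⊗ b))) :
    ((sh a).obj X).act w (shi x) = shi (X.act (a ◁ w) x) := rfl

theorem unshi_act (w : b ⟶ c) (x : OnePoint (((sh a).obj X).obj b)) :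
    unshi (((sh a).obj X).act w x) = X.act (a ◁ w) (unshi x) := rfl

theorem fn_sh_map_shi (f : X ⟶ Y) (x : OnePoint (X.obj (a ⊗ b))) :
    fn ((sh a).map f) (shi x) = shi (fn f x) := rfl

theorem unshi_fn_sh_map (f : X ⟶ Y) (x : OnePoint (((sh a).obj X).obj b)) :
    unshi (fn ((sh a).map f) x) = fn f (unshi x) := rfl

theorem shi_plot {K : CH} {x : K → OnePoint (X.obj (a ⊗ b))} (hx : (X.obj (a ⊗ b)).plot K x) :
    (((sh a).obj X).obj b).plot K (fun k => shi (x k)) := hx

theorem unshi_plot {K : CH} {x : K → OnePoint (((sh a).obj X).obj b)}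
    (hx : (((sh a).obj X).obj b).plot K x) :
    (X.obj (a ⊗ b)).plot K (fun k => unshi (x k)) := hx

theorem unshi_injective :
    Function.Injective (unshi : OnePoint (((sh a).obj X).obj b) → _) := fun _ _ h => h

end shift

section rep

variable {X Y Z : CF} {a b c : Sp0}

/-- The bilinear morphism `(u, x) ↦ (u ▷ c) (f x)`. -/
noncomputable def repBil (f : X ⟶ (sh a).obj Z) : Bil (rep a) X Z where
  toFun {b c} u x := Z.act (unpr u ▷ c) (unshi (fn f x))
  infty_left {b c} y := by rw [unpr_infty, Sp0.zero_whiskerRight, act_zero]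
  infty_right {b c} x := by rw [fn_infty, unshi_infty, act_infty]
  nat {b c b' c'} w v u x := by
    rw [unpr_rep_act, fn_act, unshi_act, ← act_comp, ← act_comp]
    congr 1
    rw [comp_whiskerRight, whisker_exchange_assoc, tensorHom_def']
  plot {b c K u x} hu hx :=
    Z.act_plot (Sp0.plot_whiskerRight (unpr_plot hu) c) (unshi_plot (fn_plot f hx))

/-- The morphism `rep a ⊗ X ⟶ Z` transposed to `X ⟶ (sh a).obj Z`. -/
noncomputable def repDesc (f : X ⟶ (sh a).obj Z) : rep a ⊗ X ⟶ Z := tensorDesc (repBil f)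

@[simp] theorem fn_repDesc (f : X ⟶ (sh a).obj Z) (u : a ⟶ b) (x : OnePoint (X.obj c)) :
    fn (repDesc f) (tm (pr u) x) = Z.act (u ▷ c) (unshi (fn f x)) := by
  rw [repDesc, tensorDesc_tm]
  change Z.act (unpr (pr u) ▷ c) (unshi (fn f x)) = _
  rw [unpr_pr]

theorem fn_repDesc_id (f : X ⟶ (sh a).obj Z) (x : OnePoint (X.obj c)) :
    fn (repDesc f) (tm (pr (𝟙 a)) x) = unshi (fn f x) := by
  rw [fn_repDesc, id_whiskerRight, act_id]

theorem tm_pr (u : a ⟶ b) (x : OnePoint (X.obj c)) :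
    tm (pr u) x = (rep a ⊗ X).act (u ▷ c) (tm (pr (𝟙 a)) x) := by
  rw [act_tm_left, rep_act, Category.id_comp]

theorem rep_tensor_ext {f g : rep a ⊗ X ⟶ Z}
    (h : ∀ (c : Sp0) (x : OnePoint (X.obj c)),
      fn f (tm (pr (𝟙 a)) x) = fn g (tm (pr (𝟙 a)) x)) : f = g := by
  apply tensor_ext
  intro b c u x
  obtain ⟨u, rfl⟩ := pr_surjective u
  rw [tm_pr, fn_act, fn_act, h]

/-- The transpose of `rep a ⊗ X ⟶ Z`. -/
noncomputable def repCurry (g : rep a ⊗ X ⟶ Z) : X ⟶ (sh a).obj Z :=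
  homMk (fun b x => shi (fn g (tm (pr (𝟙 a)) x)))
    (fun b => by rw [tm_infty_right, fn_infty, shi_infty])
    (fun b K x hx => fn_plot g (tm_plot (((rep a).obj a).plot_const K _) hx))
    (fun {b c} w x => by rw [act_shi, ← fn_act, act_tm_right])

@[simp] theorem fn_repCurry (g : rep a ⊗ X ⟶ Z) (x : OnePoint (X.obj b)) :
    fn (repCurry g) x = shi (fn g (tm (pr (𝟙 a)) x)) := rfl

/-- `Hom (rep a ⊗ X, Z) = Hom (X, sh a Z)`. -/
noncomputable def repEquiv (a : Sp0) (X Z : CF) : (rep a ⊗ X ⟶ Z) ≃ (X ⟶ (sh a).obj Z) where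
  toFun g := repCurry g
  invFun f := repDesc f
  left_inv g := rep_tensor_ext (fun c x => fn_repDesc_id _ x)
  right_inv f := hom_ext (fun b x => by
    apply unshi_injective
    exact fn_repDesc_id f x)

theorem fn_repEquiv (g : rep a ⊗ X ⟶ Z) (x : OnePoint (X.obj b)) :
    fn (repEquiv a X Z g) x = shi (fn g (tm (pr (𝟙 a)) x)) := rfl

theorem repEquiv_symm (f : X ⟶ (sh a).obj Z) : (repEquiv a X Z).symm f = repDesc f := rfl

/-- Tensoring with a representable is left adjoint to the shift. -/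
noncomputable def repAdj (a : Sp0) : tensorLeft (rep a) ⊣ sh a :=
  Adjunction.mkOfHomEquiv
    { homEquiv := fun X Z => repEquiv a X Z
      homEquiv_naturality_left_symm := fun {X X' Z} f g => rep_tensor_ext (fun c x => by
        refine (fn_repDesc_id (f ≫ g) x).trans ?_
        refine Eq.trans ?_
          (congrArg (fn (repDesc (Z := Z) g)) (whiskerLeft_tm (rep a) f (pr (𝟙 a)) x)).symm
        exact (fn_repDesc_id g (fn f x)).symm)
      homEquiv_naturality_right := fun {X Z Z'} f g => rfl }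

/-- `rep a ⊗ rep b ≅ rep (a ⊗ b)`. -/
noncomputable def repTensor (a b : Sp0) : rep a ⊗ rep b ≅ rep (a ⊗ b) where
  hom := repDesc (yo (shi (pr (𝟙 (a ⊗ b)))))
  inv := yo (tm (pr (𝟙 a)) (pr (𝟙 b)))
  hom_inv_id := by
    apply rep_tensor_ext
    intro d v
    obtain ⟨v, rfl⟩ := pr_surjective v
    rw [fn_comp, fn_repDesc_id, fn_yo_pr, fn_id, act_shi, unshi_shi, rep_act, fn_yo_pr,
      Category.id_comp, act_tm_right, rep_act, Category.id_comp]
  inv_hom_id := rep_hom_ext (by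
    rw [fn_comp, fn_yo_pr, act_id, fn_repDesc_id, fn_yo_pr, act_id, unshi_shi, fn_id])

theorem fn_repTensor_hom {c d : Sp0} (u : a ⟶ c) (v : b ⟶ d) :
    fn (repTensor a b).hom (tm (pr u) (pr v)) = pr (u ⊗ₘ v) := by
  refine (fn_repDesc (yo (shi (pr (𝟙 (a ⊗ b))))) u (pr v)).trans ?_
  rw [fn_yo_pr, act_shi, unshi_shi, rep_act, rep_act, Category.id_comp, ← tensorHom_def']

theorem fn_repTensor_inv {c : Sp0} (u : a ⊗ b ⟶ c) :
    fn (repTensor a b).inv (pr u) = (rep a ⊗ rep b).act u (tm (pr (𝟙 a)) (pr (𝟙 b))) :=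
  fn_yo_pr _ _

end rep

section free

/-- elimination of the points of `F.obj A` -/
def fel {A : PQ} {a : Sp0} {W : Type} (G : OnePoint A → OnePoint a.s → OnePoint W) :
    OnePoint ((F.obj A).obj a) → OnePoint W := PQ.unsmash G

theorem fel_infty {A : PQ} {a : Sp0} {W : Type} (G : OnePoint A → OnePoint a.s → OnePoint W) :
    fel G ∞ = ∞ := rfl

theorem fel_fm {A : PQ} {a : Sp0} {W : Type} (G : OnePoint A → OnePoint a.s → OnePoint W)
    (h1 : ∀ x, G ∞ x = ∞) (h2 : ∀ k, G k ∞ = ∞) (k : OnePoint A) (x : OnePoint a.s) :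
    fel G (fm k x) = G k x := PQ.unsmash_smash G h1 h2 k x

theorem plot_F_left {A : PQ} {a : Sp0} {Z W : PQ}
    (Φ : OnePoint ((F.obj A).obj a) → OnePoint Z → OnePoint W)
    (h : ∀ (K : CH) (k : K → OnePoint A) (x : K → OnePoint a.s) (z : K → OnePoint Z),
      A.plot K k → Continuous x → Z.plot K z → W.plot K (fun i => Φ (fm (k i) (x i)) (z i)))
    {K : CH} {d : K → OnePoint ((F.obj A).obj a)} {z : K → OnePoint Z}
    (hd : ((F.obj A).obj a).plot K d) (hz : Z.plot K z) : W.plot K (fun i => Φ (d i) (z i)) :=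
  PQ.plot_tensor_left (X := A) (Y := PQ.ofLC a.s) (Z := Z) (W := W) Φ
    (fun x K c hc => by
      obtain ⟨k, x, rfl⟩ := fm_surjective (A := A) (a := a) x
      exact h K (fun _ => k) (fun _ => x) c (A.plot_const K k) continuous_const hc)
    h hd hz

variable {A : PQ} {X Y Z : CF} {a b c : Sp0}

/-- The bilinear morphism `((k, x), y) ↦ (k, x ⊗ y)`. -/
noncomputable def FBil (A : PQ) (X : CF) : Bil (F.obj A) X (smul A X) where
  toFun {a b} z y := fel (fun k x => sm k (X.act ((λ_ b).inv ≫ Sp0.pt x ▷ b) y)) z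
  infty_left {a b} y := fel_infty _
  infty_right {a b} z := by
    obtain ⟨k, x, rfl⟩ := fm_surjective z
    rw [fel_fm, act_infty, sm_infty_right]
    · intro x; rw [sm_infty_left]
    · intro k; rw [act_infty, sm_infty_right]
  nat {a b a' b'} u v z y := by
    obtain ⟨k, x, rfl⟩ := fm_surjective z
    rw [F_act, fel_fm, fel_fm, smul_act, pt_app', ← act_comp, ← act_comp]
    · congr 2
      rw [leftUnitor_inv_naturality_assoc, comp_whiskerRight, Category.assoc, tensorHom_def',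
        whisker_exchange_assoc]
    · intro x; rw [sm_infty_left]
    · intro k
      rw [Sp0.pt_infty, Sp0.zero_whiskerRight, Limits.comp_zero, act_zero, sm_infty_right]
    · intro x; rw [sm_infty_left]
    · intro k
      rw [Sp0.pt_infty, Sp0.zero_whiskerRight, Limits.comp_zero, act_zero, sm_infty_right]
  plot {a b K z y} hz hy := by
    refine plot_F_left (Z := X.obj b) (W := (smul A X).obj (a ⊗ b))
      (fun z y => fel (fun k x => sm k (X.act ((λ_ b).inv ≫ Sp0.pt x ▷ b) y)) z) ?_ hz hy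
    intro K k x y hk hx hy
    have : (fun i => fel (fun k x => sm (A := A) k (X.act ((λ_ b).inv ≫ Sp0.pt x ▷ b) (y i)))
        (fm (k i) (x i))) =
        fun i => sm (k i) (X.act ((λ_ b).inv ≫ Sp0.pt (x i) ▷ b) (y i)) := by
      funext i
      rw [fel_fm]
      · intro x; rw [sm_infty_left]
      · intro k
        rw [Sp0.pt_infty, Sp0.zero_whiskerRight, Limits.comp_zero, act_zero, sm_infty_right]
    rw [this]
    exact sm_plot hk (X.act_plot (Sp0.plot_comp (Sp0.plot_const _ _)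
      (Sp0.plot_whiskerRight (Sp0.plot_pt hx) _)) hy)

theorem FBil_fm (k : OnePoint A) (x : OnePoint a.s) (y : OnePoint (X.obj b)) :
    (FBil A X).toFun (fm k x) y = sm k (X.act ((λ_ b).inv ≫ Sp0.pt x ▷ b) y) := by
  refine fel_fm (fun k x => sm k (X.act ((λ_ b).inv ≫ Sp0.pt x ▷ b) y)) ?_ ?_ k x
  · intro x; rw [sm_infty_left]
  · intro k
    rw [Sp0.pt_infty, Sp0.zero_whiskerRight, Limits.comp_zero, act_zero, sm_infty_right]

theorem tm_fm (k : OnePoint A) (x : OnePoint a.s) (y : OnePoint (X.obj b)) :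
    tm (fm k x) y = (F.obj A ⊗ X).act (Sp0.pt x ▷ b) (tm (fm k pu) y) := by
  rw [act_tm_left, F_act, app_pt_pu]

theorem F_tensor_ext {f g : F.obj A ⊗ X ⟶ Z}
    (h : ∀ (c : Sp0) (k : OnePoint A) (x : OnePoint (X.obj c)),
      fn f (tm (fm k pu) x) = fn g (tm (fm k pu) x)) : f = g := by
  apply tensor_ext
  intro b c z x
  obtain ⟨k, y, rfl⟩ := fm_surjective z
  rw [tm_fm, fn_act, fn_act, h]

/-- `F A ⊗ X ≅ smul A X`. -/
noncomputable def FTensor (A : PQ) (X : CF) : F.obj A ⊗ X ≅ smul A X where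
  hom := tensorDesc (FBil A X)
  inv := smulDesc (fun a k x => (F.obj A ⊗ X).act (λ_ a).hom (tm (fm k pu) x))
    (fun a x => by rw [fm_infty_left, tm_infty_left, act_infty])
    (fun a k => by rw [tm_infty_right, act_infty])
    (fun a K k x hk hx => act_plot' _ _ (tm_plot (fm_plot hk continuous_const) hx))
    (fun a b w k x => by
      rw [← act_tm_right, ← act_comp, ← act_comp, leftUnitor_naturality])
  hom_inv_id := F_tensor_ext (fun c k x => by
    rw [fn_comp, tensorDesc_tm, FBil_fm, pt_pu, id_whiskerRight, Category.comp_id,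
      fn_smulDesc, ← act_tm_right, ← act_comp, fn_id]
    have : 𝟙_ Sp0 ◁ (λ_ c).inv ≫ (λ_ (𝟙_ Sp0 ⊗ c)).hom = 𝟙 _ := by
      rw [leftUnitor_naturality, Iso.hom_inv_id]
    rw [this, act_id])
  inv_hom_id := smul_hom_ext (fun a k x => by
    rw [fn_comp, fn_smulDesc, fn_act, tensorDesc_tm, FBil_fm, pt_pu, id_whiskerRight,
      Category.comp_id, smul_act, ← act_comp, Iso.inv_hom_id, act_id, fn_id])

theorem fn_FTensor_hom (k : OnePoint A) (x : OnePoint a.s) (y : OnePoint (X.obj b)) :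
    fn (FTensor A X).hom (tm (fm k x) y) = sm k (X.act ((λ_ b).inv ≫ Sp0.pt x ▷ b) y) :=
  (tensorDesc_tm _ _ _).trans (FBil_fm k x y)

theorem fn_FTensor_inv (k : OnePoint A) (x : OnePoint (X.obj a)) :
    fn (FTensor A X).inv (sm k x) = (F.obj A ⊗ X).act (λ_ a).hom (tm (fm k pu) x) := by
  simp only [FTensor, fn_smulDesc]

end free

section cells

/-- the powers of the generator -/
def gpow : ℕ → Sp0
  | 0 => 𝟙_ Sp0
  | n + 1 => Sp0.gen ⊗ gpow n

/-- The tensor powers of `rep gen`. -/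
noncomputable def repTpow : ∀ n : ℕ, tpow (rep Sp0.gen) n ≅ rep (gpow n)
  | 0 => repUnit.symm
  | n + 1 => whiskerLeftIso (rep Sp0.gen) (repTpow n) ≪≫ repTensor Sp0.gen (gpow n)

/-- `rep a ⊗ F A` is the object representing `X ↦ (A ⟶ X.obj a)`. -/
noncomputable def repF (a : Sp0) (A : PQ) : rep a ⊗ F.obj A ≅ smul A (rep a) :=
  β_ (rep a) (F.obj A) ≪≫ FTensor A (rep a)

/-- The cells. -/
noncomputable def cellIso (n : ℕ) (A : PQ) :
    tpow (rep Sp0.gen) n ⊗ F.obj A ≅ smul A (rep (gpow n)) :=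
  whiskerRightIso (repTpow n) (F.obj A) ≪≫ repF (gpow n) A

/-- Morphisms out of a cell. -/
noncomputable def cellEquiv (n : ℕ) (A : PQ) (X : CF) :
    (tpow (rep Sp0.gen) n ⊗ F.obj A ⟶ X) ≃ (A ⟶ X.obj (gpow n)) :=
  (cellIso n A).homFromEquiv.trans (smulYoEquiv A X (gpow n))

theorem smulYoEquiv_comp {A : PQ} {X Y : CF} {a : Sp0} (f : smul A (rep a) ⟶ X) (g : X ⟶ Y) :
    smulYoEquiv A Y a (f ≫ g) = smulYoEquiv A X a f ≫ Hom.app g a := rfl

theorem cellEquiv_comp {n : ℕ} {A : PQ} {X Y : CF}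
    (f : tpow (rep Sp0.gen) n ⊗ F.obj A ⟶ X) (g : X ⟶ Y) :
    cellEquiv n A Y (f ≫ g) = cellEquiv n A X f ≫ Hom.app g (gpow n) := by
  simp only [cellEquiv, Equiv.trans_apply, Iso.homFromEquiv_apply]
  rw [← smulYoEquiv_comp, Category.assoc]

end cells

end CF

end Vale.Agent.P251.H
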