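import Vale.Agent.P251.H.RotLC
import Vale.Agent.P251.H.StabInput
import Mathlib.Tactic.CategoryTheory.Monoidal.Basic

/-!
# P251, part H (block P5b): the rotation homotopy in a symmetric monoidal category

Reduction of the field `rot` of `StabInput` to the existence of a morphism
`G : (L ⊗ L) ⊗ j (ℝ ⊗ [0,1]) ⟶ L` with prescribed ends.
-/

open CategoryTheory MonoidalCategory Limits

namespace Vale.Agent.P251.H

open Vale.Agent.P251.G Vale.Agent.P251.G.LC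
open Functor.LaxMonoidal Functor.OplaxMonoidal

universe v u

variable {M : Type u} [Category.{v} M] [MonoidalCategory M] [SymmetricCategory M]
  (j : LC ⥤ M) [j.Braided]

theorem jincl_naturality' (t : unitInterval) {X Y : M} (f : X ⟶ Y) :
    jincl j t X ≫ f ▷ j.obj II = f ≫ jincl j t Y := by
  simp only [jincl, Category.assoc]
  rw [whisker_exchange, rightUnitor_inv_naturality_assoc]

@[reassoc]
theorem jincl_tensor' (t : unitInterval) (A B : M) :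
    jincl j t (A ⊗ B) ≫ (α_ A B (j.obj II)).hom = A ◁ jincl j t B := by
  simp only [jincl]
  monoidal

@[reassoc]
theorem jincl_μ' (t : unitInterval) (K : LC) :
    jincl j t (j.obj K) ≫ μ j K II = j.map (incl t K) := by
  have h : (ρ_ (j.obj K)).inv ≫ j.obj K ◁ ε j ≫ μ j K (𝟙_ LC) = j.map (ρ_ K).inv :=
    (right_unitality_inv j K)
  rw [jincl, incl, Functor.map_comp, ← h]
  simp only [MonoidalCategory.whiskerLeft_comp, Category.assoc]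
  rw [μ_natural_right]

section swaps

variable (L : M) {S : M} (lam : L ⊗ S ⟶ 𝟙_ M)

/-- contraction of the first factor of `L ⊗ L` with `S` -/
def contr₁ : (L ⊗ L) ⊗ S ⟶ L :=
  (α_ L L S).hom ≫ L ◁ (β_ L S).hom ≫ (α_ L S L).inv ≫ lam ▷ L ≫ (λ_ L).hom

/-- contraction of the second factor of `L ⊗ L` with `S` -/
def contr₂ : (L ⊗ L) ⊗ S ⟶ L := (α_ L L S).hom ≫ L ◁ lam ≫ (ρ_ L).hom

/-- the rearrangement `(L ⊗ S) ⊗ (L ⊗ S) ⟶ (L ⊗ L) ⊗ (S ⊗ S)` -/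
def rearr : (L ⊗ S) ⊗ (L ⊗ S) ⟶ (L ⊗ L) ⊗ (S ⊗ S) :=
  (α_ L S (L ⊗ S)).hom ≫ L ◁ (α_ S L S).inv ≫ L ◁ (β_ S L).hom ▷ S ≫
    L ◁ (α_ L S S).hom ≫ (α_ L L (S ⊗ S)).inv

theorem rearr_contr₁ :
    rearr L ≫ (α_ (L ⊗ L) S S).inv ≫ contr₁ L lam ▷ S =
      lam ▷ (L ⊗ S) ≫ (λ_ (L ⊗ S)).hom := by
  have h1 : L ◁ (α_ L S S).hom ≫ (α_ L L (S ⊗ S)).inv ≫ (α_ (L ⊗ L) S S).inv ≫
      (α_ L L S).hom ▷ S = (α_ L (L ⊗ S) S).inv := by monoidal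
  calc rearr L ≫ (α_ (L ⊗ L) S S).inv ≫ contr₁ L lam ▷ S
      = (α_ L S (L ⊗ S)).hom ≫ L ◁ (α_ S L S).inv ≫ L ◁ (β_ S L).hom ▷ S ≫
        (L ◁ (α_ L S S).hom ≫ (α_ L L (S ⊗ S)).inv ≫ (α_ (L ⊗ L) S S).inv ≫
          (α_ L L S).hom ▷ S) ≫ (L ◁ (β_ L S).hom) ▷ S ≫ (α_ L S L).inv ▷ S ≫
            (lam ▷ L) ▷ S ≫ (λ_ L).hom ▷ S := by
        simp only [rearr, contr₁, comp_whiskerRight, Category.assoc]
    _ = (α_ L S (L ⊗ S)).hom ≫ L ◁ (α_ S L S).inv ≫ (L ◁ (β_ S L).hom ▷ S ≫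
        L ◁ (β_ L S).hom ▷ S) ≫ (α_ L (S ⊗ L) S).inv ≫ (α_ L S L).inv ▷ S ≫
            (lam ▷ L) ▷ S ≫ (λ_ L).hom ▷ S := by
        rw [h1]
        simp only [whisker_assoc, Category.assoc, Iso.inv_hom_id_assoc]
    _ = (α_ L S (L ⊗ S)).hom ≫ L ◁ (α_ S L S).inv ≫ (α_ L (S ⊗ L) S).inv ≫
          (α_ L S L).inv ▷ S ≫ (lam ▷ L) ▷ S ≫ (λ_ L).hom ▷ S := by
        rw [← MonoidalCategory.whiskerLeft_comp, ← comp_whiskerRight, SymmetricCategory.symmetry]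
        simp only [id_whiskerRight, MonoidalCategory.whiskerLeft_id, Category.id_comp]
    _ = lam ▷ (L ⊗ S) ≫ (λ_ (L ⊗ S)).hom := by monoidal

theorem rearr_contr₂ :
    rearr L ≫ (L ⊗ L) ◁ (β_ S S).hom ≫ (α_ (L ⊗ L) S S).inv ≫ contr₂ L lam ▷ S =
      (L ⊗ S) ◁ lam ≫ (ρ_ (L ⊗ S)).hom := by
  have hex : (α_ S L S).inv ≫ (β_ S L).hom ▷ S ≫ (α_ L S S).hom ≫ L ◁ (β_ S S).hom =
      (β_ S (L ⊗ S)).hom ≫ (α_ L S S).hom := by
    have := BraidedCategory.hexagon_forward S L S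
    rw [Iso.inv_comp_eq]
    exact this.symm
  have nat : (β_ S (L ⊗ S)).hom ≫ lam ▷ S ≫ (λ_ S).hom = S ◁ lam ≫ (ρ_ S).hom := by
    rw [← BraidedCategory.braiding_naturality_right_assoc, braiding_leftUnitor]
  calc rearr L ≫ (L ⊗ L) ◁ (β_ S S).hom ≫ (α_ (L ⊗ L) S S).inv ≫ contr₂ L lam ▷ S
      = (α_ L S (L ⊗ S)).hom ≫ L ◁ ((α_ S L S).inv ≫ (β_ S L).hom ▷ S ≫
        (α_ L S S).hom ≫ L ◁ (β_ S S).hom) ≫ (α_ L L (S ⊗ S)).inv ≫
        (α_ (L ⊗ L) S S).inv ≫ (α_ L L S).hom ▷ S ≫ (L ◁ lam) ▷ S ≫ (ρ_ L).hom ▷ S := by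
        simp only [rearr, contr₂, comp_whiskerRight, Category.assoc,
          MonoidalCategory.whiskerLeft_comp, tensor_whiskerLeft, Iso.inv_hom_id_assoc]
    _ = (α_ L S (L ⊗ S)).hom ≫ L ◁ ((β_ S (L ⊗ S)).hom ≫ lam ▷ S ≫ (λ_ S).hom) := by
        rw [hex]
        monoidal
    _ = (L ⊗ S) ◁ lam ≫ (ρ_ (L ⊗ S)).hom := by
        rw [nat]
        monoidal

end swaps

variable (L : M) (lam : L ⊗ j.obj RR ⟶ 𝟙_ M)

/-- The rotation homotopy from a family `G`. -/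
theorem rot_of (G : (L ⊗ L) ⊗ j.obj (RR ⊗ II) ⟶ L)
    (h0 : (L ⊗ L) ◁ j.map (incl 0 RR) ≫ G = contr₁ L lam)
    (h1 : (L ⊗ L) ◁ j.map (incl 1 RR) ≫ G = (L ⊗ L) ◁ j.map flipRR ≫ contr₂ L lam) :
    JHomotopic j (lam ▷ (L ⊗ j.obj RR) ≫ (λ_ (L ⊗ j.obj RR)).hom)
      ((L ⊗ j.obj RR) ◁ lam ≫ (ρ_ (L ⊗ j.obj RR)).hom) := by
  have key : ∀ t : unitInterval, jincl j t ((L ⊗ j.obj RR) ⊗ (L ⊗ j.obj RR)) ≫
      (rearr L ▷ j.obj II ≫ (α_ (L ⊗ L) (j.obj RR ⊗ j.obj RR) (j.obj II)).hom ≫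
        (L ⊗ L) ◁ (μ j RR RR ▷ j.obj II ≫ μ j (RR ⊗ RR) II ≫ j.map rotIso.hom ≫
          δ j (RR ⊗ II) RR) ≫ (α_ (L ⊗ L) (j.obj (RR ⊗ II)) (j.obj RR)).inv ≫ G ▷ j.obj RR) =
      rearr L ≫ (L ⊗ L) ◁ (μ j RR RR ≫ j.map (incl t (RR ⊗ RR) ≫ rotIso.hom) ≫
        δ j (RR ⊗ II) RR) ≫ (α_ (L ⊗ L) (j.obj (RR ⊗ II)) (j.obj RR)).inv ≫
          G ▷ j.obj RR := by
    intro t
    rw [← Category.assoc, jincl_naturality', Category.assoc, jincl_tensor'_assoc,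
      ← MonoidalCategory.whiskerLeft_comp_assoc]
    congr 3
    rw [← Category.assoc, jincl_naturality', Category.assoc, jincl_μ'_assoc, Functor.map_comp,
      Category.assoc]
  have hδ : ∀ f : RR ⟶ RR ⊗ II, μ j RR RR ≫ j.map (f ▷ RR) ≫ δ j (RR ⊗ II) RR =
      j.map f ▷ j.obj RR := by
    intro f
    rw [← μ_natural_left_assoc, Functor.Monoidal.μ_δ, Category.comp_id]
  refine ⟨_, (key 0).trans ?_, (key 1).trans ?_⟩
  · rw [incl_zero_rotIso, hδ, associator_inv_naturality_middle_assoc, ← comp_whiskerRight, h0]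
    exact rearr_contr₁ L lam
  · have h2 : (L ⊗ L) ◁ j.map (flipRR ≫ incl 1 RR) ≫ G = contr₂ L lam := by
      rw [Functor.map_comp, MonoidalCategory.whiskerLeft_comp, Category.assoc, h1,
        ← MonoidalCategory.whiskerLeft_comp_assoc, ← Functor.map_comp, flipRR_flipRR,
        CategoryTheory.Functor.map_id, MonoidalCategory.whiskerLeft_id, Category.id_comp]
    have hβ : μ j RR RR ≫ j.map (incl 1 (RR ⊗ RR) ≫ rotIso.hom) ≫ δ j (RR ⊗ II) RR =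
        (β_ (j.obj RR) (j.obj RR)).hom ≫ j.map (flipRR ≫ incl 1 RR) ▷ j.obj RR := by
      rw [incl_one_rotIso, Functor.map_comp, Category.assoc, Functor.LaxBraided.braided_assoc,
        hδ]
    rw [hβ, MonoidalCategory.whiskerLeft_comp_assoc, associator_inv_naturality_middle_assoc,
      ← comp_whiskerRight, h2]
    exact rearr_contr₂ L lam

end Vale.Agent.P251.H
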