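import Vale.Agent.P251.H.BaseL
import Vale.Agent.P251.H.RepDay
import Vale.Agent.P251.H.RotAbs

/-!
# P251, part H (block P5b): the rotation homotopy in continuous functors
-/

open CategoryTheory MonoidalCategory Topology OnePoint

namespace Vale.Agent.P251.H

open Vale.Agent.P251.G (LC)
open Vale.Agent.P251.G.LC (smash smash_coe_coe smash_infty_left smash_infty_right RR II incl
  app_incl)

namespace CF

/-- Maps out of `(rep a ⊗ rep b) ⊗ F A` are determined by the values on the generators. -/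
theorem RRF_ext {a b : Sp0} {A : PQ} {Z : CF} {f g : (rep a ⊗ rep b) ⊗ F.obj A ⟶ Z}
    (h : ∀ k : OnePoint A, fn f (tm (tm (pr (𝟙 a)) (pr (𝟙 b))) (fm k pu)) =
      fn g (tm (tm (pr (𝟙 a)) (pr (𝟙 b))) (fm k pu))) : f = g := by
  apply tensor_ext₃
  intro a' b' c x y z
  obtain ⟨u, rfl⟩ := pr_surjective x
  obtain ⟨v, rfl⟩ := pr_surjective y
  obtain ⟨k, t, rfl⟩ := fm_surjective z
  have h1 : tm (tm (pr u) (pr v)) (fm k t) = ((rep a ⊗ rep b) ⊗ F.obj A).act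
      ((u ⊗ₘ v) ⊗ₘ Sp0.pt t) (tm (tm (pr (𝟙 a)) (pr (𝟙 b))) (fm k pu)) := by
    rw [act_tm, act_tm, rep_act, rep_act, Category.id_comp, Category.id_comp, ← fm_eq_act]
  rw [h1, fn_act, fn_act, h]

section sec

/-- the section `y ↦ (x, y)` of a product of spaces -/
def secLC {X : LC} (Y : LC) (x : OnePoint X) : Y ⟶ X ⊗ Y :=
  LC.Hom.mk ⟨fun y => smash x y, LC.continuous_smash.comp (Continuous.prodMk_right x)⟩
    (smash_infty_right x)

theorem app_secLC {X : LC} (Y : LC) (x : OnePoint X) (y : OnePoint Y) :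
    LC.app (secLC Y x) y = smash x y := rfl

/-- the embedding of the line in the plane given by a point of `ℝ × [0,1]` -/
noncomputable def rotMap (z : OnePoint (RR ⊗ II : LC)) : Sp0.gen ⟶ Sp0.gen ⊗ Sp0.gen :=
  ⟨secLC RR z ≫ rotFam⟩

theorem app_rotMap (z : OnePoint (RR ⊗ II : LC)) (u : OnePoint RR) :
    LC.app (rotMap z).hom u = LC.app rotFam (smash z u) := rfl

theorem rotMap_infty : rotMap ∞ = 0 := by
  apply Sp0.hom_ext
  apply LC.hom_ext
  intro u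
  refine (app_rotMap ∞ (OnePoint.some (X := ℝ) u)).trans ?_
  rw [smash_infty_left, LC.app_infty]
  rfl

theorem rotMap_plot {K : CH} {z : K → OnePoint (RR ⊗ II : LC)} (hz : Continuous z) :
    Sp0.plot K (fun k => rotMap (z k)) :=
  (LC.continuous_app rotFam).comp (LC.continuous_smash.comp
    ((hz.comp continuous_fst).prodMk continuous_snd))

/-- the family of embeddings as a morphism of `PQ` -/
noncomputable def rotPQ : PQ.LCPQ.obj (RR ⊗ II) ⟶ (rep Sp0.gen).obj (Sp0.gen ⊗ Sp0.gen) :=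
  ⟨fun z => pr (rotMap z), by
    change pr (rotMap ∞) = ∞
    rw [rotMap_infty, pr_zero], fun _ _ hz => pr_plot (rotMap_plot hz)⟩

theorem app_rotPQ (z : OnePoint (RR ⊗ II : LC)) : PQ.app rotPQ z = pr (rotMap z) := rfl

end sec

theorem fn_repF_hom_pu {a : Sp0} {A : PQ} (k : OnePoint A) :
    fn (repF a A).hom (tm (pr (𝟙 a)) (fm k pu)) = sm k (pr (ρ_ a).inv) := by
  simp only [repF, Iso.trans_hom, fn_comp]
  rw [braiding_tm, fn_act, fn_FTensor_hom, smul_act, rep_act, rep_act, Category.id_comp,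
    pt_pu, id_whiskerRight, Category.comp_id, leftUnitor_inv_braiding]

/-- The map out of `(rep a ⊗ rep b) ⊗ F A` given by a family of points. -/
noncomputable def famG {a b : Sp0} {A : PQ} {Z : CF} (γ : A ⟶ Z.obj (a ⊗ b)) :
    (rep a ⊗ rep b) ⊗ F.obj A ⟶ Z :=
  (repTensor a b).hom ▷ _ ≫ (repF (a ⊗ b) A).hom ≫ smulYo γ

theorem fn_famG {a b : Sp0} {A : PQ} {Z : CF} (γ : A ⟶ Z.obj (a ⊗ b)) (k : OnePoint A) :
    fn (famG γ) (tm (tm (pr (𝟙 a)) (pr (𝟙 b))) (fm k pu)) =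
      Z.act (ρ_ (a ⊗ b)).inv (PQ.app γ k) := by
  simp only [famG, fn_comp]
  rw [whiskerRight_tm, fn_repTensor_hom, id_tensorHom_id, fn_repF_hom_pu, fn_smulYo]

/-- The family `G` of the rotation homotopy. -/
noncomputable def rotG : (rep Sp0.gen ⊗ rep Sp0.gen) ⊗ jC.obj (RR ⊗ II) ⟶ rep Sp0.gen :=
  famG rotPQ

theorem fn_rotG (z : OnePoint (RR ⊗ II : LC)) :
    fn rotG (tm (tm (pr (𝟙 Sp0.gen)) (pr (𝟙 Sp0.gen))) (jm (K := RR ⊗ II) z pu)) =
      pr (rotMap z ≫ (ρ_ (Sp0.gen ⊗ Sp0.gen)).inv) :=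
  (fn_famG rotPQ z).trans (rep_act _ _)

open Sp0 (smp)

theorem fn_contr₁ (w : OnePoint RR) :
    fn (contr₁ (rep Sp0.gen) lamC) (tm (tm (pr (𝟙 Sp0.gen)) (pr (𝟙 Sp0.gen))) (jm w pu)) =
      pr ((λ_ Sp0.gen).inv ≫ Sp0.pt (a := Sp0.gen ⊗ 𝟙_ Sp0) (smp (a := Sp0.gen) w pu) ▷ Sp0.gen ≫
        (α_ _ _ _).hom ≫ Sp0.gen ◁ (β_ (𝟙_ Sp0) Sp0.gen).hom ≫ (α_ _ _ _).inv) := by
  simp only [contr₁, fn_comp]
  rw [associator_tm, fn_act, fn_act, fn_act, fn_act, whiskerLeft_tm, braiding_tm, ← act_tm_right,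
    fn_act, fn_act, fn_act, associator_inv_tm, fn_act, fn_act, whiskerRight_tm, lamC_tm,
    leftUnitor_tm]
  rw [rep_act, rep_act, rep_act, rep_act, Category.id_comp]
  rfl

theorem fn_contr₂ (w : OnePoint RR) :
    fn (contr₂ (rep Sp0.gen) lamC) (tm (tm (pr (𝟙 Sp0.gen)) (pr (𝟙 Sp0.gen))) (jm w pu)) =
      pr ((ρ_ Sp0.gen).inv ≫ Sp0.gen ◁ Sp0.pt (a := Sp0.gen ⊗ 𝟙_ Sp0) (smp (a := Sp0.gen) w pu) ≫
        (α_ _ _ _).inv) := by
  simp only [contr₂, fn_comp]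
  rw [associator_tm, fn_act, fn_act, whiskerLeft_tm, lamC_tm, rightUnitor_tm, rep_act, rep_act,
    Category.id_comp]
  rfl

theorem app_incl_some (t : unitInterval) (w : OnePoint RR) :
    LC.app (LC.incl t RR) w = smash w (t : OnePoint unitInterval) := by
  induction w using OnePoint.rec with
  | infty => rw [LC.app_infty]; exact (smash_infty_left _).symm
  | coe w => rw [app_incl]

theorem rotMap_zero (w : OnePoint RR) (u : OnePoint ℝ) :
    LC.app (rotMap (smash w ((0 : unitInterval) : OnePoint unitInterval))).hom u =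
      smp (a := Sp0.gen) (b := Sp0.gen) w u := by
  refine (app_rotMap _ u).trans ?_
  induction w using OnePoint.rec with
  | infty => rw [smash_infty_left, smash_infty_left, LC.app_infty]; exact (smash_infty_left _).symm
  | coe w =>
    induction u using OnePoint.rec with
    | infty => rw [smash_infty_right, LC.app_infty]; exact (smash_infty_right _).symm
    | coe u =>
      refine (app_rotFam w u 0).trans ?_
      rw [rc_zero, rs_zero, mul_one, mul_zero, mul_one, mul_zero, add_zero, sub_zero]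
      rfl

theorem rotMap_one (w : OnePoint RR) (u : OnePoint ℝ) :
    LC.app (rotMap (smash w ((1 : unitInterval) : OnePoint unitInterval))).hom u =
      smp (a := Sp0.gen) (b := Sp0.gen) u (LC.app flipRR w) := by
  refine (app_rotMap _ u).trans ?_
  induction w using OnePoint.rec with
  | infty =>
    rw [smash_infty_left, smash_infty_left, LC.app_infty]
    exact (smash_infty_right _).symm
  | coe w =>
    induction u using OnePoint.rec with
    | infty => rw [smash_infty_right, LC.app_infty]; exact (smash_infty_left _).symm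
    | coe u =>
      refine (app_rotFam w u 1).trans ?_
      rw [rc_one, rs_one, mul_one, mul_zero, mul_one, mul_zero, zero_add, zero_sub]
      rfl

theorem fn_rotG_incl (t : unitInterval) (w : OnePoint RR) :
    fn ((rep Sp0.gen ⊗ rep Sp0.gen) ◁ jC.map (LC.incl t RR) ≫ rotG)
      (tm (tm (pr (𝟙 Sp0.gen)) (pr (𝟙 Sp0.gen))) (jm w pu)) =
      pr (rotMap (smash w (t : OnePoint unitInterval)) ≫ (ρ_ (Sp0.gen ⊗ Sp0.gen)).inv) := by
  rw [fn_comp, whiskerLeft_tm]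
  refine Eq.trans ?_ (fn_rotG _)
  have h : fn (jC.map (LC.incl t RR)) (jm w (a := 𝟙_ Sp0) pu) =
    jm (K := RR ⊗ II) (smash w (t : OnePoint unitInterval)) pu :=
    (fn_jC_map (LC.incl t RR) w pu).trans (congrArg (fun z => jm (K := RR ⊗ II) z pu)
      (app_incl_some t w))
  exact congrArg (fun z => fn rotG (tm (tm (pr (𝟙 Sp0.gen)) (pr (𝟙 Sp0.gen))) z)) h

theorem gen_hom_ext {c : Sp0} {f g : Sp0.gen ⟶ c}
    (h : ∀ u : OnePoint ℝ, LC.app f.hom u = LC.app g.hom u) : f = g := by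
  apply Sp0.hom_ext
  apply LC.hom_ext
  intro u
  exact h (OnePoint.some u)

theorem app_end₁ {a : Sp0} (w u : OnePoint a.s) : smp (smp w u) pu =
    LC.app ((λ_ a).inv ≫ Sp0.pt (a := a ⊗ 𝟙_ Sp0) (smp w pu) ▷ a ≫ (α_ _ _ _).hom ≫
      a ◁ (β_ (𝟙_ Sp0) a).hom ≫ (α_ _ _ _).inv).hom u := by
  simp only [Sp0.comp_hom, LC.app_comp]
  rw [Sp0.app_leftUnitor_inv, Sp0.app_whiskerRight_smp, app_pt_pu, Sp0.app_associator_smp,
    Sp0.app_whiskerLeft_smp, Sp0.app_braiding_smp, Sp0.app_associator_inv_smp]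

theorem app_end₂ {a : Sp0} (w u : OnePoint a.s) : smp (smp u w) pu =
    LC.app ((ρ_ a).inv ≫ a ◁ Sp0.pt (a := a ⊗ 𝟙_ Sp0) (smp w pu) ≫ (α_ _ _ _).inv).hom u := by
  simp only [Sp0.comp_hom, LC.app_comp]
  rw [Sp0.app_rightUnitor_inv, Sp0.app_whiskerLeft_smp, app_pt_pu, Sp0.app_associator_inv_smp]

theorem rotG_zero : (rep Sp0.gen ⊗ rep Sp0.gen) ◁ jC.map (LC.incl 0 RR) ≫ rotG =
    contr₁ (rep Sp0.gen) lamC := by
  apply RRF_ext
  intro w
  refine (fn_rotG_incl 0 w).trans (Eq.trans (congrArg pr ?_) (fn_contr₁ w).symm)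
  apply gen_hom_ext
  intro u
  exact ((congrArg (LC.app (ρ_ (Sp0.gen ⊗ Sp0.gen)).inv.hom) (rotMap_zero w u)).trans
    (Sp0.app_rightUnitor_inv _)).trans (app_end₁ (a := Sp0.gen) w u)

theorem fn_neg_contr₂ (w : OnePoint RR) :
    fn ((rep Sp0.gen ⊗ rep Sp0.gen) ◁ jC.map flipRR ≫ contr₂ (rep Sp0.gen) lamC)
      (tm (tm (pr (𝟙 Sp0.gen)) (pr (𝟙 Sp0.gen))) (jm w pu)) =
      pr ((ρ_ Sp0.gen).inv ≫ Sp0.gen ◁ Sp0.pt (a := Sp0.gen ⊗ 𝟙_ Sp0)
        (smp (a := Sp0.gen) (LC.app flipRR w) pu) ≫ (α_ _ _ _).inv) := by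
  rw [fn_comp, whiskerLeft_tm]
  exact (congrArg (fun z => fn (contr₂ (rep Sp0.gen) lamC)
    (tm (tm (pr (𝟙 Sp0.gen)) (pr (𝟙 Sp0.gen))) z)) (fn_jC_map flipRR w pu)).trans
    (fn_contr₂ (LC.app flipRR w))

theorem rotG_one : (rep Sp0.gen ⊗ rep Sp0.gen) ◁ jC.map (LC.incl 1 RR) ≫ rotG =
    (rep Sp0.gen ⊗ rep Sp0.gen) ◁ jC.map flipRR ≫ contr₂ (rep Sp0.gen) lamC := by
  apply RRF_ext
  intro w
  refine (fn_rotG_incl 1 w).trans (Eq.trans (congrArg pr ?_) (fn_neg_contr₂ w).symm)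
  apply gen_hom_ext
  intro u
  exact ((congrArg (LC.app (ρ_ (Sp0.gen ⊗ Sp0.gen)).inv.hom) (rotMap_one w u)).trans
    (Sp0.app_rightUnitor_inv _)).trans (app_end₂ (a := Sp0.gen) (LC.app flipRR w) u)

/-- **The rotation homotopy.** -/
theorem rotC : JHomotopic jC
    (lamC ▷ (rep Sp0.gen ⊗ jC.obj RR) ≫ (λ_ (rep Sp0.gen ⊗ jC.obj RR)).hom)
    ((rep Sp0.gen ⊗ jC.obj RR) ◁ lamC ≫ (ρ_ (rep Sp0.gen ⊗ jC.obj RR)).hom) :=
  rot_of jC (rep Sp0.gen) lamC rotG rotG_zero rotG_one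

end CF

end Vale.Agent.P251.H
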