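import Vale.Agent.P251.H.Dist
import Mathlib.CategoryTheory.EssentiallySmall

/-!
# Brown representability (perfect generation, after Neeman and Krause)

`brown`: in a localizing subcategory `A` of a triangulated category with coproducts which is
perfectly generated by a small family `S`, every cohomological functor (on the whole category) which
takes coproducts to products is representable on `A`.
-/

open CategoryTheory Limits Pretriangulated Category ZeroObject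

universe w v u

namespace Vale.Agent.P251.H

variable (C : Type u) [Category.{v} C] [Preadditive C] [HasZeroObject C] [HasShift C ℤ]
  [∀ n : ℤ, (shiftFunctor C n).Additive] [Pretriangulated C] [HasCoproducts.{0} C]

/-- A contravariant additive functor to abelian groups which is exact on triangles and takes
coproducts to products. `res f x` is the restriction of `x` along `f`. -/
structure Coh where
  obj : C → Type w
  [grp : ∀ X, AddCommGroup (obj X)]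
  res : ∀ {X Y : C}, (X ⟶ Y) → obj Y → obj X
  res_id : ∀ {X : C} (x : obj X), res (𝟙 X) x = x
  res_comp : ∀ {X Y Z : C} (f : X ⟶ Y) (g : Y ⟶ Z) (x : obj Z), res (f ≫ g) x = res f (res g x)
  res_add : ∀ {X Y : C} (f : X ⟶ Y) (x y : obj Y), res f (x + y) = res f x + res f y
  add_res : ∀ {X Y : C} (f g : X ⟶ Y) (x : obj Y), res (f + g) x = res f x + res g x
  exact : ∀ {X Y Z : C} {f : X ⟶ Y} {g : Y ⟶ Z} {h : Z ⟶ X⟦(1 : ℤ)⟧}, Dist f g h →
    ∀ y : obj Y, res f y = 0 → ∃ z : obj Z, res g z = y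
  prod : ∀ {I : Type} (X : I → C),
    Function.Bijective (fun (x : obj (∐ X)) (i : I) => res (Sigma.ι X i) x)

attribute [instance] Coh.grp

variable {C}

namespace Coh

variable (F : Coh.{w} C)

lemma res_zero {X Y : C} (f : X ⟶ Y) : F.res f 0 = 0 := by
  have := F.res_add f 0 0
  rw [add_zero] at this
  exact left_eq_add.mp this

lemma zero_res {X Y : C} (x : F.obj Y) : F.res (0 : X ⟶ Y) x = 0 := by
  have := F.add_res (0 : X ⟶ Y) 0 x
  rw [add_zero] at this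
  exact left_eq_add.mp this

lemma neg_res {X Y : C} (f : X ⟶ Y) (x : F.obj Y) : F.res (-f) x = -F.res f x := by
  have := F.add_res f (-f) x
  rw [add_neg_cancel, zero_res] at this
  exact (neg_eq_of_add_eq_zero_right this.symm).symm

lemma sub_res {X Y : C} (f g : X ⟶ Y) (x : F.obj Y) :
    F.res (f - g) x = F.res f x - F.res g x := by
  rw [sub_eq_add_neg, add_res, neg_res, sub_eq_add_neg]

lemma res_neg {X Y : C} (f : X ⟶ Y) (x : F.obj Y) : F.res f (-x) = -F.res f x := by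
  have := F.res_add f x (-x)
  rw [add_neg_cancel, res_zero] at this
  exact (neg_eq_of_add_eq_zero_right this.symm).symm

lemma res_sub {X Y : C} (f : X ⟶ Y) (x y : F.obj Y) :
    F.res f (x - y) = F.res f x - F.res f y := by
  rw [sub_eq_add_neg, res_add, res_neg, sub_eq_add_neg]

lemma sigma_ext {I : Type} (X : I → C) {x y : F.obj (∐ X)}
    (h : ∀ i, F.res (Sigma.ι X i) x = F.res (Sigma.ι X i) y) : x = y :=
  (F.prod X).1 (funext h)

lemma exists_sigma {I : Type} (X : I → C) (x : ∀ i, F.obj (X i)) :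
    ∃ y : F.obj (∐ X), ∀ i, F.res (Sigma.ι X i) y = x i := by
  obtain ⟨y, hy⟩ := (F.prod X).2 x
  exact ⟨y, fun i => congrFun hy i⟩

end Coh

/-- Localizing subcategories (as predicates). -/
structure Localizing (P : C → Prop) : Prop where
  iso : ∀ {X Y : C}, (X ≅ Y) → P X → P Y
  shift : ∀ {X : C} (n : ℤ), P X → P (X⟦n⟧)
  cone : ∀ {X Y Z : C} {f : X ⟶ Y} {g : Y ⟶ Z} {h : Z ⟶ X⟦(1 : ℤ)⟧}, Dist f g h →
    P X → P Y → P Z
  coprod : ∀ {I : Type} (X : I → C), (∀ i, P (X i)) → P (∐ X)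

namespace Localizing

variable {P : C → Prop} (hP : Localizing P)

include hP

lemma of_shift_one {X : C} (h : P (X⟦(1 : ℤ)⟧)) : P X :=
  hP.iso ((shiftFunctorCompIsoId C (1 : ℤ) (-1) (by simp)).app X) (hP.shift (-1) h)

lemma fibre {X Y Z : C} {f : X ⟶ Y} {g : Y ⟶ Z} {h : Z ⟶ X⟦(1 : ℤ)⟧} (D : Dist f g h)
    (hY : P Y) (hZ : P Z) : P X :=
  hP.of_shift_one (hP.cone D.rot hY hZ)

lemma isZero {X : C} (hX : IsZero X) : P X := by
  have h : P (∐ (fun i : Empty => (nomatch i : C))) := hP.coprod _ (fun i => nomatch i)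
  refine hP.iso ?_ h
  have : IsZero (∐ (fun i : Empty => (nomatch i : C))) := by
    rw [IsZero.iff_id_eq_zero]
    exact Limits.Sigma.hom_ext _ _ (fun i => nomatch i)
  exact this.iso hX

lemma mid {X Y Z : C} {f : X ⟶ Y} {g : Y ⟶ Z} {h : Z ⟶ X⟦(1 : ℤ)⟧} (D : Dist f g h)
    (hX : P X) (hZ : P Z) : P Y :=
  hP.fibre D.rot hZ (hP.shift 1 hX)

lemma biprod {X Y : C} (hX : P X) (hY : P Y) : P (X ⊞ Y) := by
  have D : Dist (biprod.inl : X ⟶ X ⊞ Y) (biprod.snd : X ⊞ Y ⟶ Y) 0 :=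
    binaryBiproductTriangle_distinguished X Y
  exact hP.mid D hX hY

end Localizing

/-- The localizing subcategory generated by a family. -/
def InLoc {ι : Type} (S : ι → C) (A : C) : Prop :=
  ∀ P : C → Prop, Localizing P → (∀ i, P (S i)) → P A

lemma inLoc_localizing {ι : Type} (S : ι → C) : Localizing (InLoc S) where
  iso e h P hP hS := hP.iso e (h P hP hS)
  shift n h P hP hS := hP.shift n (h P hP hS)
  cone D h₁ h₂ P hP hS := hP.cone D (h₁ P hP hS) (h₂ P hP hS)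
  coprod X h P hP hS := hP.coprod X (fun i => h i P hP hS)

lemma inLoc_self {ι : Type} (S : ι → C) (i : ι) : InLoc S (S i) := fun _ _ h => h i

/-- Perfectness of a family inside a localizing subcategory. -/
def Perfect {ι : Type} (A : C → Prop) (S : ι → C) : Prop :=
  ∀ (i : ι) (B : ℕ → C), (∀ k, A (B k)) → ∀ f : S i ⟶ ∐ B,
    ∃ (e : ℕ → ι) (u : ∀ k, S (e k) ⟶ B k) (h : S i ⟶ ∐ fun k => S (e k)),
      h ≫ Limits.Sigma.map u = f

/-- A stage of the Brown tower. -/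
structure Stage {ι : Type} (S : ι → C) (F : Coh.{w} C) where
  A : C
  hA : InLoc S A
  x : F.obj A

section tower

variable {ι : Type} (S : ι → C) (F : Coh.{w} C) [LocallySmall.{0} C]

omit [LocallySmall.{0} C] in
lemma exists_stage_zero (hF : ∀ i, Small.{0} (F.obj (S i))) :
    ∃ (s : Stage S F), ∀ (i : ι) (y : F.obj (S i)), ∃ c : S i ⟶ s.A, F.res c s.x = y := by
  let K : Type := Σ i : ι, Shrink.{0} (F.obj (S i))
  obtain ⟨x, hx⟩ := F.exists_sigma (fun k : K => S k.1) (fun k => (equivShrink _).symm k.2)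
  refine ⟨⟨_, (inLoc_localizing S).coprod (fun k : K => S k.1) (fun k => inLoc_self S k.1), x⟩,
    fun i y => ⟨Sigma.ι (fun k : K => S k.1) ⟨i, equivShrink _ y⟩, ?_⟩⟩
  have := hx ⟨i, equivShrink _ y⟩
  rw [this]
  simp

lemma exists_stage_succ (s : Stage S F) :
    ∃ (t : Stage S F) (τ : s.A ⟶ t.A), F.res τ t.x = s.x ∧
      ∀ (i : ι) (f : S i ⟶ s.A), F.res f s.x = 0 → f ≫ τ = 0 := by
  let K : Type := Σ i : ι, Shrink.{0} {f : S i ⟶ s.A // F.res f s.x = 0}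
  let p : (∐ fun k : K => S k.1) ⟶ s.A := Sigma.desc (fun k => ((equivShrink _).symm k.2).1)
  obtain ⟨Z, τ, δ, D⟩ := exists_cone p
  have hp : F.res p s.x = 0 := by
    refine F.sigma_ext _ (fun k => ?_)
    rw [F.res_zero, ← F.res_comp, Sigma.ι_desc]
    exact ((equivShrink _).symm k.2).2
  obtain ⟨z, hz⟩ := F.exact D s.x hp
  refine ⟨⟨Z, (inLoc_localizing S).cone D
    ((inLoc_localizing S).coprod (fun k : K => S k.1) (fun k => inLoc_self S k.1)) s.hA, z⟩,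
    τ, hz, fun i f hf => ?_⟩
  have h1 : Sigma.ι (fun k : K => S k.1) ⟨i, equivShrink _ ⟨f, hf⟩⟩ ≫ p = f := by
    simp [p]
  show f ≫ τ = 0
  rw [← h1, assoc, D.zero₁₂, comp_zero]

/-- The Brown tower. -/
structure Tower where
  A : ℕ → C
  hA : ∀ k, InLoc S (A k)
  x : ∀ k, F.obj (A k)
  τ : ∀ k, A k ⟶ A (k + 1)
  res_τ : ∀ k, F.res (τ k) (x (k + 1)) = x k
  kill : ∀ (k : ℕ) (i : ι) (f : S i ⟶ A k), F.res f (x k) = 0 → f ≫ τ k = 0
  c : ∀ (i : ι) (_ : F.obj (S i)), S i ⟶ A 0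
  res_c : ∀ (i : ι) (y : F.obj (S i)), F.res (c i y) (x 0) = y

lemma exists_tower (hF : ∀ i, Small.{0} (F.obj (S i))) : Nonempty (Tower S F) := by
  obtain ⟨s₀, h₀⟩ := exists_stage_zero S F hF
  choose next τ res_τ kill using exists_stage_succ S F
  choose c hc using h₀
  let s : ℕ → Stage S F := fun k => Nat.rec s₀ (fun _ t => next t) k
  exact ⟨{
    A := fun k => (s k).A
    hA := fun k => (s k).hA
    x := fun k => (s k).x
    τ := fun k => τ (s k)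
    res_τ := fun k => res_τ (s k)
    kill := fun k => kill (s k)
    c := c
    res_c := hc }⟩

end tower

namespace Tower

variable {ι : Type} {S : ι → C} {F : Coh.{w} C} (t : Tower S F)

/-- `1 - shift` on the coproduct of the tower. -/
noncomputable def φ : (∐ t.A) ⟶ ∐ t.A :=
  Sigma.desc (fun k => Sigma.ι t.A k - t.τ k ≫ Sigma.ι t.A (k + 1))

lemma ι_φ (k : ℕ) :
    Sigma.ι t.A k ≫ t.φ = Sigma.ι t.A k - t.τ k ≫ Sigma.ι t.A (k + 1) := by
  simp [φ]

lemma exists_X : ∃ X : F.obj (∐ t.A), (∀ k, F.res (Sigma.ι t.A k) X = t.x k) ∧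
    F.res t.φ X = 0 := by
  obtain ⟨X, hX⟩ := F.exists_sigma t.A t.x
  refine ⟨X, hX, F.sigma_ext _ (fun k => ?_)⟩
  rw [F.res_zero, ← F.res_comp, ι_φ, F.sub_res, F.res_comp, hX, hX, t.res_τ, sub_self]

/-- the canonical lift of an element of `F (S i)` to the `j`-th stage -/
def σ (i : ι) (y : F.obj (S i)) : ∀ j, S i ⟶ t.A j
  | 0 => t.c i y
  | j + 1 => σ i y j ≫ t.τ j

lemma σ_succ (i : ι) (y : F.obj (S i)) (j : ℕ) : t.σ i y (j + 1) = t.σ i y j ≫ t.τ j := rfl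

lemma res_σ (i : ι) (y : F.obj (S i)) (j : ℕ) : F.res (t.σ i y j) (t.x j) = y := by
  induction j with
  | zero => exact t.res_c i y
  | succ j ih => rw [σ_succ, F.res_comp, t.res_τ, ih]

lemma comp_τ {i : ι} {k : ℕ} (f : S i ⟶ t.A k) :
    f ≫ t.τ k = t.σ i (F.res f (t.x k)) (k + 1) := by
  rw [σ_succ, ← sub_eq_zero, ← Preadditive.sub_comp]
  exact t.kill k i _ (by rw [F.sub_res, res_σ, sub_self])

lemma comp_σ {i i' : ι} (a : S i' ⟶ S i) (y : F.obj (S i)) (j : ℕ) :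
    a ≫ t.σ i y (j + 1) = t.σ i' (F.res a y) (j + 1) := by
  rw [σ_succ, ← assoc, comp_τ, F.res_comp, res_σ]

lemma sum_φ {Z : C} (s : ∀ j, Z ⟶ t.A j) (hs : ∀ j, s (j + 1) = s j ≫ t.τ j) (n : ℕ) :
    (∑ j ∈ Finset.range n, s j ≫ Sigma.ι t.A j) ≫ t.φ =
      s 0 ≫ Sigma.ι t.A 0 - s n ≫ Sigma.ι t.A n := by
  induction n with
  | zero => simp
  | succ n ih =>
    rw [Finset.sum_range_succ, Preadditive.add_comp, ih, assoc, ι_φ, Preadditive.comp_sub, hs,
      assoc]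
    abel

lemma lift_φ {A : C → Prop} (hperf : Perfect A S) (hA : ∀ k, A (t.A k))
    {X : F.obj (∐ t.A)} (hX : ∀ k, F.res (Sigma.ι t.A k) X = t.x k) {i : ι}
    (g : S i ⟶ ∐ t.A) (hg : F.res g X = 0) : ∃ g' : S i ⟶ ∐ t.A, g' ≫ t.φ = g := by
  obtain ⟨e, u, h, hh⟩ := hperf i t.A hA g
  let y : ∀ k, F.obj (S (e k)) := fun k => F.res (u k) (t.x k)
  let θ : ∀ k, S (e k) ⟶ ∐ t.A := fun k =>
    ∑ j ∈ Finset.range (k + 1), t.σ (e k) (y k) j ≫ Sigma.ι t.A j
  have hθ : ∀ k, u k ≫ Sigma.ι t.A k =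
      (u k ≫ Sigma.ι t.A k - θ k) ≫ t.φ + t.σ (e k) (y k) 0 ≫ Sigma.ι t.A 0 := by
    intro k
    rw [Preadditive.sub_comp, t.sum_φ _ (fun j => rfl), assoc, ι_φ, Preadditive.comp_sub,
      ← assoc _ (t.τ k), comp_τ]
    abel
  have key : Limits.Sigma.map u = Sigma.desc (fun k => u k ≫ Sigma.ι t.A k - θ k) ≫ t.φ +
      Sigma.desc (fun k => t.σ (e k) (y k) 0) ≫ Sigma.ι t.A 0 := by
    refine Limits.Sigma.hom_ext _ _ (fun k => ?_)
    rw [Sigma.ι_map, Preadditive.comp_add, ← assoc, ← assoc, Sigma.ι_desc, Sigma.ι_desc]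
    exact hθ k
  let q : S i ⟶ t.A 0 := h ≫ Sigma.desc (fun k => t.σ (e k) (y k) 0)
  have hq : F.res q (t.x 0) = 0 := by
    rw [← hg, ← hh, F.res_comp, F.res_comp]
    congr 1
    refine F.sigma_ext _ (fun k => ?_)
    rw [← F.res_comp, ← F.res_comp, Sigma.ι_desc, Sigma.ι_map, F.res_comp, hX, res_σ]
  have hq' := t.kill 0 i q hq
  refine ⟨h ≫ Sigma.desc (fun k => u k ≫ Sigma.ι t.A k - θ k) + q ≫ Sigma.ι t.A 0, ?_⟩
  have h0 : (q ≫ Sigma.ι t.A 0) ≫ t.φ = q ≫ Sigma.ι t.A 0 := by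
    rw [assoc, ι_φ, Preadditive.comp_sub, ← assoc _ (t.τ 0), hq', zero_comp, sub_zero]
  rw [Preadditive.add_comp, h0, ← hh, key, Preadditive.comp_add]
  simp only [q, assoc]

lemma φ_inj {A : C → Prop} (hloc : Localizing A) (hS : ∀ i, A (S i)) (hperf : Perfect A S)
    (hA : ∀ k, A (t.A k)) {i : ι} (g : S i ⟶ ∐ t.A) (hg : g ≫ t.φ = 0) : g = 0 := by
  obtain ⟨e, u, h, hh⟩ := hperf i t.A hA g
  let y : ∀ k, F.obj (S (e k)) := fun k => F.res (u k) (t.x k)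
  let r : ℕ → C := fun k => match k with
    | 0 => 0
    | m + 1 => S (e m)
  let u' : ∀ k, r k ⟶ t.A k := fun k => match k with
    | 0 => 0
    | m + 1 => u m ≫ t.τ m
  have hr : ∀ k, A (r k) := fun k => match k with
    | 0 => hloc.isZero (isZero_zero C)
    | m + 1 => hS (e m)
  let V : C := ∐ fun k => S (e k)
  let ι' : ∀ k, r k ⟶ V := fun k => match k with
    | 0 => 0
    | m + 1 => Sigma.ι (fun k => S (e k)) m
  let s : ℕ → C := fun l => S (e l) ⊞ r l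
  let v : ∀ l, s l ⟶ t.A l := fun l => biprod.desc (u l) (-(u' l))
  have hs : ∀ l, A (s l) := fun l => hloc.biprod (hS _) (hr l)
  let inr' : ∀ k, S (e k) ⟶ s (k + 1) := fun k => (biprod.inr : r (k + 1) ⟶ s (k + 1))
  let H : V ⟶ ∐ s := Sigma.desc (fun k => (biprod.inl : S (e k) ⟶ s k) ≫ Sigma.ι s k +
    inr' k ≫ Sigma.ι s (k + 1))
  have hHv : H ≫ Limits.Sigma.map v = Limits.Sigma.map u ≫ t.φ := by
    refine Limits.Sigma.hom_ext _ _ (fun k => ?_)
    rw [← assoc, Sigma.ι_desc, Preadditive.add_comp, assoc, assoc, Sigma.ι_map, Sigma.ι_map,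
      ← assoc, ← assoc, Sigma.ι_map_assoc, ι_φ, Preadditive.comp_sub]
    have h1 : (biprod.inl : S (e k) ⟶ s k) ≫ v k = u k := biprod.inl_desc _ _
    have h2 : inr' k ≫ v (k + 1) = -(u k ≫ t.τ k) := biprod.inr_desc _ _
    rw [h1, h2, Preadditive.neg_comp, assoc, sub_eq_add_neg]
  have hz : (h ≫ H) ≫ Limits.Sigma.map v = 0 := by
    rw [assoc, hHv, ← assoc, hh, hg]
  have hfib : ∀ l, ∃ (Q : C) (m : Q ⟶ s l) (δ : t.A l ⟶ Q⟦(1 : ℤ)⟧), Dist m (v l) δ :=
    fun l => exists_fibre (v l)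
  choose Q m δ D using hfib
  have hQ : ∀ l, A (Q l) := fun l => hloc.fibre (D l) (hs l) (hA l)
  obtain ⟨b, hb⟩ := (Dist.coprod D).lift₂ (h ≫ H) hz
  obtain ⟨e', n, h', hh'⟩ := hperf i Q hQ b
  let a₁ : ∀ l, S (e' l) ⟶ S (e l) := fun l => n l ≫ m l ≫ (biprod.fst : s l ⟶ S (e l))
  let a₂ : ∀ l, S (e' l) ⟶ r l := fun l => n l ≫ m l ≫ (biprod.snd : s l ⟶ r l)
  have ha : ∀ l, a₁ l ≫ u l = a₂ l ≫ u' l := by
    intro l
    have h1 : m l ≫ v l = 0 := (D l).zero₁₂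
    have h2 : v l = biprod.fst ≫ u l - biprod.snd ≫ u' l := by
      apply biprod.hom_ext'
      · simp [v]
      · simp [v]
    rw [h2, Preadditive.comp_sub, sub_eq_zero] at h1
    simp only [a₁, a₂, assoc]
    rw [h1]
  let pr₁ : (∐ s) ⟶ V := Limits.Sigma.map (fun l => (biprod.fst : s l ⟶ S (e l)))
  let pr₂ : (∐ s) ⟶ V := Sigma.desc (fun l => (biprod.snd : s l ⟶ r l) ≫ ι' l)
  have hH₁ : H ≫ pr₁ = 𝟙 V := by
    refine Limits.Sigma.hom_ext _ _ (fun k => ?_)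
    rw [← assoc, Sigma.ι_desc, Preadditive.add_comp, assoc, assoc, Sigma.ι_map, Sigma.ι_map,
      ← assoc, ← assoc, comp_id]
    have h1 : (biprod.inl : S (e k) ⟶ s k) ≫ (biprod.fst : s k ⟶ S (e k)) = 𝟙 _ :=
      biprod.inl_fst
    have h2 : inr' k ≫ (biprod.fst : s (k + 1) ⟶ S (e (k + 1))) = 0 := biprod.inr_fst
    rw [h1, h2, id_comp, zero_comp, add_zero]
  have hH₂ : H ≫ pr₂ = 𝟙 V := by
    refine Limits.Sigma.hom_ext _ _ (fun k => ?_)
    rw [← assoc, Sigma.ι_desc, Preadditive.add_comp, assoc, assoc, Sigma.ι_desc, Sigma.ι_desc,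
      ← assoc, ← assoc, comp_id]
    have h1 : (biprod.inl : S (e k) ⟶ s k) ≫ (biprod.snd : s k ⟶ r k) = 0 :=
      biprod.inl_snd
    have h2 : inr' k ≫ (biprod.snd : s (k + 1) ⟶ r (k + 1)) = 𝟙 _ := biprod.inr_snd
    rw [h1, h2, zero_comp, zero_add]
    exact id_comp _
  have e₁ : h = h' ≫ Sigma.desc (fun l => a₁ l ≫ Sigma.ι (fun k => S (e k)) l) := by
    calc h = (h ≫ H) ≫ pr₁ := by rw [assoc, hH₁, comp_id]
      _ = h' ≫ Limits.Sigma.map n ≫ Limits.Sigma.map m ≫ pr₁ := by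
          rw [← hb, ← hh', assoc, assoc]
      _ = _ := by
          congr 1
          refine Limits.Sigma.hom_ext _ _ (fun l => ?_)
          simp [pr₁, a₁]
  have e₂ : h = h' ≫ Sigma.desc (fun l => a₂ l ≫ ι' l) := by
    calc h = (h ≫ H) ≫ pr₂ := by rw [assoc, hH₂, comp_id]
      _ = h' ≫ Limits.Sigma.map n ≫ Limits.Sigma.map m ≫ pr₂ := by
          rw [← hb, ← hh', assoc, assoc]
      _ = _ := by
          congr 1
          refine Limits.Sigma.hom_ext _ _ (fun l => ?_)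
          simp [pr₂, a₂]
  -- the elements `z l`
  let z : ∀ l, F.obj (S (e' l)) := fun l => F.res (a₁ l) (y l)
  have hz₂ : ∀ l, z (l + 1) = F.res (a₂ (l + 1) : S (e' (l + 1)) ⟶ S (e l)) (y l) := by
    intro l
    have h1 : a₁ (l + 1) ≫ u (l + 1) = (a₂ (l + 1) : S (e' (l + 1)) ⟶ S (e l)) ≫ u l ≫ t.τ l :=
      ha (l + 1)
    calc z (l + 1) = F.res (a₁ (l + 1) ≫ u (l + 1)) (t.x (l + 1)) := (F.res_comp _ _ _).symm
      _ = F.res ((a₂ (l + 1) : S (e' (l + 1)) ⟶ S (e l)) ≫ u l ≫ t.τ l) (t.x (l + 1)) := by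
          rw [h1]
      _ = F.res (a₂ (l + 1) : S (e' (l + 1)) ⟶ S (e l)) (F.res (u l)
            (F.res (t.τ l) (t.x (l + 1)))) :=
          (F.res_comp _ _ _).trans (congrArg _ (F.res_comp _ _ _))
      _ = _ := by rw [t.res_τ]
  let θ : ∀ k, S (e k) ⟶ ∐ t.A := fun k =>
    ∑ j ∈ Finset.range k, t.σ (e k) (y k) (j + 1) ≫ Sigma.ι t.A (j + 1)
  let W : ∀ l, S (e' l) ⟶ ∐ t.A := fun l => match l with
    | 0 => 0
    | m + 1 => t.σ (e' (m + 1)) (z (m + 1)) (m + 1) ≫ Sigma.ι t.A (m + 1)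
  have hW : h' ≫ Sigma.desc W = 0 := by
    have q₁ : h ≫ Sigma.desc θ = h' ≫ Sigma.desc (fun l =>
        ∑ j ∈ Finset.range l, t.σ (e' l) (z l) (j + 1) ≫ Sigma.ι t.A (j + 1)) := by
      rw [e₁, assoc]
      congr 1
      refine Limits.Sigma.hom_ext _ _ (fun l => ?_)
      rw [Sigma.ι_desc, ← assoc, Sigma.ι_desc, assoc, Sigma.ι_desc, Preadditive.comp_sum]
      refine Finset.sum_congr rfl (fun j _ => ?_)
      rw [← assoc, comp_σ]
    have q₂ : h ≫ Sigma.desc θ = h' ≫ Sigma.desc (fun l =>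
        ∑ j ∈ Finset.range (l - 1), t.σ (e' l) (z l) (j + 1) ≫ Sigma.ι t.A (j + 1)) := by
      rw [e₂, assoc]
      congr 1
      refine Limits.Sigma.hom_ext _ _ (fun l => ?_)
      rw [Sigma.ι_desc, ← assoc, Sigma.ι_desc, assoc]
      cases l with
      | zero => simp [ι']
      | succ l =>
        have : ι' (l + 1) ≫ Sigma.desc θ = θ l := Sigma.ι_desc _ _
        rw [this]
        show (a₂ (l + 1) : S (e' (l + 1)) ⟶ S (e l)) ≫ θ l = _
        rw [Preadditive.comp_sum]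
        refine Finset.sum_congr (by simp) (fun j _ => ?_)
        rw [← assoc, comp_σ, hz₂]
    have q₃ : Sigma.desc W = Sigma.desc (fun l =>
        ∑ j ∈ Finset.range l, t.σ (e' l) (z l) (j + 1) ≫ Sigma.ι t.A (j + 1)) -
        Sigma.desc (fun l =>
        ∑ j ∈ Finset.range (l - 1), t.σ (e' l) (z l) (j + 1) ≫ Sigma.ι t.A (j + 1)) := by
      refine Limits.Sigma.hom_ext _ _ (fun l => ?_)
      rw [Preadditive.comp_sub, Sigma.ι_desc, Sigma.ι_desc, Sigma.ι_desc]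
      cases l with
      | zero => simp [W]
      | succ l => simp [W, Finset.sum_range_succ]
    rw [q₃, Preadditive.comp_sub, ← q₁, ← q₂, sub_self]
  -- the map `g`
  have g₁ : g = h ≫ Sigma.desc (fun k => t.σ (e k) (y k) (k + 1) ≫ Sigma.ι t.A (k + 1)) := by
    have : Limits.Sigma.map u ≫ t.φ = Limits.Sigma.map u -
        Sigma.desc (fun k => t.σ (e k) (y k) (k + 1) ≫ Sigma.ι t.A (k + 1)) := by
      refine Limits.Sigma.hom_ext _ _ (fun k => ?_)
      rw [Sigma.ι_map_assoc, ι_φ, Preadditive.comp_sub, Preadditive.comp_sub, Sigma.ι_map,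
        Sigma.ι_desc, ← assoc, comp_τ]
    rw [← sub_eq_zero]
    nth_rewrite 1 [← hh]
    rw [← Preadditive.comp_sub, ← this, ← assoc, hh, hg]
  rw [g₁, e₂, assoc, ← hW]
  congr 1
  refine Limits.Sigma.hom_ext _ _ (fun l => ?_)
  rw [Sigma.ι_desc, ← assoc, Sigma.ι_desc, assoc]
  cases l with
  | zero => simp [ι', W]
  | succ l =>
    have : ι' (l + 1) ≫ Sigma.desc (fun k => t.σ (e k) (y k) (k + 1) ≫ Sigma.ι t.A (k + 1)) =
      t.σ (e l) (y l) (l + 1) ≫ Sigma.ι t.A (l + 1) := Sigma.ι_desc _ _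
    rw [this]
    show (a₂ (l + 1) : S (e' (l + 1)) ⟶ S (e l)) ≫ _ = _
    rw [← assoc, comp_σ, ← hz₂]

end Tower

section main

variable {ι : Type} {S : ι → C} {F : Coh.{w} C}

/-- `f ↦ f^* y` is a bijection `Hom(X, Y) → F X`. -/
def Bij (F : Coh.{w} C) {Y : C} (y : F.obj Y) (X : C) : Prop :=
  Function.Bijective (fun f : X ⟶ Y => F.res f y)

lemma Bij.inj {Y : C} {y : F.obj Y} {X : C} (h : Bij F y X) {f : X ⟶ Y} (hf : F.res f y = 0) :
    f = 0 := h.1 (by simpa [F.zero_res] using hf)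

lemma Bij.surj {Y : C} {y : F.obj Y} {X : C} (h : Bij F y X) (z : F.obj X) :
    ∃ f : X ⟶ Y, F.res f y = z := h.2 z

lemma Bij.mk' {Y : C} {y : F.obj Y} {X : C} (h₁ : ∀ f : X ⟶ Y, F.res f y = 0 → f = 0)
    (h₂ : ∀ z : F.obj X, ∃ f : X ⟶ Y, F.res f y = z) : Bij F y X := by
  refine ⟨fun f g hfg => ?_, h₂⟩
  rw [← sub_eq_zero]
  refine h₁ _ ?_
  rw [F.sub_res, sub_eq_zero]
  exact hfg

lemma Bij.of_iso {Y : C} {y : F.obj Y} {X X' : C} (h : Bij F y X) (e : X ≅ X') :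
    Bij F y X' := by
  refine Bij.mk' (fun f hf => ?_) (fun z => ?_)
  · have : e.hom ≫ f = 0 := h.inj (by rw [F.res_comp, hf, F.res_zero])
    rw [← cancel_epi e.hom, this, comp_zero]
  · obtain ⟨g, hg⟩ := h.surj (F.res e.hom z)
    exact ⟨e.inv ≫ g, by rw [F.res_comp, hg, ← F.res_comp, e.inv_hom_id, F.res_id]⟩

lemma Tower.exists_hocolim (t : Tower S F) :
    ∃ (Y : C) (q : (∐ t.A) ⟶ Y) (δ : Y ⟶ (∐ t.A)⟦(1 : ℤ)⟧) (y : F.obj Y), Dist t.φ q δ ∧
      InLoc S Y ∧ ∀ k, F.res (Sigma.ι t.A k) (F.res q y) = t.x k := by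
  obtain ⟨X, hX, hX'⟩ := t.exists_X
  obtain ⟨Y, q, δ, D⟩ := exists_cone t.φ
  obtain ⟨y, hy⟩ := F.exact D X hX'
  exact ⟨Y, q, δ, y, D, (inLoc_localizing S).cone D
    ((inLoc_localizing S).coprod _ t.hA) ((inLoc_localizing S).coprod _ t.hA),
    fun k => by rw [hy, hX]⟩

/-- The family is closed under shifts. -/
def ShiftClosed (S : ι → C) : Prop := ∀ (i : ι) (n : ℤ), ∃ j, Nonempty ((S i)⟦n⟧ ≅ S j)

omit [Preadditive C] [HasZeroObject C] [∀ n : ℤ, (shiftFunctor C n).Additive]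
  [Pretriangulated C] [HasCoproducts.{0} C] in
lemma ShiftClosed.pred (hsh : ShiftClosed S) (i : ι) :
    ∃ j, Nonempty ((S j)⟦(1 : ℤ)⟧ ≅ S i) := by
  obtain ⟨j, ⟨e⟩⟩ := hsh i (-1)
  exact ⟨j, ⟨(shiftFunctor C (1 : ℤ)).mapIso e.symm ≪≫
    (shiftFunctorCompIsoId C (-1 : ℤ) 1 (by simp)).app (S i)⟩⟩

lemma exists_rep_S [LocallySmall.{0} C] {A : C → Prop} (hloc : Localizing A)
    (hS : ∀ i, A (S i)) (hperf : Perfect A S) (hsh : ShiftClosed S)
    (hF : ∀ i, Small.{0} (F.obj (S i))) :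
    ∃ (Y : C) (y : F.obj Y), InLoc S Y ∧ ∀ i, Bij F y (S i) := by
  obtain ⟨t⟩ := exists_tower S F hF
  obtain ⟨Y, q, δ, y, D, hY, hy⟩ := t.exists_hocolim
  have htA : ∀ k, A (t.A k) := fun k => t.hA k A hloc hS
  refine ⟨Y, y, hY, fun i => Bij.mk' (fun f hf => ?_) (fun z => ?_)⟩
  · -- injectivity
    have h1 : f ≫ δ = 0 := by
      obtain ⟨j, ⟨e⟩⟩ := hsh.pred i
      obtain ⟨p, hp⟩ := (shiftFunctor C (1 : ℤ)).map_surjective (e.hom ≫ f ≫ δ)
      have h2 : p ≫ t.φ = 0 := by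
        apply (shiftFunctor C (1 : ℤ)).map_injective
        rw [Functor.map_comp, hp, Functor.map_zero, assoc, assoc, D.zero₃₁, comp_zero, comp_zero]
      have h3 := t.φ_inj hloc hS hperf htA p h2
      rw [← cancel_epi e.hom, ← hp, h3, Functor.map_zero, comp_zero]
    obtain ⟨g, hg⟩ := D.lift₃ f h1
    obtain ⟨g', hg'⟩ := t.lift_φ hperf htA hy g (by rw [← F.res_comp, hg, hf])
    rw [← hg, ← hg', assoc, D.zero₁₂, comp_zero]
  · refine ⟨t.c i z ≫ Sigma.ι t.A 0 ≫ q, ?_⟩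
    rw [F.res_comp, F.res_comp, hy, t.res_c]

/-- The cohomological functor `Hom(-, B)`. -/
def homCoh (B : C) : Coh.{v} C where
  obj X := X ⟶ B
  res f g := f ≫ g
  res_id := by simp
  res_comp := by simp
  res_add := by simp
  add_res := by simp
  exact D y hy := D.desc₂ y hy
  prod X := by
    refine ⟨fun x y h => Limits.Sigma.hom_ext _ _ (fun i => congrFun h i), fun x => ?_⟩
    exact ⟨Sigma.desc x, funext fun i => Sigma.ι_desc _ _⟩

/-- The localizing subcategory `A` is generated by `S`. -/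
theorem inLoc_of_generator [LocallySmall.{0} C] {A : C → Prop} (hloc : Localizing A)
    (hS : ∀ i, A (S i)) (hperf : Perfect A S) (hsh : ShiftClosed S)
    (hG : ∀ Z, A Z → (∀ i (f : S i ⟶ Z), f = 0) → IsZero Z) {B : C} (hB : A B) :
    InLoc S B := by
  obtain ⟨Y, y, hY, hbij⟩ := exists_rep_S (F := homCoh B) hloc hS hperf hsh
    (fun i => inferInstanceAs (Small.{0} (S i ⟶ B)))
  change Y ⟶ B at y
  obtain ⟨Z, g, δ, D⟩ := exists_cone y
  have hZ : IsZero Z := by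
    refine hG Z (hloc.cone D (hY A hloc hS) hB) (fun i f => ?_)
    have h1 : f ≫ δ = 0 := by
      obtain ⟨j, ⟨e⟩⟩ := hsh.pred i
      obtain ⟨p, hp⟩ := (shiftFunctor C (1 : ℤ)).map_surjective (e.hom ≫ f ≫ δ)
      have h2 : p ≫ y = 0 := by
        apply (shiftFunctor C (1 : ℤ)).map_injective
        rw [Functor.map_comp, hp, Functor.map_zero, assoc, assoc, D.zero₃₁, comp_zero, comp_zero]
      have h3 : p = 0 := (hbij j).inj h2
      rw [← cancel_epi e.hom, ← hp, h3, Functor.map_zero, comp_zero]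
    obtain ⟨a, ha⟩ := D.lift₃ f h1
    obtain ⟨a', ha'⟩ := (hbij i).surj a
    change a' ≫ y = a at ha'
    rw [← ha, ← ha', assoc, D.zero₁₂, comp_zero]
  have : IsIso y := (Triangle.isZero₃_iff_isIso₁ _ D).1 hZ
  exact (inLoc_localizing S).iso (asIso y) hY

/-- Five lemma. -/
lemma Bij.five {Y : C} {y : F.obj Y} {X₁ X₂ X₃ : C} {f : X₁ ⟶ X₂} {g : X₂ ⟶ X₃}
    {h : X₃ ⟶ X₁⟦(1 : ℤ)⟧} (D : Dist f g h) (h₁ : Bij F y X₁) (h₂ : Bij F y X₂)
    (h₁' : Bij F y (X₁⟦(1 : ℤ)⟧)) (h₂' : Bij F y (X₂⟦(1 : ℤ)⟧)) : Bij F y X₃ := by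
  refine Bij.mk' (fun a ha => ?_) (fun z => ?_)
  · have h3 : g ≫ a = 0 := h₂.inj (by rw [F.res_comp, ha, F.res_zero])
    obtain ⟨b, hb⟩ := D.desc₃ a h3
    obtain ⟨w, hw⟩ := F.exact D.rot.rot (F.res b y) (by rw [← F.res_comp, hb, ha])
    obtain ⟨w', hw'⟩ := h₂'.surj w
    have h4 : b = (-f⟦(1 : ℤ)⟧') ≫ w' := by
      rw [← sub_eq_zero]
      apply h₁'.inj
      rw [F.sub_res, F.res_comp, hw', hw, sub_self]
    rw [← hb, h4, Preadditive.neg_comp, Preadditive.comp_neg, ← assoc, D.zero₃₁, zero_comp,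
      neg_zero]
  · obtain ⟨c, hc⟩ := h₂.surj (F.res g z)
    have h3 : f ≫ c = 0 := h₁.inj (by rw [F.res_comp, hc, ← F.res_comp, D.zero₁₂, F.zero_res])
    obtain ⟨a, ha⟩ := D.desc₂ c h3
    obtain ⟨x, hx⟩ := F.exact D.rot (z - F.res a y) (by
      rw [F.res_sub, ← F.res_comp, ha, hc, sub_self])
    obtain ⟨b, hb⟩ := h₁'.surj x
    exact ⟨a + h ≫ b, by rw [F.add_res, F.res_comp, hb, hx]; abel⟩

omit [HasCoproducts.{0} C] in
lemma Dist.exists_shift {X Y Z : C} {f : X ⟶ Y} {g : Y ⟶ Z} {h : Z ⟶ X⟦(1 : ℤ)⟧}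
    (D : Dist f g h) (n : ℤ) :
    ∃ (f' : X⟦n⟧ ⟶ Y⟦n⟧) (g' : Y⟦n⟧ ⟶ Z⟦n⟧) (h' : Z⟦n⟧ ⟶ X⟦n⟧⟦(1 : ℤ)⟧), Dist f' g' h' :=
  ⟨_, _, _, Triangle.shift_distinguished _ D n⟩

lemma Bij.localizing {Y : C} (y : F.obj Y) :
    Localizing (fun X => ∀ n : ℤ, Bij F y (X⟦n⟧)) where
  iso e h n := (h n).of_iso ((shiftFunctor C n).mapIso e)
  shift {X} m h n := (h (m + n)).of_iso ((shiftFunctorAdd C m n).app X)
  cone {X₁ X₂ X₃} f g k D h₁ h₂ n := by
    obtain ⟨f', g', k', D'⟩ := D.exists_shift n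
    exact Bij.five D' (h₁ n) (h₂ n) ((h₁ (n + 1)).of_iso ((shiftFunctorAdd C n 1).app _))
      ((h₂ (n + 1)).of_iso ((shiftFunctorAdd C n 1).app _))
  coprod X h n := by
    have h1 : Bij F y (∐ fun i => (X i)⟦n⟧) := by
      refine Bij.mk' (fun f hf => ?_) (fun z => ?_)
      · refine Limits.Sigma.hom_ext _ _ (fun i => ?_)
        rw [comp_zero]
        exact (h i n).inj (by rw [F.res_comp, hf, F.res_zero])
      · have := fun i => (h i n).surj (F.res (Sigma.ι (fun i => (X i)⟦n⟧) i) z)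
        choose f hf using this
        refine ⟨Sigma.desc f, F.sigma_ext _ (fun i => ?_)⟩
        rw [← F.res_comp, Sigma.ι_desc, hf]
    exact h1.of_iso (PreservesCoproduct.iso (shiftFunctor C n) X).symm

/-- **Brown representability**, perfectly generated localizing subcategories. -/
theorem brown [LocallySmall.{0} C] {A : C → Prop} (hloc : Localizing A)
    (hS : ∀ i, A (S i)) (hperf : Perfect A S) (hsh : ShiftClosed S)
    (hG : ∀ Z, A Z → (∀ i (f : S i ⟶ Z), f = 0) → IsZero Z)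
    (F : Coh.{w} C) (hF : ∀ i, Small.{0} (F.obj (S i))) :
    ∃ (Y : C) (y : F.obj Y), A Y ∧ ∀ B, A B → Bij F y B := by
  obtain ⟨Y, y, hY, hbij⟩ := exists_rep_S (F := F) hloc hS hperf hsh hF
  refine ⟨Y, y, hY A hloc hS, fun B hB => ?_⟩
  have h1 := inLoc_of_generator hloc hS hperf hsh hG hB _ (Bij.localizing y) (fun i n => by
    obtain ⟨j, ⟨e⟩⟩ := hsh i n
    exact (hbij j).of_iso e.symm)
  exact (h1 0).of_iso ((shiftFunctorZero C ℤ).app B)

end main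

end Vale.Agent.P251.H
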