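import Vale.Agent.P251.H.Cof.Defs
import Mathlib.CategoryTheory.Limits.FullSubcategory
import Mathlib.CategoryTheory.Limits.Preserves.Shapes.BinaryProducts
import Mathlib.CategoryTheory.ObjectProperty.ContainsZero
import Mathlib.CategoryTheory.MorphismProperty.Composition

/-!
# P251, part H: full subcategories of cofibration categories

`CofClosed P`: `P : ObjectProperty C` is closed under isomorphisms, zero objects, cylinders and
pushouts along cofibrations.  Then `P.FullSubcategory` is again a cofibration category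
(`CofClosed.cofCat`).
-/

open CategoryTheory Limits ZeroObject

universe v u

namespace Vale.Agent.P251.H

section Zero

variable {C : Type u} [Category.{v} C] [HasBinaryCoproducts C]

/-- A binary coproduct is a pushout of zero maps. -/
theorem isPushout_coprod_of_isZero {Z : C} (hZ : IsZero Z) (X Y : C) (f : Z ⟶ X) (g : Z ⟶ Y) :
    IsPushout f g (coprod.inl : X ⟶ X ⨿ Y) coprod.inr := by
  refine ⟨⟨hZ.eq_of_src _ _⟩, ⟨PushoutCocone.IsColimit.mk _
    (fun s => coprod.desc s.inl s.inr) (fun s => coprod.inl_desc _ _)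
    (fun s => coprod.inr_desc _ _) ?_⟩⟩
  intro s m h1 h2
  apply coprod.hom_ext
  · rw [h1, coprod.inl_desc]
  · rw [h2, coprod.inr_desc]

end Zero

variable {C : Type u} [Category.{v} C] [HasZeroObject C] [HasZeroMorphisms C]
  [HasBinaryCoproducts C] [CofCat C]

/-- Properties of objects of a cofibration category which define a full cofibration
subcategory. -/
class CofClosed (P : ObjectProperty C) : Prop extends P.IsClosedUnderIsomorphisms where
  zero {Z : C} : IsZero Z → P Z
  cyl {X : C} : P X → P (CofCat.Cyl.obj X)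
  pushout {A B X Q : C} {i : A ⟶ B} {f : A ⟶ X} {j : B ⟶ Q} {k : X ⟶ Q} :
    IsPushout i f j k → CofCat.Cof i → P A → P B → P X → P Q

namespace CofClosed

variable (P : ObjectProperty C) [CofClosed P]

instance : P.ContainsZero := ⟨⟨0, isZero_zero C, CofClosed.zero (isZero_zero C)⟩⟩

variable {P}

theorem coprod {X Y : C} (hX : P X) (hY : P Y) : P (X ⨿ Y) :=
  CofClosed.pushout (isPushout_coprod_of_isZero (isZero_zero C) X Y 0 0)
    (CofCat.Cof_zero (isZero_zero C) _) (CofClosed.zero (isZero_zero C)) hX hY

variable (P)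

instance : P.IsClosedUnderColimitsOfShape (Discrete WalkingPair) :=
  ObjectProperty.IsClosedUnderColimitsOfShape.mk' (by
    rintro _ ⟨F, hF⟩
    refine P.prop_of_iso ?_ (CofClosed.coprod (hF ⟨WalkingPair.left⟩) (hF ⟨WalkingPair.right⟩))
    exact (HasColimit.isoOfNatIso (diagramIsoPair F)).symm)

/-- comparison of binary coproducts -/
noncomputable def coprodIso (X Y : P.FullSubcategory) : X.obj ⨿ Y.obj ≅ (X ⨿ Y).obj :=
  PreservesColimitPair.iso P.ι X Y

@[reassoc (attr := simp)]
theorem inl_coprodIso (X Y : P.FullSubcategory) :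
    coprod.inl ≫ (coprodIso P X Y).hom = (coprod.inl : X ⟶ X ⨿ Y).hom := by
  change coprod.inl ≫ coprodComparison P.ι X Y = P.ι.map (coprod.inl : X ⟶ X ⨿ Y)
  exact coprodComparison_inl _

@[reassoc (attr := simp)]
theorem inr_coprodIso (X Y : P.FullSubcategory) :
    coprod.inr ≫ (coprodIso P X Y).hom = (coprod.inr : Y ⟶ X ⨿ Y).hom := by
  change coprod.inr ≫ coprodComparison P.ι X Y = P.ι.map (coprod.inr : Y ⟶ X ⨿ Y)
  exact coprodComparison_inr _

theorem coprodIso_desc {X Y Z : P.FullSubcategory} (f : X ⟶ Z) (g : Y ⟶ Z) :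
    (coprodIso P X Y).hom ≫ (coprod.desc f g).hom = coprod.desc f.hom g.hom := by
  apply coprod.hom_ext
  · rw [inl_coprodIso_assoc, coprod.inl_desc, ← ObjectProperty.FullSubcategory.comp_hom,
      coprod.inl_desc]
  · rw [inr_coprodIso_assoc, coprod.inr_desc, ← ObjectProperty.FullSubcategory.comp_hom,
      coprod.inr_desc]

theorem coprodIso_map {X Y X' Y' : P.FullSubcategory} (f : X ⟶ X') (g : Y ⟶ Y') :
    (coprodIso P X Y).hom ≫ (coprod.map f g).hom =
      coprod.map f.hom g.hom ≫ (coprodIso P X' Y').hom := by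
  apply coprod.hom_ext
  · rw [inl_coprodIso_assoc, ← ObjectProperty.FullSubcategory.comp_hom, coprod.inl_map,
      coprod.inl_map_assoc, inl_coprodIso, ObjectProperty.FullSubcategory.comp_hom]
  · rw [inr_coprodIso_assoc, ← ObjectProperty.FullSubcategory.comp_hom, coprod.inr_map,
      coprod.inr_map_assoc, inr_coprodIso, ObjectProperty.FullSubcategory.comp_hom]

omit [HasZeroObject C] [HasZeroMorphisms C] [HasBinaryCoproducts C] [CofCat C] [CofClosed P] in
/-- A square in the full subcategory which is a pushout in `C` is a pushout. -/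
theorem isPushout_of_hom {A B X Q : P.FullSubcategory} {i : A ⟶ B} {f : A ⟶ X} {j : B ⟶ Q}
    {k : X ⟶ Q} (h : IsPushout i.hom f.hom j.hom k.hom) : IsPushout i f j k :=
  IsPushout.of_map P.ι (P.ι.map_injective (by simpa using h.w)) h

/-- Pushouts along cofibrations in the full subcategory are pushouts in `C`. -/
theorem isPushout_hom {A B X Q : P.FullSubcategory} {i : A ⟶ B} {f : A ⟶ X} {j : B ⟶ Q}
    {k : X ⟶ Q} (h : IsPushout i f j k) (hi : CofCat.Cof i.hom) :
    IsPushout i.hom f.hom j.hom k.hom := by
  have := CofCat.hasPushout i.hom f.hom hi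
  let h' := IsPushout.of_hasPushout i.hom f.hom
  let Q' : P.FullSubcategory := ⟨Limits.pushout i.hom f.hom,
    CofClosed.pushout h' hi A.property B.property X.property⟩
  have h'' : IsPushout i f (ObjectProperty.homMk (pushout.inl i.hom f.hom) : B ⟶ Q')
      (ObjectProperty.homMk (pushout.inr i.hom f.hom) : X ⟶ Q') :=
    isPushout_of_hom P h'
  let e : Q' ≅ Q := h''.isoIsPushout _ _ h
  have e1 := IsPushout.inl_isoIsPushout_hom _ _ h'' h
  have e2 := IsPushout.inr_isoIsPushout_hom _ _ h'' h
  refine IsPushout.of_iso h' (Iso.refl _) (Iso.refl _) (Iso.refl _) (P.ι.mapIso e)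
    (by simp) (by simp) ?_ ?_
  · rw [Iso.refl_hom, Category.id_comp]
    exact congrArg InducedCategory.Hom.hom e1
  · rw [Iso.refl_hom, Category.id_comp]
    exact congrArg InducedCategory.Hom.hom e2

theorem cof_iso_comp {X Y Z : C} (e : X ≅ Y) (f : Y ⟶ Z) :
    CofCat.Cof (e.hom ≫ f) ↔ CofCat.Cof f := by
  constructor
  · intro h
    have := CofCat.Cof_comp _ _ (CofCat.Cof_of_isIso e.inv) h
    rwa [Iso.inv_hom_id_assoc] at this
  · exact CofCat.Cof_comp _ _ (CofCat.Cof_of_isIso e.hom)

/-- A full subcategory of a cofibration category given by a property closed under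
isomorphisms, zero, cylinders and pushouts along cofibrations is a cofibration category. -/
instance cofCat : CofCat P.FullSubcategory where
  W := (CofCat.W : MorphismProperty C).inverseImage P.ι
  Cof := (CofCat.Cof : MorphismProperty C).inverseImage P.ι
  W_of_isIso f _ := CofCat.W_of_isIso f.hom
  Cof_of_isIso f _ := CofCat.Cof_of_isIso f.hom
  W_comp f g hf hg := CofCat.W_comp f.hom g.hom hf hg
  W_of_comp_left f g hf hg := CofCat.W_of_comp_left f.hom g.hom hf hg
  W_of_comp_right f g hf hg := CofCat.W_of_comp_right f.hom g.hom hf hg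
  Cof_comp f g hf hg := CofCat.Cof_comp f.hom g.hom hf hg
  Cof_zero {Z} hZ X f := by
    have hZ' : IsZero Z.obj := by
      have := P.ι.map_isZero hZ
      exact this
    exact CofCat.Cof_zero hZ' f.hom
  hasPushout {A B X} i f hi := by
    have := CofCat.hasPushout i.hom f.hom hi
    let h' := IsPushout.of_hasPushout i.hom f.hom
    let Q' : P.FullSubcategory := ⟨Limits.pushout i.hom f.hom,
      CofClosed.pushout h' hi A.property B.property X.property⟩
    have h'' : IsPushout i f (ObjectProperty.homMk (pushout.inl i.hom f.hom) : B ⟶ Q')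
        (ObjectProperty.homMk (pushout.inr i.hom f.hom) : X ⟶ Q') :=
      isPushout_of_hom P h'
    exact h''.hasPushout
  Cof_pushout h hi := CofCat.Cof_pushout (isPushout_hom P h hi) hi
  W_pushout h hi hi' := CofCat.W_pushout (isPushout_hom P h hi) hi hi'
  Cyl := P.lift (P.ι ⋙ CofCat.Cyl) (fun X => CofClosed.cyl X.property)
  i₀ := { app := fun X => ObjectProperty.homMk (CofCat.i₀.app X.obj)
          naturality := fun X Y f => by
            ext
            exact CofCat.i₀.naturality f.hom }
  i₁ := { app := fun X => ObjectProperty.homMk (CofCat.i₁.app X.obj)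
          naturality := fun X Y f => by
            ext
            exact CofCat.i₁.naturality f.hom }
  π := { app := fun X => ObjectProperty.homMk (CofCat.π.app X.obj)
         naturality := fun X Y f => by
            ext
            exact CofCat.π.naturality f.hom }
  i₀_π X := by
    ext
    exact CofCat.i₀_π X.obj
  i₁_π X := by
    ext
    exact CofCat.i₁_π X.obj
  W_π X := CofCat.W_π X.obj
  Cof_ends X := by
    have h := CofCat.Cof_ends X.obj
    have h1 := coprodIso_desc P
      (ObjectProperty.homMk (CofCat.i₀.app X.obj) : X ⟶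
        (P.lift (P.ι ⋙ CofCat.Cyl) (fun X => CofClosed.cyl X.property)).obj X)
      (ObjectProperty.homMk (CofCat.i₁.app X.obj))
    have h2 : CofCat.Cof ((coprodIso P X X).hom ≫ (coprod.desc
      (ObjectProperty.homMk (CofCat.i₀.app X.obj) : X ⟶
        (P.lift (P.ι ⋙ CofCat.Cyl) (fun X => CofClosed.cyl X.property)).obj X)
      (ObjectProperty.homMk (CofCat.i₁.app X.obj))).hom) := by
      rw [h1]
      exact h
    exact (cof_iso_comp _ _).mp h2
  Cof_pushoutProduct {A B Q} j a b d hj h ha hb := by
    have hends : CofCat.Cof (coprod.desc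
      (ObjectProperty.homMk (CofCat.i₀.app A.obj) : A ⟶
        (P.lift (P.ι ⋙ CofCat.Cyl) (fun X => CofClosed.cyl X.property)).obj A)
      (ObjectProperty.homMk (CofCat.i₁.app A.obj))).hom := by
      have h1 := coprodIso_desc P
        (ObjectProperty.homMk (CofCat.i₀.app A.obj) : A ⟶
          (P.lift (P.ι ⋙ CofCat.Cyl) (fun X => CofClosed.cyl X.property)).obj A)
        (ObjectProperty.homMk (CofCat.i₁.app A.obj))
      refine (cof_iso_comp (coprodIso P A A) _).mp ?_
      rw [h1]
      exact CofCat.Cof_ends A.obj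
    have h3 := (isPushout_hom P h.flip hends).flip
    have h4 : IsPushout (coprod.map j.hom j.hom)
        (coprod.desc (CofCat.i₀.app A.obj) (CofCat.i₁.app A.obj))
        ((coprodIso P B B).hom ≫ a.hom) b.hom := by
      refine IsPushout.of_iso h3 (coprodIso P A A).symm (coprodIso P B B).symm (Iso.refl _)
        (Iso.refl _) ?_ ?_ ?_ ?_
      · rw [Iso.symm_hom, Iso.symm_hom, Iso.eq_inv_comp, ← Category.assoc, coprodIso_map,
          Category.assoc, Iso.hom_inv_id, Category.comp_id]
      · rw [Iso.refl_hom, Category.comp_id, Iso.symm_hom, Iso.eq_inv_comp, coprodIso_desc]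
        rfl
      · simp
      · simp
    refine CofCat.Cof_pushoutProduct j.hom _ b.hom d.hom hj h4 ?_ ?_
    · rw [Category.assoc, ← ObjectProperty.FullSubcategory.comp_hom, ha, coprodIso_desc]
      rfl
    · rw [← ObjectProperty.FullSubcategory.comp_hom, hb]
      rfl

end CofClosed

end Vale.Agent.P251.H
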