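import Vale.Agent.P251.H.LCPushSets
import Mathlib.Topology.Order.Lattice
import Mathlib.Tactic.Linarith
import Mathlib.Tactic.FieldSimp
import Mathlib.Tactic.Ring

/-!
# P251, part H: the square and its three sides

`JJ` is the union of the bottom and the two vertical sides of the unit square.  The pair
`(I × I, JJ)` is a retract of `(JJ × I, JJ × 0)`.  `JJ` is the mapping cylinder of `∂I ⟶ I`.
-/

open CategoryTheory MonoidalCategory Limits Topology OnePoint

namespace Vale.Agent.P251.H.Sq

open Vale.Agent.P251.G Vale.Agent.P251.G.LC

section maps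

theorem app_ofCompact {X Y : LC} [CompactSpace X] (f : X → Y) (hf : Continuous f)
    (x : OnePoint X) : app (ofCompact f hf) x = OnePoint.map f x := rfl

theorem injective_app_ofCompact {X Y : LC} [CompactSpace X] {f : X → Y} (hf : Continuous f)
    (h : Function.Injective f) : Function.Injective (app (ofCompact f hf)) := by
  intro x y hxy
  induction x using OnePoint.rec with
  | infty =>
    induction y using OnePoint.rec with
    | infty => rfl
    | coe y => exact absurd hxy.symm (OnePoint.coe_ne_infty _)
  | coe x =>
    induction y using OnePoint.rec with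
    | infty => exact absurd hxy (OnePoint.coe_ne_infty _)
    | coe y => exact congrArg _ (h (OnePoint.coe_injective hxy))

theorem injective_app_incl (t : unitInterval) (X : LC) : Function.Injective (app (incl t X)) := by
  intro x y hxy
  rw [app_incl, app_incl] at hxy
  induction x using OnePoint.rec with
  | infty =>
    induction y using OnePoint.rec with
    | infty => rfl
    | coe y => exact absurd hxy.symm (OnePoint.coe_ne_infty _)
  | coe x =>
    induction y using OnePoint.rec with
    | infty => exact absurd hxy (OnePoint.coe_ne_infty _)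
    | coe y =>
      have := OnePoint.coe_injective hxy
      exact congrArg _ (congrArg Prod.fst this)

end maps

/-- the bottom and the two vertical sides of the square -/
def jjSet : Set (unitInterval × unitInterval) := {q | q.2 = 0 ∨ q.1 = 0 ∨ q.1 = 1}

theorem isClosed_jjSet : IsClosed jjSet := by
  apply IsClosed.union
  · exact isClosed_eq continuous_snd continuous_const
  · apply IsClosed.union
    · exact isClosed_eq continuous_fst continuous_const
    · exact isClosed_eq continuous_fst continuous_const

instance : CompactSpace jjSet := isCompact_iff_compactSpace.mp isClosed_jjSet.isCompact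

/-- the bottom and the two vertical sides of the square -/
abbrev JJ : LC := LC.of jjSet

/-- the two end points of the interval -/
abbrev dI : LC := LC.of Bool

/-- end points -/
def endPt (b : Bool) : unitInterval := if b then 1 else 0

/-- the inclusion of the two end points -/
def dInc : dI ⟶ II := ofCompact (X := dI) (Y := II) endPt continuous_of_discreteTopology

/-- the bottom -/
def jBot : II ⟶ JJ := ofCompact (X := II) (Y := JJ) (fun s => ⟨(s, 0), Or.inl rfl⟩)
  (by fun_prop)

theorem continuous_endPt : Continuous endPt := continuous_of_discreteTopology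

theorem endPt_mem (b : Bool) : endPt b = 0 ∨ endPt b = 1 := by
  cases b
  · exact Or.inl rfl
  · exact Or.inr rfl

/-- the vertical sides -/
def jSides : dI ⊗ II ⟶ JJ :=
  ofCompact (X := LC.of (Bool × unitInterval)) (Y := JJ)
    (fun p => ⟨(endPt p.1, p.2), Or.inr (endPt_mem p.1)⟩)
    (by
      have := continuous_endPt
      fun_prop)

/-- the inclusion in the square -/
def jQ : JJ ⟶ II ⊗ II :=
  ofCompact (X := JJ) (Y := LC.of (unitInterval × unitInterval)) Subtype.val continuous_subtype_val

theorem jBot_jQ : jBot ≫ jQ = incl 0 II := by
  apply hom_ext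
  intro s
  rfl

theorem jSides_jQ : jSides ≫ jQ = dInc ▷ II := by
  apply tensor_ext
  intro b t
  rw [app_whiskerRight_smash]
  rfl

theorem injective_dInc : Function.Injective (app dInc) := by
  apply injective_app_ofCompact
  intro b c h
  cases b <;> cases c
  · rfl
  · exact absurd (congrArg Subtype.val h) (by simp [endPt])
  · exact absurd (congrArg Subtype.val h) (by simp [endPt])
  · rfl

/-- `JJ` is the mapping cylinder of `∂I ⟶ I` -/
theorem isPushout_JJ : IsPushout dInc (incl 0 dI) jBot jSides := by
  apply isPushout_of_sets
  · apply hom_ext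
    intro b
    rfl
  · rintro ⟨⟨s, t⟩, h⟩
    rcases h with h | h | h
    · right
      refine ⟨(s : OnePoint unitInterval), ?_⟩
      simp only at h
      subst h
      rfl
    · left
      refine ⟨(((false, t) : Bool × unitInterval) : OnePoint (Bool × unitInterval)), ?_⟩
      simp only at h
      subst h
      rfl
    · left
      refine ⟨(((true, t) : Bool × unitInterval) : OnePoint (Bool × unitInterval)), ?_⟩
      simp only at h
      subst h
      rfl
  · refine injective_app_ofCompact (X := LC.of (Bool × unitInterval)) (Y := JJ) _ ?_
    rintro ⟨b, t⟩ ⟨b', t'⟩ h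
    have h1 : endPt b = endPt b' := congrArg (fun q : jjSet => q.1.1) h
    have h2 : t = t' := congrArg (fun q : jjSet => q.1.2) h
    have h3 : b = b' := by
      have : app dInc (b : OnePoint Bool) = app dInc (b' : OnePoint Bool) := by
        change ((endPt b : unitInterval) : OnePoint unitInterval) = endPt b'
        rw [h1]
      exact OnePoint.coe_injective (injective_dInc this)
    rw [h2, h3]
  · intro b b' h
    left
    refine injective_app_ofCompact (X := II) (Y := JJ) (f := fun s => ⟨(s, 0), Or.inl rfl⟩)
      (by fun_prop) ?_ h
    intro x y hxy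
    exact congrArg (fun q : jjSet => q.1.1) hxy
  · intro s p h
    induction s using OnePoint.rec with
    | infty =>
      induction p using OnePoint.rec with
      | infty => exact ⟨∞, rfl, rfl⟩
      | coe p => exact absurd h.symm (OnePoint.coe_ne_infty _)
    | coe s =>
      induction p using OnePoint.rec with
      | infty => exact absurd h (OnePoint.coe_ne_infty _)
      | coe p =>
        obtain ⟨b, t⟩ := p
        have h0 := OnePoint.coe_injective h
        have h1 : s = endPt b := congrArg (fun q : jjSet => q.1.1) h0
        have h2 : (0 : unitInterval) = t := congrArg (fun q : jjSet => q.1.2) h0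
        subst h1 h2
        exact ⟨(b : OnePoint Bool), rfl, rfl⟩

section retract

/-- the radial parameter -/
noncomputable def rad (q : unitInterval × unitInterval) : ℝ :=
  max |2 * (q.1 : ℝ) - 1| (1 - (q.2 : ℝ) / 2)

theorem continuous_rad : Continuous rad := by
  unfold rad
  fun_prop

theorem rad_ge (q : unitInterval × unitInterval) : 1 / 2 ≤ rad q := by
  have := q.2.2.2
  exact le_max_of_le_right (by linarith)

theorem rad_le (q : unitInterval × unitInterval) : rad q ≤ 1 := by
  have h1 := q.1.2.1
  have h2 := q.1.2.2
  have h3 := q.2.2.1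
  refine max_le ?_ (by linarith)
  rw [abs_le]
  constructor <;> linarith

theorem rad_pos (q : unitInterval × unitInterval) : 0 < rad q := by
  have := rad_ge q
  linarith

theorem rad_le_two_sub (q : unitInterval × unitInterval) : rad q ≤ 2 - q.2 := by
  have h1 := rad_le q
  have h2 := q.2.2.2
  linarith

theorem rad_eq_one (q : unitInterval × unitInterval) (h : q ∈ jjSet) : rad q = 1 := by
  apply le_antisymm (rad_le q)
  unfold rad
  rcases h with h | h | h
  · rw [h]
    exact le_max_of_le_right (by simp)
  · rw [h]
    exact le_max_of_le_left (by simp)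
  · rw [h]
    refine le_max_of_le_left ?_
    norm_num

/-- first coordinate of the radial projection -/
noncomputable def proj1 (q : unitInterval × unitInterval) : unitInterval :=
  ⟨1 / 2 + ((q.1 : ℝ) - 1 / 2) / rad q, by
    have h1 : |2 * (q.1 : ℝ) - 1| ≤ rad q := le_max_left _ _
    rw [abs_le] at h1
    have h2 := rad_pos q
    constructor
    · have : -(1 / 2) ≤ ((q.1 : ℝ) - 1 / 2) / rad q := by
        rw [le_div_iff₀ h2]; linarith
      linarith
    · have : ((q.1 : ℝ) - 1 / 2) / rad q ≤ 1 / 2 := by
        rw [div_le_iff₀ h2]; linarith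
      linarith⟩

/-- second coordinate of the radial projection -/
noncomputable def proj2 (q : unitInterval × unitInterval) : unitInterval :=
  ⟨2 - (2 - (q.2 : ℝ)) / rad q, by
    have h1 : 1 - (q.2 : ℝ) / 2 ≤ rad q := le_max_right _ _
    have h2 := rad_pos q
    have h3 := rad_le_two_sub q
    constructor
    · have : (2 - (q.2 : ℝ)) / rad q ≤ 2 := by
        rw [div_le_iff₀ h2]; linarith
      linarith
    · have : 1 ≤ (2 - (q.2 : ℝ)) / rad q := by
        rw [le_div_iff₀ h2]; linarith
      linarith⟩

theorem proj_mem (q : unitInterval × unitInterval) : (proj1 q, proj2 q) ∈ jjSet := by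
  have h2 := rad_pos q
  rcases max_choice |2 * (q.1 : ℝ) - 1| (1 - (q.2 : ℝ) / 2) with h | h
  · right
    have h' : rad q = |2 * (q.1 : ℝ) - 1| := h
    rcases abs_choice (2 * (q.1 : ℝ) - 1) with h3 | h3
    · right
      apply Subtype.ext
      change 1 / 2 + ((q.1 : ℝ) - 1 / 2) / rad q = 1
      rw [h3] at h'
      field_simp
      linarith
    · left
      apply Subtype.ext
      change 1 / 2 + ((q.1 : ℝ) - 1 / 2) / rad q = 0
      rw [h3] at h'
      field_simp
      linarith
  · left
    have h' : rad q = 1 - (q.2 : ℝ) / 2 := h
    apply Subtype.ext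
    change 2 - (2 - (q.2 : ℝ)) / rad q = 0
    field_simp
    linarith

theorem continuous_proj1 : Continuous proj1 := by
  unfold proj1
  apply Continuous.subtype_mk
  have := continuous_rad
  have h0 : ∀ q, rad q ≠ 0 := fun q => (rad_pos q).ne'
  fun_prop (disch := assumption)

theorem continuous_proj2 : Continuous proj2 := by
  unfold proj2
  apply Continuous.subtype_mk
  have := continuous_rad
  have h0 : ∀ q, rad q ≠ 0 := fun q => (rad_pos q).ne'
  fun_prop (disch := assumption)

/-- the retraction of the square on `JJ` -/
noncomputable def qJ : II ⊗ II ⟶ JJ :=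
  ofCompact (X := LC.of (unitInterval × unitInterval)) (Y := JJ)
    (fun q => ⟨(proj1 q, proj2 q), proj_mem q⟩)
    (by
      have := continuous_proj1
      have := continuous_proj2
      fun_prop)

theorem proj_of_mem (q : unitInterval × unitInterval) (h : q ∈ jjSet) :
    (proj1 q, proj2 q) = q := by
  have h1 := rad_eq_one q h
  apply Prod.ext
  · apply Subtype.ext
    change 1 / 2 + ((q.1 : ℝ) - 1 / 2) / rad q = q.1
    rw [h1]; ring
  · apply Subtype.ext
    change 2 - (2 - (q.2 : ℝ)) / rad q = q.2
    rw [h1]; ring

theorem jQ_qJ : jQ ≫ qJ = 𝟙 JJ := by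
  apply hom_ext
  rintro ⟨q, hq⟩
  exact congrArg (fun x : jjSet => (x : OnePoint jjSet)) (Subtype.ext (proj_of_mem q hq))

/-- the height of a point in the square over `JJ` -/
noncomputable def height (q : unitInterval × unitInterval) : unitInterval :=
  ⟨1 - rad q, by have := rad_le q; have := rad_pos q; constructor <;> linarith⟩

theorem continuous_height : Continuous height := by
  unfold height
  have := continuous_rad
  fun_prop

/-- the map from the square to `JJ × I` -/
noncomputable def sqA : II ⊗ II ⟶ JJ ⊗ II :=
  ofCompact (X := LC.of (unitInterval × unitInterval)) (Y := LC.of (jjSet × unitInterval))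
    (fun q => (⟨(proj1 q, proj2 q), proj_mem q⟩, height q))
    (by
      have := continuous_proj1
      have := continuous_proj2
      have := continuous_height
      fun_prop)

/-- first coordinate of the map back -/
noncomputable def back1 (p : jjSet × unitInterval) : unitInterval :=
  ⟨1 / 2 + (1 - (p.2 : ℝ)) * ((p.1.1.1 : ℝ) - 1 / 2), by
    have h1 := p.2.2.1
    have h2 := p.2.2.2
    have h3 := p.1.1.1.2.1
    have h4 := p.1.1.1.2.2
    constructor <;> nlinarith⟩

/-- second coordinate of the map back -/
noncomputable def back2 (p : jjSet × unitInterval) : unitInterval :=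
  ⟨min 1 (2 - (1 - (p.2 : ℝ)) * (2 - (p.1.1.2 : ℝ))), by
    have h1 := p.2.2.1
    have h2 := p.2.2.2
    have h3 := p.1.1.2.2.1
    have h4 := p.1.1.2.2.2
    constructor
    · apply le_min (by norm_num)
      nlinarith
    · exact min_le_left _ _⟩

theorem continuous_back1 : Continuous back1 := by
  unfold back1
  fun_prop

theorem continuous_back2 : Continuous back2 := by
  unfold back2
  fun_prop

/-- the map from `JJ × I` to the square -/
noncomputable def sqB : JJ ⊗ II ⟶ II ⊗ II :=
  ofCompact (X := LC.of (jjSet × unitInterval)) (Y := LC.of (unitInterval × unitInterval))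
    (fun p => (back1 p, back2 p))
    (by
      have := continuous_back1
      have := continuous_back2
      fun_prop)

theorem sqA_sqB : sqA ≫ sqB = 𝟙 (II ⊗ II) := by
  apply hom_ext
  intro q
  change (((_, _) : unitInterval × unitInterval) : OnePoint (unitInterval × unitInterval)) = _
  refine congrArg _ ?_
  have h2 := rad_pos q
  have h2' := h2.ne'
  apply Prod.ext
  · apply Subtype.ext
    change 1 / 2 + (1 - (1 - rad q)) * ((1 / 2 + ((q.1 : ℝ) - 1 / 2) / rad q) - 1 / 2) = q.1
    field_simp
    ring
  · apply Subtype.ext
    change min 1 (2 - (1 - (1 - rad q)) * (2 - (2 - (2 - (q.2 : ℝ)) / rad q))) = q.2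
    have : 2 - (1 - (1 - rad q)) * (2 - (2 - (2 - (q.2 : ℝ)) / rad q)) = q.2 := by
      field_simp
      ring
    rw [this]
    exact min_eq_right q.2.2.2

theorem jQ_sqA : jQ ≫ sqA = incl 0 JJ := by
  apply hom_ext
  rintro ⟨q, hq⟩
  rw [app_incl]
  change (((_, _) : jjSet × unitInterval) : OnePoint (jjSet × unitInterval)) =
    (((_, _) : jjSet × unitInterval) : OnePoint (jjSet × unitInterval))
  refine congrArg _ (Prod.ext (Subtype.ext (proj_of_mem q hq)) ?_)
  apply Subtype.ext
  change 1 - rad q = 0
  rw [rad_eq_one q hq]
  ring

theorem incl_sqB : incl 0 JJ ≫ sqB = jQ := by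
  apply hom_ext
  rintro ⟨q, hq⟩
  change (((_, _) : unitInterval × unitInterval) : OnePoint (unitInterval × unitInterval)) =
    (q : OnePoint (unitInterval × unitInterval))
  refine congrArg _ (Prod.ext ?_ ?_)
  · apply Subtype.ext
    change 1 / 2 + (1 - (0 : ℝ)) * ((q.1 : ℝ) - 1 / 2) = q.1
    ring
  · apply Subtype.ext
    change min 1 (2 - (1 - (0 : ℝ)) * (2 - (q.2 : ℝ))) = q.2
    have : 2 - (1 - (0 : ℝ)) * (2 - (q.2 : ℝ)) = q.2 := by ring
    rw [this]
    exact min_eq_right q.2.2.2

end retract

end Vale.Agent.P251.H.Sq
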