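import Vale.Agent.P251.H.HCof
import Vale.Agent.P251.H.Square
import Mathlib.CategoryTheory.Limits.Preserves.Shapes.BinaryProducts

/-!
# P251, part H: cylinders and pushout products of h-cofibrations

* `Ext.pushoutProduct`: associativity of pushout products in terms of `Ext`.
* `hCof_ends`: `X ⨿ X ⟶ X ⊗ I` is an h-cofibration.
* `hCof_pushoutProduct`: `B ∪_A Cyl A ∪_A B ⟶ Cyl B` is an h-cofibration if `A ⟶ B` is.
-/

open CategoryTheory MonoidalCategory Limits

namespace Vale.Agent.P251.H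

open Vale.Agent.P251.G Vale.Agent.P251.G.LC Sq

universe v u

section

variable {M : Type u} [Category.{v} M] [MonoidalCategory M] [SymmetricCategory M]
    [MonoidalClosed M]

/-- `i □ (x □ y)` split implies `(i □ x) □ y` split -/
theorem Ext.pushoutProduct {A B a b c d W P : M} {i : A ⟶ B} {x : a ⟶ b} {y : c ⟶ d}
    {u : b ⊗ c ⟶ W} {v : a ⊗ d ⟶ W} {w : W ⟶ b ⊗ d} (hW : IsPushout (x ▷ c) (a ◁ y) u v)
    (hu : u ≫ w = b ◁ y) (hv : v ≫ w = x ▷ d)
    {p : B ⊗ a ⟶ P} {q : A ⊗ b ⟶ P} {e : P ⟶ B ⊗ b} (hP : IsPushout (i ▷ a) (A ◁ x) p q)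
    (hp : p ≫ e = B ◁ x) (hq : q ≫ e = i ▷ b) (h : Ext i w) : Ext e y := by
  intro Z f H hc
  have hBW := isPushout_whiskerLeft B hW
  have hAW := isPushout_whiskerLeft A hW
  have hPd := isPushout_whiskerRight d hP
  have hPc := isPushout_whiskerRight c hP
  -- the map on `B ⊗ W`
  have c1 : B ◁ x ▷ c ≫ (α_ B b c).inv ≫ f = B ◁ a ◁ y ≫ (α_ B a d).inv ≫ p ▷ d ≫ H := by
    rw [associator_inv_naturality_middle_assoc, ← hp, comp_whiskerRight_assoc, hc,
      associator_inv_naturality_right_assoc, whisker_exchange_assoc]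
  obtain ⟨G, h1, h2⟩ := h Z (hBW.desc _ _ c1) ((α_ A b d).inv ≫ q ▷ d ≫ H) (by
    apply hAW.hom_ext
    · rw [whisker_exchange_assoc, hBW.inl_desc, ← MonoidalCategory.whiskerLeft_comp_assoc, hu,
        associator_inv_naturality_left_assoc, ← hq, comp_whiskerRight_assoc, hc,
        associator_inv_naturality_right_assoc, whisker_exchange_assoc]
    · rw [whisker_exchange_assoc, hBW.inr_desc, ← MonoidalCategory.whiskerLeft_comp_assoc, hv,
        associator_inv_naturality_left_assoc, associator_inv_naturality_middle_assoc,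
        ← comp_whiskerRight_assoc, ← comp_whiskerRight_assoc, hP.w])
  refine ⟨(α_ B b d).hom ≫ G, ?_, ?_⟩
  · rw [associator_naturality_right_assoc, ← hu, MonoidalCategory.whiskerLeft_comp_assoc, h1,
      hBW.inl_desc]
    simp
  · apply hPd.hom_ext
    · rw [← comp_whiskerRight_assoc, hp, associator_naturality_middle_assoc, ← hv,
        MonoidalCategory.whiskerLeft_comp_assoc, h1, hBW.inr_desc]
      simp
    · rw [← comp_whiskerRight_assoc, hq, associator_naturality_left_assoc, h2]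
      simp

omit [MonoidalClosed M] [SymmetricCategory M] in
/-- if `x □ y` is a split mono then `Ext x y` -/
theorem Ext.of_split {a b c d W : M} {x : a ⟶ b} {y : c ⟶ d}
    {u : b ⊗ c ⟶ W} {v : a ⊗ d ⟶ W} {w : W ⟶ b ⊗ d} (hW : IsPushout (x ▷ c) (a ◁ y) u v)
    (hu : u ≫ w = b ◁ y) (hv : v ≫ w = x ▷ d) {r : b ⊗ d ⟶ W} (hr : w ≫ r = 𝟙 W) : Ext x y := by
  intro Z f H hc
  refine ⟨r ≫ hW.desc f H hc, ?_, ?_⟩
  · rw [← hu, Category.assoc, reassoc_of% hr, hW.inl_desc]
  · rw [← hv, Category.assoc, reassoc_of% hr, hW.inr_desc]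

end

namespace StabInput

variable {M : Type u} [Category.{v} M] [MonoidalCategory M] [SymmetricCategory M]
    [MonoidalClosed M] [HasZeroMorphisms M] [HasColimitsOfSize.{0, 0} M] [StabInput M]

open Functor.LaxMonoidal Functor.OplaxMonoidal

theorem inc_mu (t : unitInterval) (X : LC) :
    inc t ((J M).obj X) ≫ μ (J M) X II = (J M).map (incl t X) := by
  rw [inc_def, incl, Category.assoc, MonoidalCategory.whiskerLeft_comp, Category.assoc,
    μ_natural_right, right_unitality_inv_assoc, ← Functor.map_comp]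

theorem map_incl_delta (t : unitInterval) (X : LC) :
    (J M).map (incl t X) ≫ δ (J M) X II = inc t ((J M).obj X) := by
  rw [← inc_mu, Category.assoc, Functor.Monoidal.μ_δ]
  simp

/-- The mapping cylinder of an injective map of spaces, as a pushout product with `0 ⟶ I` -/
theorem isPushout_cyl {A B W : LC} {x : A ⟶ B} {g : B ⟶ W} {k : A ⊗ II ⟶ W}
    (h : IsPushout x (incl 0 A) g k) (hx : Function.Injective (app x)) :
    IsPushout ((J M).map x ▷ 𝟙_ M) ((J M).obj A ◁ (pt 0 : 𝟙_ M ⟶ I M))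
      ((ρ_ ((J M).obj B)).hom ≫ (J M).map g) (μ (J M) A II ≫ (J M).map k) := by
  refine (pushout x (incl 0 A) g k hx h).of_iso (ρ_ ((J M).obj A)).symm
    (ρ_ ((J M).obj B)).symm (Functor.Monoidal.μIso (J M) A II).symm (Iso.refl _) ?_ ?_ ?_ ?_
  · simp
  · change _ ≫ δ (J M) A II = _
    rw [map_incl_delta]
    rfl
  · simp
  · simp

theorem ext_of_cyl {A B W : LC} {x : A ⟶ B} {g : B ⟶ W} {k : A ⊗ II ⟶ W} {w : W ⟶ B ⊗ II}
    (h : IsPushout x (incl 0 A) g k) (hx : Function.Injective (app x))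
    (hg : g ≫ w = incl 0 B) (hk : k ≫ w = x ▷ II) {r : B ⊗ II ⟶ W} (hr : w ≫ r = 𝟙 W) :
    HCof ((J M).map x) := by
  refine (hCof_iff_ext _).mpr (Ext.of_split (isPushout_cyl h hx)
    (w := (J M).map w ≫ δ (J M) B II) ?_ ?_ (r := μ (J M) B II ≫ (J M).map r) ?_)
  · rw [Category.assoc, ← Functor.map_comp_assoc, hg, map_incl_delta, inc_def,
      Iso.hom_inv_id_assoc]
  · rw [Category.assoc, ← Functor.map_comp_assoc, hk, ← δ_natural_left,
      Functor.Monoidal.μ_δ_assoc]
  · rw [Category.assoc, Functor.Monoidal.δ_μ_assoc, ← Functor.map_comp, hr]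
    simp

/-- `∂I ⟶ I` is an h-cofibration -/
theorem hCof_dInc : HCof ((J M).map dInc) :=
  ext_of_cyl isPushout_JJ injective_dInc jBot_jQ jSides_jQ jQ_qJ

/-- for an h-cofibration `i`, the pushout product with `∂I × I ∪ I × 0 ⟶ I × I` is split -/
theorem HCof.ext_jQ {A B : M} {i : A ⟶ B} (hi : HCof i) :
    Ext i ((J M).map jQ ≫ δ (J M) II II) := by
  have h := hi.ext.whiskerLeft_right ((J M).obj JJ)
  refine h.of_retract (ρ_ _).inv (μ (J M) II II ≫ (J M).map sqA ≫ δ (J M) JJ II) (ρ_ _).hom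
    (μ (J M) JJ II ≫ (J M).map sqB ≫ δ (J M) II II) ?_ ?_ ?_ ?_
  · have e : (J M).map jQ ≫ (J M).map sqA ≫ δ (J M) JJ II = inc 0 ((J M).obj JJ) := by
      rw [← Functor.map_comp_assoc, jQ_sqA, map_incl_delta]
    simp only [Category.assoc, Functor.Monoidal.δ_μ_assoc]
    rw [e, inc_def]
  · rw [← incl_sqB, Functor.map_comp, ← inc_mu, inc_def]
    simp
  · simp
  · simp only [Category.assoc, Functor.Monoidal.δ_μ_assoc]
    rw [← Functor.map_comp_assoc, sqA_sqB]
    simp

section ends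

/-- the end point `b` of the boundary of the interval in `M` -/
abbrev dpt (b : Bool) : 𝟙_ M ⟶ (J M).obj dI :=
  ε (J M) ≫ (J M).map (point (X := dI) b)

theorem point_dInc (b : Bool) : point (X := dI) b ≫ dInc = point (X := II) (endPt b) := by
  apply LC.hom_ext
  intro x
  rfl

theorem isPushout_bool : IsPushout (0 : LC.of Empty ⟶ 𝟙_ LC) (0 : LC.of Empty ⟶ 𝟙_ LC)
    (point (X := dI) false) (point (X := dI) true) := by
  apply isPushout_of_sets
  · apply LC.hom_ext
    intro x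
    exact x.elim
  · intro b
    cases b
    · exact Or.inr ⟨((() : Unit) : OnePoint Unit), rfl⟩
    · exact Or.inl ⟨((() : Unit) : OnePoint Unit), rfl⟩
  · exact injective_app_ofCompact (X := LC.of Unit) (Y := dI) _ (fun _ _ _ => rfl)
  · intro b b' h
    exact Or.inl (injective_app_ofCompact (X := LC.of Unit) (Y := dI) (f := fun _ => false) _
      (fun _ _ _ => rfl) h)
  · intro b c h
    induction b using OnePoint.rec with
    | infty =>
      induction c using OnePoint.rec with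
      | infty => exact ⟨OnePoint.infty, rfl, rfl⟩
      | coe c => exact absurd h.symm (OnePoint.coe_ne_infty _)
    | coe b =>
      induction c using OnePoint.rec with
      | infty => exact absurd h (OnePoint.coe_ne_infty _)
      | coe c => exact absurd (OnePoint.coe_injective h) (by simp)

variable (M) in
/-- `j ∂I` is the coproduct of two copies of the unit -/
noncomputable def isColimitBool : IsColimit (BinaryCofan.mk (dpt (M := M) false) (dpt true)) := by
  have hinj : Function.Injective (app (0 : LC.of Empty ⟶ 𝟙_ LC)) := by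
    intro x y _
    exact Subsingleton.elim _ _
  have h := StabInput.pushout (M := M) _ _ _ _ hinj isPushout_bool
  have hz : IsZero ((J M).obj (LC.of Empty)) := isZero_empty
  have fac1 : ∀ {T : M} (f g : 𝟙_ M ⟶ T),
      dpt (M := M) false ≫ h.desc (η (J M) ≫ f) (η (J M) ≫ g) (hz.eq_of_src _ _) = f := by
    intro T f g
    rw [Category.assoc, h.inl_desc]
    simp
  have fac2 : ∀ {T : M} (f g : 𝟙_ M ⟶ T),
      dpt (M := M) true ≫ h.desc (η (J M) ≫ f) (η (J M) ≫ g) (hz.eq_of_src _ _) = g := by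
    intro T f g
    rw [Category.assoc, h.inr_desc]
    simp
  have uniq : ∀ {T : M} (f g : 𝟙_ M ⟶ T) (m : (J M).obj dI ⟶ T), dpt false ≫ m = f →
      dpt true ≫ m = g →
      m = h.desc (η (J M) ≫ f) (η (J M) ≫ g) (hz.eq_of_src _ _) := by
    intro T f g m h1 h2
    apply h.hom_ext
    · rw [h.inl_desc, ← h1, Category.assoc, Functor.Monoidal.η_ε_assoc]
    · rw [h.inr_desc, ← h2, Category.assoc, Functor.Monoidal.η_ε_assoc]
  exact BinaryCofan.IsColimit.mk _ (fun {T} f g => h.desc (η (J M) ≫ f) (η (J M) ≫ g)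
    (hz.eq_of_src _ _)) (fun {T} f g => fac1 f g) (fun {T} f g => fac2 f g)
    (fun {T} f g m h1 h2 => uniq f g m h1 h2)

/-- `X ⊗ j ∂I` is the coproduct of two copies of `X` -/
noncomputable def isColimitTensorBool (X : M) :
    IsColimit (BinaryCofan.mk ((ρ_ X).inv ≫ X ◁ dpt false) ((ρ_ X).inv ≫ X ◁ dpt true)) := by
  have h1 : IsColimit (BinaryCofan.mk (X ◁ dpt (M := M) false) (X ◁ dpt true)) :=
    mapIsColimitOfPreservesOfIsColimit (tensorLeft X) _ _ (isColimitBool M)
  have key : ∀ {T : M} (f g : X ⊗ 𝟙_ M ⟶ T), ∃ l : X ⊗ (J M).obj dI ⟶ T,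
      X ◁ dpt false ≫ l = f ∧ X ◁ dpt true ≫ l = g := fun f g =>
    ⟨(BinaryCofan.IsColimit.desc' h1 f g).1, (BinaryCofan.IsColimit.desc' h1 f g).2.1,
      (BinaryCofan.IsColimit.desc' h1 f g).2.2⟩
  have key2 : ∀ {T : M} (l m : X ⊗ (J M).obj dI ⟶ T), X ◁ dpt false ≫ l = X ◁ dpt false ≫ m →
      X ◁ dpt true ≫ l = X ◁ dpt true ≫ m → l = m := fun l m e1 e2 =>
    BinaryCofan.IsColimit.hom_ext h1 e1 e2
  choose l hl using @key
  have fac1 : ∀ {T : M} (f g : X ⟶ T),
      ((ρ_ X).inv ≫ X ◁ dpt false) ≫ l ((ρ_ X).hom ≫ f) ((ρ_ X).hom ≫ g) = f := by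
    intro T f g
    rw [Category.assoc, (hl _ _).1, Iso.inv_hom_id_assoc]
  have fac2 : ∀ {T : M} (f g : X ⟶ T),
      ((ρ_ X).inv ≫ X ◁ dpt true) ≫ l ((ρ_ X).hom ≫ f) ((ρ_ X).hom ≫ g) = g := by
    intro T f g
    rw [Category.assoc, (hl _ _).2, Iso.inv_hom_id_assoc]
  have uniq : ∀ {T : M} (f g : X ⟶ T) (m : X ⊗ (J M).obj dI ⟶ T),
      ((ρ_ X).inv ≫ X ◁ dpt false) ≫ m = f → ((ρ_ X).inv ≫ X ◁ dpt true) ≫ m = g →
      m = l ((ρ_ X).hom ≫ f) ((ρ_ X).hom ≫ g) := by
    intro T f g m e1 e2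
    apply key2
    · rw [(hl _ _).1, ← e1, Category.assoc, Iso.hom_inv_id_assoc]
    · rw [(hl _ _).2, ← e2, Category.assoc, Iso.hom_inv_id_assoc]
  exact BinaryCofan.IsColimit.mk _ (fun {T} f g => l ((ρ_ X).hom ≫ f) ((ρ_ X).hom ≫ g))
    (fun {T} f g => fac1 f g) (fun {T} f g => fac2 f g)
    (fun {T} f g m h1 h2 => uniq f g m h1 h2)

/-- `X ⨿ X ≅ X ⊗ j ∂I` -/
noncomputable def coprodIso (X : M) : X ⨿ X ≅ X ⊗ (J M).obj dI :=
  (colimit.isColimit (pair X X)).coconePointUniqueUpToIso (isColimitTensorBool X)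

theorem inl_coprodIso (X : M) : coprod.inl ≫ (coprodIso X).hom = (ρ_ X).inv ≫ X ◁ dpt false :=
  (colimit.isColimit (pair X X)).comp_coconePointUniqueUpToIso_hom (isColimitTensorBool X)
    ⟨WalkingPair.left⟩

theorem inr_coprodIso (X : M) : coprod.inr ≫ (coprodIso X).hom = (ρ_ X).inv ≫ X ◁ dpt true :=
  (colimit.isColimit (pair X X)).comp_coconePointUniqueUpToIso_hom (isColimitTensorBool X)
    ⟨WalkingPair.right⟩

theorem dpt_dInc (b : Bool) : dpt b ≫ (J M).map dInc = (pt (endPt b) : 𝟙_ M ⟶ I M) := by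
  rw [Category.assoc, ← Functor.map_comp, point_dInc]

theorem coprodIso_dInc (X : M) :
    (coprodIso X).hom ≫ X ◁ (J M).map dInc = coprod.desc (inc 0 X) (inc 1 X) := by
  ext
  · rw [reassoc_of% (inl_coprodIso X), coprod.inl_desc, ← MonoidalCategory.whiskerLeft_comp,
      dpt_dInc, inc_def]
    rfl
  · rw [reassoc_of% (inr_coprodIso X), coprod.inr_desc, ← MonoidalCategory.whiskerLeft_comp,
      dpt_dInc, inc_def]
    rfl

theorem coprodIso_naturality {X Y : M} (f : X ⟶ Y) :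
    coprod.map f f ≫ (coprodIso Y).hom = (coprodIso X).hom ≫ f ▷ (J M).obj dI := by
  ext
  · rw [coprod.inl_map_assoc, inl_coprodIso, reassoc_of% (inl_coprodIso X), whisker_exchange,
      rightUnitor_inv_naturality_assoc]
  · rw [coprod.inr_map_assoc, inr_coprodIso, reassoc_of% (inr_coprodIso X), whisker_exchange,
      rightUnitor_inv_naturality_assoc]

/-- the inclusion of the two ends of a cylinder is an h-cofibration -/
theorem hCof_ends (X : M) : HCof (coprod.desc (inc 0 X) (inc 1 X)) := by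
  rw [← coprodIso_dInc]
  exact (HCof.of_isIso _).comp (hCof_dInc.whiskerLeft X)

/-- the pushout product of an h-cofibration with `∂I ⟶ I` is an h-cofibration -/
theorem hCof_pushoutProduct {A B P : M} (i : A ⟶ B) (a : B ⨿ B ⟶ P) (b : A ⊗ I M ⟶ P)
    (d : P ⟶ B ⊗ I M) (hi : HCof i)
    (hP : IsPushout (coprod.map i i) (coprod.desc (inc 0 A) (inc 1 A)) a b)
    (h1 : a ≫ d = coprod.desc (inc 0 B) (inc 1 B)) (h2 : b ≫ d = i ▷ I M) : HCof d := by
  have hP' : IsPushout (i ▷ (J M).obj dI) (A ◁ (J M).map dInc) ((coprodIso B).inv ≫ a) b := by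
    refine hP.of_iso (coprodIso A) (coprodIso B) (Iso.refl _) (Iso.refl _) ?_ ?_ ?_ ?_
    · exact coprodIso_naturality i
    · simp [coprodIso_dInc]
    · simp
    · simp
  refine (hCof_iff_ext _).mpr (Ext.pushoutProduct
    (isPushout_cyl (M := M) isPushout_JJ injective_dInc)
    (w := (J M).map jQ ≫ δ (J M) II II) ?_ ?_ hP' ?_ h2 hi.ext_jQ)
  · rw [Category.assoc, ← Functor.map_comp_assoc, jBot_jQ, map_incl_delta, inc_def,
      Iso.hom_inv_id_assoc]
  · rw [Category.assoc, ← Functor.map_comp_assoc, jSides_jQ, ← δ_natural_left,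
      Functor.Monoidal.μ_δ_assoc]
  · rw [Category.assoc, h1, ← coprodIso_dInc]
    simp

end ends

end StabInput

end Vale.Agent.P251.H
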