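import Vale.Agent.P251.H.Naive
import Vale.Agent.P251.H.HCofJ
import Vale.Agent.P251.G.Retract
import Mathlib.Topology.Homeomorph.Lemmas
import Mathlib.CategoryTheory.ObjectProperty.ContainsZero
import Mathlib.CategoryTheory.Monoidal.Subcategory
import Mathlib.CategoryTheory.MorphismProperty.Basic

/-!
# P251, part H: flat objects

`Flat W`: the objects `Z` such that `Z ⊗ -` preserves `W`.  Closure properties of flat objects,
from the properties `FlatInput W Cf` of the weak equivalences `W` and the cofibrations `Cf`.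
-/

open CategoryTheory MonoidalCategory Limits Topology OnePoint ZeroObject

namespace Vale.Agent.P251.H

open Vale.Agent.P251.G Vale.Agent.P251.G.LC

universe v u

/-- the interval is contractible to its initial point -/
theorem homotopic_projII : LC.Homotopic (projII ≫ point (X := II) 0) (𝟙 II) := by
  refine ⟨ofCompact (X := LC.of (unitInterval × unitInterval)) (Y := II)
    (fun p => p.1 * p.2) (by fun_prop), ?_, ?_⟩
  · apply LC.hom_ext
    intro x
    change ((x * 0 : unitInterval) : OnePoint unitInterval) = ((0 : unitInterval) : _)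
    rw [mul_zero]
  · apply LC.hom_ext
    intro x
    change ((x * 1 : unitInterval) : OnePoint unitInterval) = ((x : unitInterval) : _)
    rw [mul_one]

section Cofibre

variable {C : Type u} [Category.{v} C]

theorem isZero_of_isInitial [HasZeroObject C] {X : C} (h : IsInitial X) : IsZero X :=
  (isZero_zero C).of_iso (h.uniqueUpToIso HasZeroObject.zeroIsInitial)

/-- `q : B ⟶ Q` is the (strict) cofibre of `i : A ⟶ B`. -/
def IsCofibre {A B Q : C} (i : A ⟶ B) (q : B ⟶ Q) : Prop :=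
  ∃ (O : C) (_ : IsZero O) (u : A ⟶ O) (v : O ⟶ Q), IsPushout i u q v

namespace IsCofibre

variable {A B Q X : C} {i : A ⟶ B} {q : B ⟶ Q}

/-- the zero object in the definition is arbitrary -/
theorem isPushout (h : IsCofibre i q) {O : C} (hO : IsZero O) (u : A ⟶ O) (v : O ⟶ Q) :
    IsPushout i u q v := by
  obtain ⟨O', hO', u', v', h'⟩ := h
  exact IsPushout.of_iso h' (Iso.refl _) (Iso.refl _) (hO'.iso hO) (Iso.refl _) (by simp)
    (hO.eq_of_tgt _ _) (by simp) (hO'.eq_of_src _ _)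

theorem of_isPushout {O : C} (hO : IsZero O) {u : A ⟶ O} {v : O ⟶ Q} (h : IsPushout i u q v) :
    IsCofibre i q := ⟨O, hO, u, v, h⟩

theorem of_iso (h : IsCofibre i q) {A' B' Q' : C} {i' : A' ⟶ B'} {q' : B' ⟶ Q'}
    (a : A ≅ A') (b : B ≅ B') (c : Q ≅ Q') (w₁ : i ≫ b.hom = a.hom ≫ i')
    (w₂ : q ≫ c.hom = b.hom ≫ q') : IsCofibre i' q' := by
  obtain ⟨O, hO, u, v, h⟩ := h
  exact ⟨O, hO, a.inv ≫ u, v ≫ c.hom, IsPushout.of_iso h a b (Iso.refl _) c w₁ (by simp) w₂
    (by simp)⟩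

theorem mapFunctor {D : Type*} [Category D] (F : C ⥤ D) [PreservesColimitsOfSize.{0, 0} F]
    [HasZeroObject D] (h : IsCofibre i q) : IsCofibre (F.map i) (F.map q) := by
  obtain ⟨O, hO, u, v, h⟩ := h
  exact ⟨F.obj O, isZero_of_isInitial (IsInitial.isInitialObj F O hO.isInitial), _, _, h.map F⟩

/-- a morphism to a zero object is the cofibre of an isomorphism -/
theorem of_isIso [IsIso i] {O : C} (hO : IsZero O) (q : B ⟶ O) : IsCofibre i q :=
  ⟨O, hO, i ≫ q, 𝟙 O, IsPushout.of_horiz_isIso ⟨by simp⟩⟩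

theorem of_isZero_src (hA : IsZero A) (i : A ⟶ B) (q : B ⟶ Q) [IsIso q] : IsCofibre i q :=
  ⟨A, hA, 𝟙 A, i ≫ q, (IsPushout.of_vert_isIso ⟨by simp⟩)⟩

variable [HasZeroMorphisms C]

/-- the cofibre of a cobase change -/
theorem of_pushout {P : C} {f : A ⟶ X} {j : B ⟶ P} {k : X ⟶ P}
    (h : IsPushout i f j k) (hq : IsCofibre i q) :
    ∃ r : P ⟶ Q, j ≫ r = q ∧ k ≫ r = 0 ∧ IsCofibre k r := by
  obtain ⟨O, hO, u, v, h'⟩ := hq
  have w : i ≫ q = f ≫ (0 : X ⟶ Q) := by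
    rw [h'.w, hO.eq_of_src v 0, comp_zero, comp_zero]
  refine ⟨h.desc q 0 w, h.inl_desc _ _ _, h.inr_desc _ _ _, O, hO, 0, 0, ?_⟩
  refine (IsPushout.of_left (h₁₁ := f) (v₁₁ := i) (h₂₁ := j) ?_ ?_ h.flip).flip
  · have e1 : f ≫ (0 : X ⟶ O) = u := hO.eq_of_tgt _ _
    have e2 : v = 0 := hO.eq_of_src _ _
    rw [e1, h.inl_desc, ← e2]
    exact h'.flip
  · rw [h.inr_desc, zero_comp]

theorem exists_desc (h : IsCofibre i q) {Z : C} (f : B ⟶ Z) (hf : i ≫ f = 0) :
    ∃ g : Q ⟶ Z, q ≫ g = f := by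
  obtain ⟨O, hO, u, v, h⟩ := h
  exact ⟨h.desc f 0 (by rw [hf, comp_zero]), h.inl_desc _ _ _⟩

theorem hom_ext (h : IsCofibre i q) {Z : C} {f g : Q ⟶ Z} (hf : q ≫ f = q ≫ g) : f = g := by
  obtain ⟨O, hO, u, v, h⟩ := h
  exact h.hom_ext hf (hO.eq_of_src _ _)

theorem comp_eq_zero (h : IsCofibre i q) : i ≫ q = 0 := by
  obtain ⟨O, hO, u, v, h⟩ := h
  rw [h.w, hO.eq_of_src v 0, comp_zero]

theorem exists_of_hasPushouts [HasPushouts C] [HasZeroObject C] {A B : C} (i : A ⟶ B) :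
    ∃ (Q : C) (q : B ⟶ Q), IsCofibre i q :=
  ⟨_, _, _, isZero_zero C, 0, _, IsPushout.of_hasPushout i (0 : A ⟶ (0 : C))⟩

end IsCofibre

end Cofibre

namespace StabInput

variable {M : Type u} [Category.{v} M] [MonoidalCategory M] [SymmetricCategory M]
    [MonoidalClosed M] [HasZeroMorphisms M] [HasColimitsOfSize.{0, 0} M] [StabInput M]

open Functor.LaxMonoidal Functor.OplaxMonoidal

instance : HasPushouts M := inferInstance

theorem isZero_tensor_right (Z : M) {X : M} (hX : IsZero X) : IsZero (Z ⊗ X) :=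
  isZero_of_isInitial (IsInitial.isInitialObj (tensorLeft Z) X hX.isInitial)

theorem isZero_tensor_left (Z : M) {X : M} (hX : IsZero X) : IsZero (X ⊗ Z) :=
  isZero_of_isInitial (IsInitial.isInitialObj (tensorRight Z) X hX.isInitial)

theorem isCofibre_whiskerRight {A B Q : M} {i : A ⟶ B} {q : B ⟶ Q} (h : IsCofibre i q) (Z : M) :
    IsCofibre (i ▷ Z) (q ▷ Z) := h.mapFunctor (tensorRight Z)

theorem isCofibre_whiskerLeft {A B Q : M} {i : A ⟶ B} {q : B ⟶ Q} (h : IsCofibre i q) (Z : M) :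
    IsCofibre (Z ◁ i) (Z ◁ q) := h.mapFunctor (tensorLeft Z)

/-- `J` of a strict cofibre -/
theorem isCofibre_J {A B : LC} (i : A ⟶ B) (hi : Function.Injective (app i)) :
    IsCofibre ((J M).map i) ((J M).map (cofMap i)) := by
  have h : IsPushout i (0 : A ⟶ LC.of Empty) (cofMap i) (0 : LC.of Empty ⟶ cof i) :=
    isPushout_collapse (i := i) (U := cof i) Subtype.val (isOpenEmbedding_cof i)
      (fun b => by
        constructor
        · rintro ⟨v, rfl⟩; exact v.2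
        · intro hb; exact ⟨⟨b, hb⟩, rfl⟩) LC.isZero_empty (0 : A ⟶ _) (0 : _ ⟶ cof i)
  exact ⟨_, StabInput.isZero_empty, _, _, StabInput.pushout i 0 _ 0 hi h⟩

/-- What is needed to know about the weak equivalences `W` and the cofibrations `Cf` of `M`
for the discussion of flat objects. -/
structure FlatInput (W Cf : MorphismProperty M) : Prop where
  W_isIso {X Y : M} (f : X ⟶ Y) [IsIso f] : W f
  W_comp {X Y Z : M} (f : X ⟶ Y) (g : Y ⟶ Z) : W f → W g → W (f ≫ g)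
  W_left {X Y Z : M} (f : X ⟶ Y) (g : Y ⟶ Z) : W f → W (f ≫ g) → W g
  W_right {X Y Z : M} (f : X ⟶ Y) (g : Y ⟶ Z) : W g → W (f ≫ g) → W f
  W_htpy {X Y : M} {f g : X ⟶ Y} : MHtpy f g → W f → W g
  W_hequiv {X Y : M} (f : X ⟶ Y) (g : Y ⟶ X) :
    MHtpy (f ≫ g) (𝟙 X) → MHtpy (g ≫ f) (𝟙 Y) → W f
  W_sigma {ι : Type} {X Y : ι → M} (f : ∀ i, X i ⟶ Y i) : (∀ i, W (f i)) →
    W (Limits.Sigma.map f)
  W_S {X Y : M} (f : X ⟶ Y) : W f → W (S M ◁ f)
  W_L {X Y : M} (f : X ⟶ Y) : W f → W ((L : M) ◁ f)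
  Cf_whiskerRight {X Y : M} (i : X ⟶ Y) (Z : M) : Cf i → Cf (i ▷ Z)
  Cf_pushout {A B X P : M} {i : A ⟶ B} {f : A ⟶ X} {j : B ⟶ P} {k : X ⟶ P} :
    IsPushout i f j k → Cf i → Cf k
  Cf_isIso {X Y : M} (f : X ⟶ Y) [IsIso f] : Cf f
  Cf_J {X Y : LC} (i : X ⟶ Y) : Cofib i → Cf ((J M).map i)
  /-- 2 out of 3 for morphisms of cofibre sequences -/
  five {A B Q A' B' Q' : M} {i : A ⟶ B} {q : B ⟶ Q} {i' : A' ⟶ B'} {q' : B' ⟶ Q'}
    (hi : Cf i) (hq : IsCofibre i q) (hi' : Cf i') (hq' : IsCofibre i' q')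
    (a : A ⟶ A') (b : B ⟶ B') (c : Q ⟶ Q') (w₁ : i ≫ b = a ≫ i') (w₂ : q ≫ c = b ≫ q') :
    (W a → W b → W c) ∧ (W b → W c → W a) ∧ (W a → W c → W b)

/-- flat objects: `Z ⊗ -` preserves `W` -/
def Flat (W : MorphismProperty M) : ObjectProperty M :=
  fun Z => ∀ ⦃X Y : M⦄ (f : X ⟶ Y), W f → W (Z ◁ f)

namespace FlatInput

variable {W Cf : MorphismProperty M} (hW : FlatInput W Cf)

include hW

theorem W_iff_of_iso {X Y X' Y' : M} (f : X ⟶ Y) (f' : X' ⟶ Y') (e : X ≅ X') (e' : Y ≅ Y')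
    (w : f ≫ e'.hom = e.hom ≫ f') : W f ↔ W f' := by
  constructor
  · intro h
    exact hW.W_left _ _ (hW.W_isIso e.hom) (w ▸ hW.W_comp _ _ h (hW.W_isIso e'.hom))
  · intro h
    exact hW.W_right _ _ (hW.W_isIso e'.hom) (w ▸ hW.W_comp _ _ (hW.W_isIso e.hom) h)

theorem W_whiskerRight {Z : M} (hZ : Flat W Z) {X Y : M} (f : X ⟶ Y) (h : W f) : W (f ▷ Z) :=
  (hW.W_iff_of_iso (Z ◁ f) (f ▷ Z) (β_ Z X) (β_ Z Y)
    (BraidedCategory.braiding_naturality_right Z f)).mp (hZ f h)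

theorem flat_unit : Flat W (𝟙_ M) := fun X Y f h =>
  (hW.W_iff_of_iso (𝟙_ M ◁ f) f (λ_ X) (λ_ Y) (leftUnitor_naturality f)).mpr h

theorem flat_tensor {Z Z' : M} (hZ : Flat W Z) (hZ' : Flat W Z') : Flat W (Z ⊗ Z') :=
  fun X Y f h => (hW.W_iff_of_iso ((Z ⊗ Z') ◁ f) (Z ◁ Z' ◁ f) (α_ Z Z' X) (α_ Z Z' Y)
    (by simp)).mpr (hZ _ (hZ' f h))

/-- flatness is invariant under homotopy equivalences -/
theorem flat_of_hequiv {Z Z' : M} (e : Z ⟶ Z') (e' : Z' ⟶ Z) (h₁ : MHtpy (e ≫ e') (𝟙 Z))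
    (h₂ : MHtpy (e' ≫ e) (𝟙 Z')) (hZ : Flat W Z) : Flat W Z' := by
  intro X Y f hf
  have key : ∀ X : M, W (e ▷ X) := by
    intro X
    refine hW.W_hequiv (e ▷ X) (e' ▷ X) ?_ ?_
    · rw [← comp_whiskerRight]
      exact (h₁.whiskerRight X).trans (MHtpy.of_eq (by simp))
    · rw [← comp_whiskerRight]
      exact (h₂.whiskerRight X).trans (MHtpy.of_eq (by simp))
  refine hW.W_left (e ▷ X) (Z' ◁ f) (key X) ?_
  rw [← whisker_exchange]
  exact hW.W_comp _ _ (hZ f hf) (key Y)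

theorem flat_of_iso {Z Z' : M} (e : Z ≅ Z') (hZ : Flat W Z) : Flat W Z' :=
  hW.flat_of_hequiv e.hom e.inv (MHtpy.of_eq e.hom_inv_id) (MHtpy.of_eq e.inv_hom_id) hZ

theorem isClosedUnderIsomorphisms : (Flat W).IsClosedUnderIsomorphisms :=
  ⟨fun e hZ => hW.flat_of_iso e hZ⟩

theorem flat_of_isZero {Z : M} (hZ : IsZero Z) : Flat W Z := by
  intro X Y f _
  have := (isZero_tensor_left X hZ).isIso (isZero_tensor_left Y hZ) (Z ◁ f)
  exact hW.W_isIso _

theorem flat_sigma {ι : Type} {Z : ι → M} (hZ : ∀ i, Flat W (Z i)) : Flat W (∐ Z) := by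
  intro X Y f hf
  refine (hW.W_iff_of_iso (Limits.Sigma.map (fun i => Z i ◁ f)) ((∐ Z) ◁ f)
    (PreservesCoproduct.iso (tensorRight X) Z).symm
    (PreservesCoproduct.iso (tensorRight Y) Z).symm ?_).mp (hW.W_sigma _ (fun i => hZ i f hf))
  apply Limits.Sigma.hom_ext
  intro i
  rw [Sigma.ι_map_assoc, Iso.symm_hom, Iso.symm_hom, PreservesCoproduct.inv_hom,
    PreservesCoproduct.inv_hom]
  have h1 : Sigma.ι (fun i => Z i ⊗ X) i ≫ sigmaComparison (tensorRight X) Z =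
    Sigma.ι Z i ▷ X := ι_comp_sigmaComparison (tensorRight X) Z i
  have h2 : Sigma.ι (fun i => Z i ⊗ Y) i ≫ sigmaComparison (tensorRight Y) Z =
    Sigma.ι Z i ▷ Y := ι_comp_sigmaComparison (tensorRight Y) Z i
  rw [h2, ← Category.assoc, h1]
  exact (whisker_exchange _ _)

theorem flat_S : Flat W (S M) := fun _ _ f h => hW.W_S f h

theorem flat_L : Flat W (L : M) := fun _ _ f h => hW.W_L f h

theorem flat_tpow {Z : M} (hZ : Flat W Z) (n : ℕ) : Flat W (tpow Z n) := by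
  induction n with
  | zero => exact hW.flat_unit
  | succ n ih => exact hW.flat_tensor hZ ih

/-- 2 out of 3 for flatness in a cofibre sequence: the cofibre -/
theorem flat_cofibre {A B Q : M} {i : A ⟶ B} {q : B ⟶ Q} (hi : Cf i) (hq : IsCofibre i q)
    (hA : Flat W A) (hB : Flat W B) : Flat W Q := fun X Y f hf =>
  (hW.five (hW.Cf_whiskerRight i X hi) (isCofibre_whiskerRight hq X)
    (hW.Cf_whiskerRight i Y hi) (isCofibre_whiskerRight hq Y) (A ◁ f) (B ◁ f) (Q ◁ f)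
    (whisker_exchange i f).symm (whisker_exchange q f).symm).1 (hA f hf) (hB f hf)

/-- 2 out of 3 for flatness in a cofibre sequence: the middle term -/
theorem flat_ext {A B Q : M} {i : A ⟶ B} {q : B ⟶ Q} (hi : Cf i) (hq : IsCofibre i q)
    (hA : Flat W A) (hQ : Flat W Q) : Flat W B := fun X Y f hf =>
  (hW.five (hW.Cf_whiskerRight i X hi) (isCofibre_whiskerRight hq X)
    (hW.Cf_whiskerRight i Y hi) (isCofibre_whiskerRight hq Y) (A ◁ f) (B ◁ f) (Q ◁ f)
    (whisker_exchange i f).symm (whisker_exchange q f).symm).2.2 (hA f hf) (hQ f hf)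

/-- flat objects are closed under cobase change along cofibrations -/
theorem flat_pushout {A B X P : M} {i : A ⟶ B} {f : A ⟶ X} {j : B ⟶ P} {k : X ⟶ P}
    (h : IsPushout i f j k) (hi : Cf i) (hA : Flat W A) (hB : Flat W B) (hX : Flat W X) :
    Flat W P := by
  obtain ⟨Q, q, hq⟩ := IsCofibre.exists_of_hasPushouts i
  obtain ⟨r, -, -, hr⟩ := IsCofibre.of_pushout h hq
  exact hW.flat_ext (hW.Cf_pushout h hi) hr hX (hW.flat_cofibre hi hq hA hB)

/-- a cofibration is in `W` iff its cofibre is `W`-acyclic -/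
theorem W_iff_cofibre {A B Q : M} {i : A ⟶ B} {q : B ⟶ Q} (hi : Cf i) (hq : IsCofibre i q)
    {O : M} (hO : IsZero O) (c : O ⟶ Q) : W i ↔ W c := by
  have h := hW.five (hW.Cf_isIso (𝟙 A)) (IsCofibre.of_isIso (i := 𝟙 A) hO (0 : A ⟶ O)) hi hq
    (𝟙 A) i c rfl (by
      rw [zero_comp, hq.comp_eq_zero])
  exact ⟨fun h' => h.1 (hW.W_isIso _) h', fun h' => h.2.2 (hW.W_isIso _) h'⟩

/-- cobase change of acyclic cofibrations -/
theorem W_pushout {A B X P : M} {i : A ⟶ B} {f : A ⟶ X} {j : B ⟶ P} {k : X ⟶ P}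
    (h : IsPushout i f j k) (hi : Cf i) (hWi : W i) : W k := by
  obtain ⟨Q, q, hq⟩ := IsCofibre.exists_of_hasPushouts i
  obtain ⟨r, -, -, hr⟩ := IsCofibre.of_pushout h hq
  exact (hW.W_iff_cofibre (hW.Cf_pushout h hi) hr (isZero_zero M) (0 : (0 : M) ⟶ Q)).mpr
    ((hW.W_iff_cofibre hi hq (isZero_zero M) (0 : (0 : M) ⟶ Q)).mp hWi)

/-! ### finite cell spaces are flat -/

theorem flat_J_of_iso {K K' : LC} (e : K ≅ K') (h : Flat W ((J M).obj K)) :
    Flat W ((J M).obj K') := hW.flat_of_iso ((J M).mapIso e) h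

theorem flat_J_unit : Flat W ((J M).obj (𝟙_ LC)) :=
  hW.flat_of_iso (Functor.Monoidal.εIso (J M)) hW.flat_unit

theorem flat_J_tensor {K K' : LC} (h : Flat W ((J M).obj K)) (h' : Flat W ((J M).obj K')) :
    Flat W ((J M).obj (K ⊗ K')) :=
  hW.flat_of_iso (Functor.Monoidal.μIso (J M) K K') (hW.flat_tensor h h')

theorem flat_J_sph (n : ℕ) : Flat W ((J M).obj (Sph n)) := by
  induction n with
  | zero =>
    refine hW.flat_J_of_iso (K := 𝟙_ LC) (LC.ofHomeo (X := LC.of Unit) (Y := Sph 0) ?_)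
      hW.flat_J_unit
    exact
      { toFun := fun _ => default
        invFun := fun _ => ()
        left_inv := fun _ => rfl
        right_inv := fun _ => Subsingleton.elim _ _
        continuous_toFun := continuous_const
        continuous_invFun := continuous_const }
  | succ n ih =>
    refine hW.flat_J_of_iso (K := RR ⊗ Sph n) (LC.ofHomeo (X := LC.of (ℝ × (Fin n → ℝ)))
      (Y := Sph (n + 1)) ?_) (hW.flat_J_tensor hW.flat_S ih)
    exact
      { toFun := fun p => (Fin.cons p.1 p.2 : Fin (n + 1) → ℝ)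
        invFun := fun x => (x 0, Fin.tail x)
        left_inv := fun p => rfl
        right_inv := fun x => Fin.cons_self_tail x
        continuous_toFun := by
          refine continuous_pi fun i => ?_
          refine Fin.cases ?_ (fun j => ?_) i
          · exact continuous_fst
          · exact (continuous_apply j).comp continuous_snd
        continuous_invFun := (continuous_apply 0).prodMk
          (continuous_pi fun j => continuous_apply j.succ) }

theorem flat_J {K : LC} (hK : FC K) : Flat W ((J M).obj K) := by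
  induction hK with
  | empty => exact hW.flat_of_isZero StabInput.isZero_empty
  | sph n => exact hW.flat_J_sph n
  | hequiv _ h ih =>
    obtain ⟨f, g, h1, h2⟩ := h
    refine hW.flat_of_hequiv ((J M).map f) ((J M).map g) ?_ ?_ ih
    · exact (MHtpy.of_eq (by simp)).trans ((MHtpy.map h1).trans (MHtpy.of_eq (by simp)))
    · exact (MHtpy.of_eq (by simp)).trans ((MHtpy.map h2).trans (MHtpy.of_eq (by simp)))
  | @ext A B i hi _ _ ihA ihC =>
    exact hW.flat_ext (hW.Cf_J i hi) (isCofibre_J i hi.injective) ihA ihC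

theorem flat_cell (n : ℕ) {K : LC} (hK : FC K) : Flat W (cell n K : M) :=
  hW.flat_tensor (hW.flat_tpow hW.flat_L n) (hW.flat_J hK)

theorem flat_I : Flat W (I M) := by
  refine hW.flat_of_hequiv (pt 0) ptI (MHtpy.of_eq (pt_ptI 0)) ?_ hW.flat_unit
  refine (MHtpy.of_eq ?_).trans ((MHtpy.map homotopic_projII).trans
    (MHtpy.of_eq ((J M).map_id _)))
  rw [Category.assoc, Functor.Monoidal.η_ε_assoc, ← Functor.map_comp]

theorem flat_cyl {X : M} (hX : Flat W X) : Flat W (X ⊗ I M) := hW.flat_tensor hX hW.flat_I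

end FlatInput

end StabInput

end Vale.Agent.P251.H
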