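import Vale.Agent.P251.H.CofM
import Vale.Agent.P251.H.Cof.LocCoprod
import Vale.Agent.P251.H.MonLoc.Tensor
import Vale.Agent.P251.I.Spaces

/-!
# P251, part H: the category of flat objects

`FlatCat W`: the full subcategory of flat objects of `M`: a symmetric monoidal cofibration category
with coproducts; the braided functor `JF W : FCat ⥤ FlatCat W` from finite cell spaces.
-/

open CategoryTheory MonoidalCategory Limits ZeroObject

namespace Vale.Agent.P251.H

open Vale.Agent.P251.G Vale.Agent.P251.G.LC

universe v u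

section Lift

/-! ### monoidal lifts to full subcategories -/

variable {C : Type*} [Category* C] [MonoidalCategory C] {D : Type*} [Category* D]
  [MonoidalCategory D] (P : ObjectProperty C) [P.IsMonoidal] (F : D ⥤ C) [F.Monoidal]
  (hF : ∀ X, P (F.obj X))

open Functor.LaxMonoidal Functor.OplaxMonoidal

/-- the core of the monoidal structure on a lift to a full subcategory -/
@[reducible] def liftCoreMonoidal : (P.lift F hF).CoreMonoidal where
  εIso := P.isoMk (X := 𝟙_ P.FullSubcategory) (Y := (P.lift F hF).obj (𝟙_ D))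
    (Functor.Monoidal.εIso F)
  μIso X Y := P.isoMk (X := (P.lift F hF).obj X ⊗ (P.lift F hF).obj Y)
    (Y := (P.lift F hF).obj (X ⊗ Y)) (Functor.Monoidal.μIso F X Y)
  μIso_hom_natural_left f X := by
    ext
    exact μ_natural_left F f X
  μIso_hom_natural_right X f := by
    ext
    exact μ_natural_right F X f
  associativity X Y Z := by
    ext
    exact associativity F X Y Z
  left_unitality X := by
    ext
    exact left_unitality F X
  right_unitality X := by
    ext
    exact right_unitality F X

/-- a lift of a monoidal functor to a full monoidal subcategory is monoidal -/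
@[reducible] def liftMonoidal : (P.lift F hF).Monoidal := (liftCoreMonoidal P F hF).toMonoidal

end Lift

namespace StabInput

variable {M : Type u} [Category.{v} M] [MonoidalCategory M] [SymmetricCategory M]
    [MonoidalClosed M] [HasZeroMorphisms M] [HasColimitsOfSize.{0, 0} M] [StabInput M]

open Functor.LaxMonoidal Functor.OplaxMonoidal

/-- The category of flat objects of `M`. -/
abbrev FlatCat (W : MorphismProperty M) : Type u := (Flat W).FullSubcategory

variable (W : MorphismProperty M) [hW : GoodW W]

instance : (Flat W).IsMonoidal where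
  prop_unit := (flatInput W).flat_unit
  prop_tensor _ _ h₁ h₂ := (flatInput W).flat_tensor h₁ h₂

instance (J : Type) : (Flat W).IsClosedUnderColimitsOfShape (Discrete J) :=
  ObjectProperty.IsClosedUnderColimitsOfShape.mk' (by
    rintro _ ⟨F, hF⟩
    refine (Flat W).prop_of_iso ?_ ((flatInput W).flat_sigma (Z := fun j => F.obj ⟨j⟩)
      (fun j => hF ⟨j⟩))
    exact HasColimit.isoOfNatIso (Discrete.natIso fun _ => Iso.refl _))


/-- the category of flat objects is a cofibration category -/
instance cofCatFlat : CofCat (FlatCat W) :=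
  letI := cofCatM W
  haveI := cofClosed_flat W
  CofClosed.cofCat (Flat W)

theorem W_flat_iff {X Y : FlatCat W} (f : X ⟶ Y) : CofCat.W f ↔ W f.hom := Iff.rfl

theorem Cof_flat_iff {X Y : FlatCat W} (f : X ⟶ Y) : CofCat.Cof f ↔ HCof f.hom := Iff.rfl

variable {W} in
theorem isPushout_flat_of_hom {A B X Q : FlatCat W} {i : A ⟶ B} {f : A ⟶ X} {j : B ⟶ Q}
    {k : X ⟶ Q} (h : IsPushout i.hom f.hom j.hom k.hom) : IsPushout i f j k :=
  letI := cofCatM W
  haveI := cofClosed_flat W
  CofClosed.isPushout_of_hom (Flat W) h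

variable {W} in
theorem isPushout_flat_hom {A B X Q : FlatCat W} {i : A ⟶ B} {f : A ⟶ X} {j : B ⟶ Q}
    {k : X ⟶ Q} (h : IsPushout i f j k) (hi : HCof i.hom) :
    IsPushout i.hom f.hom j.hom k.hom :=
  letI := cofCatM W
  haveI := cofClosed_flat W
  CofClosed.isPushout_hom (Flat W) h hi

/-- the category of flat objects is a symmetric monoidal cofibration category -/
instance tensorCofCatFlat : TensorCofCat (FlatCat W) where
  W_whiskerLeft Z _ _ f hf := Z.property f.hom hf
  Cof_whiskerLeft Z _ _ f hf := HCof.whiskerLeft hf Z.obj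
  isZero_tensor Z X hX := by
    refine IsZero.of_full_of_faithful_of_isZero (Flat W).ι (Z ⊗ X) ?_
    have : IsZero X.obj := (Flat W).ι.map_isZero hX
    exact isZero_of_isInitial (IsInitial.isInitialObj (tensorLeft Z.obj) X.obj this.isInitial)
  isPushout_whiskerLeft Z _ _ _ _ _ _ _ _ h hi :=
    isPushout_flat_of_hom ((isPushout_flat_hom h hi).map (tensorLeft Z.obj))
  I := ⟨I M, (flatInput W).flat_I⟩
  e₀ := ObjectProperty.homMk (pt 0)
  e₁ := ObjectProperty.homMk (pt 1)
  p := ObjectProperty.homMk ptI
  cyl X := (Flat W).isoMk (Iso.refl (X.obj ⊗ I M))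
  cyl_natural {X Y} f := by
    ext
    exact (Category.comp_id (f.hom ▷ I M)).trans (Category.id_comp (f.hom ▷ I M)).symm
  cyl_e₀ X := by
    ext
    change (ρ_ X.obj).inv ≫ X.obj ◁ pt 0 ≫ 𝟙 _ = inc 0 X.obj
    rw [Category.comp_id, inc_def]
  cyl_e₁ X := by
    ext
    change (ρ_ X.obj).inv ≫ X.obj ◁ pt 1 ≫ 𝟙 _ = inc 1 X.obj
    rw [Category.comp_id, inc_def]
  cyl_p X := by
    ext
    exact Category.id_comp (pr X.obj)

/-- the inclusion of flat objects preserves coproducts: comparison -/
theorem sigmaMap_flat {J : Type} {X Y : J → FlatCat W} (f : ∀ j, X j ⟶ Y j) :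
    Nonempty (Arrow.mk (Limits.Sigma.map f).hom ≅
      Arrow.mk (Limits.Sigma.map (fun j => (f j).hom))) := by
  refine ⟨Arrow.isoMk (PreservesCoproduct.iso (Flat W).ι X) (PreservesCoproduct.iso (Flat W).ι Y)
    ?_⟩
  rw [← cancel_epi (PreservesCoproduct.iso (Flat W).ι X).inv, Iso.inv_hom_id_assoc,
    PreservesCoproduct.inv_hom]
  apply Limits.Sigma.hom_ext
  intro j
  have h1 := ι_comp_sigmaComparison (Flat W).ι X j
  have h2 := ι_comp_sigmaComparison (Flat W).ι Y j
  change Sigma.ι (fun j => (X j).obj) j ≫ Limits.Sigma.map (fun j => (f j).hom) =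
    Sigma.ι (fun j => (Flat W).ι.obj (X j)) j ≫ sigmaComparison (Flat W).ι X ≫
      (Flat W).ι.map (Limits.Sigma.map f) ≫ (PreservesCoproduct.iso (Flat W).ι Y).hom
  rw [reassoc_of% h1, Sigma.ι_map, ← Functor.map_comp_assoc, Sigma.ι_map, Functor.map_comp_assoc,
    ← h2, Category.assoc, ← PreservesCoproduct.inv_hom, Iso.inv_hom_id, Category.comp_id]
  rfl

instance (J : Type) : CofCat.CofCoproducts (FlatCat W) J where
  W_map {X Y} f hf := by
    obtain ⟨e⟩ := sigmaMap_flat W f
    have h := hW.sigma (fun j => (f j).hom) hf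
    exact ((flatInput W).W_iff_of_iso _ _ (Arrow.leftFunc.mapIso e) (Arrow.rightFunc.mapIso e)
      e.hom.w.symm).mpr h
  Cof_map {X Y} f hf := by
    obtain ⟨e⟩ := sigmaMap_flat W f
    exact HCof.congr_iso (HCof.sigma (fun j => (f j).hom) hf) (Arrow.leftFunc.mapIso e)
      (Arrow.rightFunc.mapIso e) e.hom.w

/-! ### finite cell spaces -/

/-- The functor from finite cell spaces to flat objects. -/
def JF : I.FCat ⥤ FlatCat W :=
  (Flat W).lift (I.FCP.ι ⋙ J M) (fun X => (flatInput W).flat_J X.property)

instance : (JF W).Monoidal := liftMonoidal (Flat W) (I.FCP.ι ⋙ J M) _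

instance : (JF W).Braided where
  braided X Y := by
    ext
    exact (Functor.Braided.braided (F := I.FCP.ι ⋙ J M) X Y)

end StabInput

end Vale.Agent.P251.H
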