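import Vale.Agent.P251.H.PuppeInst
import Vale.Agent.P251.H.FlatModel

/-!
# P251, part H: stable equivalences are a good class

The instance `GoodW (piW GG)` for every class of test objects `GG`, and `piW GG lam`.
-/

open CategoryTheory MonoidalCategory Limits ZeroObject

namespace Vale.Agent.P251.H

open Vale.Agent.P251.G Vale.Agent.P251.G.LC LP

universe v u

namespace StabInput

variable {M : Type u} [Category.{v} M] [MonoidalCategory M] [SymmetricCategory M]
    [MonoidalClosed M] [HasZeroMorphisms M] [HasColimitsOfSize.{0, 0} M] [StabInput M]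

theorem piW_lam_unit (GG : ObjectProperty M) [IsTest GG] :
    piW GG (lam : (L : M) ⊗ (J M).obj RR ⟶ 𝟙_ M) := by
  have h := piW_lam (GG := GG) (𝟙_ M)
  have e : (lamU M ▷ 𝟙_ M ≫ (λ_ (𝟙_ M)).hom) = (ρ_ _).hom ≫ lamU M := by
    rw [← rightUnitor_naturality, unitors_equal]
  rw [e, (piW GG).cancel_left_of_respectsIso] at h
  exact h

end StabInput

end Vale.Agent.P251.H
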