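import Vale.Agent.P251.H.Wst
import Vale.Agent.P251.H.CofM

/-!
# P251, part H: stable equivalences form a good class

`goodW_piW`: all the properties `GoodW` of the class `piW GG`, from the 2 out of 3 property for
morphisms of cofibre sequences (`FiveW`).
-/

open CategoryTheory MonoidalCategory Limits ZeroObject

namespace Vale.Agent.P251.H

open Vale.Agent.P251.G Vale.Agent.P251.G.LC

universe v u

namespace StabInput

variable {M : Type u} [Category.{v} M] [MonoidalCategory M] [SymmetricCategory M]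
    [MonoidalClosed M] [HasZeroMorphisms M] [HasColimitsOfSize.{0, 0} M] [StabInput M]

/-- 2 out of 3 for morphisms of cofibre sequences -/
def FiveW (W : MorphismProperty M) : Prop :=
  ∀ ⦃A B Q A' B' Q' : M⦄ ⦃i : A ⟶ B⦄ ⦃q : B ⟶ Q⦄ ⦃i' : A' ⟶ B'⦄ ⦃q' : B' ⟶ Q'⦄
    (_ : HCof i) (_ : IsCofibre i q) (_ : HCof i') (_ : IsCofibre i' q')
    (a : A ⟶ A') (b : B ⟶ B') (c : Q ⟶ Q') (_ : i ≫ b = a ≫ i') (_ : q ≫ c = b ≫ q'),
    (W a → W b → W c) ∧ (W b → W c → W a) ∧ (W a → W c → W b)

/-- the inclusion of a summand is a cofibration -/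
theorem hCof_inl [HasBinaryCoproducts M] (X Y : M) : HCof (coprod.inl : X ⟶ X ⨿ Y) :=
  HCof.of_isPushout (isPushout_coprod_of_isZero (isZero_zero M) X Y 0 0).flip
    (HCof.of_isZero (isZero_zero M) _)

/-- the cofibre of the inclusion of a summand -/
theorem isCofibre_inl [HasBinaryCoproducts M] (X Y : M) :
    IsCofibre (coprod.inl : X ⟶ X ⨿ Y) (coprod.desc 0 (𝟙 Y)) := by
  refine ⟨0, isZero_zero M, 0, 0, ⟨by rw [coprod.inl_desc, zero_comp]⟩,
    ⟨PushoutCocone.IsColimit.mk _ (fun s => coprod.inr ≫ s.inl) (fun s => ?_) (fun s => ?_)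
      (fun s m h1 h2 => ?_)⟩⟩
  · apply coprod.hom_ext
    · rw [coprod.inl_desc_assoc, zero_comp, s.condition, zero_comp]
    · rw [coprod.inr_desc_assoc, Category.id_comp]
  · exact (isZero_zero M).eq_of_src _ _
  · rw [← h1, coprod.inr_desc_assoc, Category.id_comp]

theorem coprod_of_five [HasBinaryCoproducts M] {W : MorphismProperty M} (h5 : FiveW W)
    {X Y X' Y' : M} (f : X ⟶ Y) (f' : X' ⟶ Y') (hf : W f) (hf' : W f') :
    W (coprod.map f f') := by
  refine (h5 (hCof_inl X X') (isCofibre_inl X X') (hCof_inl Y Y') (isCofibre_inl Y Y') f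
    (coprod.map f f') f' (coprod.inl_map _ _) ?_).2.2 hf hf'
  apply coprod.hom_ext
  · rw [coprod.inl_desc_assoc, coprod.inl_map_assoc, coprod.inl_desc, zero_comp, comp_zero]
  · rw [coprod.inr_desc_assoc, coprod.inr_map_assoc, coprod.inr_desc, Category.id_comp,
      Category.comp_id]

/-- All the properties of the class of stable equivalences. -/
theorem goodW_piW (GG : ObjectProperty M) [IsTest GG] (h5 : FiveW (piW GG)) :
    GoodW (piW GG) where
  isIso f _ := piW_of_isIso f
  comp f g hf hg := (piW GG).comp_mem f g hf hg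
  left f g hf hfg := (piW GG).of_precomp f g hf hfg
  right f g hg hfg := (piW GG).of_postcomp f g hg hfg
  htpy h hf := piW_congr h hf
  hequiv f g h1 h2 := piW_of_inverse f g h1 h2
  sigma f hf := piW_sigma_of_binary (fun f f' => coprod_of_five h5 f f') f hf
  tensorS f hf := (piW_whiskerLeft_S f).mpr hf
  tensorL f hf := (piW_whiskerLeft_L f).mpr hf
  five hi hq hi' hq' a b c w₁ w₂ := h5 hi hq hi' hq' a b c w₁ w₂

end StabInput

end Vale.Agent.P251.H
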