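import Vale.Agent.P251.H.Naive
import Mathlib.CategoryTheory.Monoidal.Closed.Braided
import Mathlib.CategoryTheory.Adjunction.Limits
import Mathlib.CategoryTheory.Limits.Shapes.Pullback.IsPullback.Basic
import Mathlib.CategoryTheory.Limits.Shapes.BinaryProducts
import Mathlib.CategoryTheory.Limits.Preserves.Shapes.Products

/-!
# P251, part H: h-cofibrations in a `StabInput` category

`HCof i`: the homotopy extension property of `i : A ⟶ B` in `M`.
`Ext i k`: for `i : A ⟶ B`, `k : J ⟶ Q`, the pushout product `i □ k` is a split monomorphism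
(formulated without the pushout).  `HCof i ↔ Ext i (0 ⟶ I)`.
-/

open CategoryTheory MonoidalCategory Limits

namespace Vale.Agent.P251.H

open Vale.Agent.P251.G Vale.Agent.P251.G.LC

universe v u

section tensor

variable {M : Type u} [Category.{v} M] [MonoidalCategory M] [SymmetricCategory M]
    [MonoidalClosed M]

omit [SymmetricCategory M] in
/-- tensoring on the left preserves pushouts -/
theorem isPushout_whiskerLeft (X : M) {A B C D : M} {i : A ⟶ B} {f : A ⟶ C} {g : B ⟶ D}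
    {k : C ⟶ D} (h : IsPushout i f g k) :
    IsPushout (X ◁ i) (X ◁ f) (X ◁ g) (X ◁ k) :=
  h.map (tensorLeft X)

/-- tensoring on the right preserves pushouts -/
theorem isPushout_whiskerRight (X : M) {A B C D : M} {i : A ⟶ B} {f : A ⟶ C} {g : B ⟶ D}
    {k : C ⟶ D} (h : IsPushout i f g k) :
    IsPushout (i ▷ X) (f ▷ X) (g ▷ X) (k ▷ X) := by
  have : PreservesColimitsOfSize.{0, 0} (tensorRight X) :=
    (Adjunction.ofIsLeftAdjoint (tensorRight X)).leftAdjoint_preservesColimits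
  exact h.map (tensorRight X)

omit [SymmetricCategory M] in
theorem isZero_tensor_left [HasZeroMorphisms M] {X : M} (hX : IsZero X) (Y : M) :
    IsZero (Y ⊗ X) := by
  have h1 : IsInitial X := hX.isInitial
  have : PreservesColimitsOfSize.{0, 0} (tensorLeft Y) :=
    (Adjunction.ofIsLeftAdjoint (tensorLeft Y)).leftAdjoint_preservesColimits
  have h2 : IsInitial (Y ⊗ X) := h1.isInitialObj (tensorLeft Y)
  exact (IsZero.iff_id_eq_zero _).mpr (h2.hom_ext _ _)

theorem isZero_tensor_right [HasZeroMorphisms M] {X : M} (hX : IsZero X) (Y : M) :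
    IsZero (X ⊗ Y) :=
  (isZero_tensor_left hX Y).of_iso (β_ X Y)

end tensor

section ext

variable {M : Type u} [Category.{v} M] [MonoidalCategory M]

/-- The pushout product `i □ k` is a split monomorphism. -/
def Ext {A B J Q : M} (i : A ⟶ B) (k : J ⟶ Q) : Prop :=
  ∀ (Z : M) (f : B ⊗ J ⟶ Z) (H : A ⊗ Q ⟶ Z), i ▷ J ≫ f = A ◁ k ≫ H →
    ∃ G : B ⊗ Q ⟶ Z, B ◁ k ≫ G = f ∧ i ▷ Q ≫ G = H

namespace Ext

variable {A B J Q : M} {i : A ⟶ B} {k : J ⟶ Q}

theorem of_isIso (i : A ⟶ B) [IsIso i] (k : J ⟶ Q) : Ext i k := by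
  intro Z f H h
  refine ⟨inv i ▷ Q ≫ H, ?_, ?_⟩
  · rw [whisker_exchange_assoc, ← h, ← comp_whiskerRight_assoc]
    simp
  · rw [← comp_whiskerRight_assoc]
    simp

theorem of_isIso_right (i : A ⟶ B) (k : J ⟶ Q) [IsIso k] : Ext i k := by
  intro Z f H h
  refine ⟨B ◁ inv k ≫ f, ?_, ?_⟩
  · rw [← MonoidalCategory.whiskerLeft_comp_assoc]
    simp
  · rw [← whisker_exchange_assoc, h, ← MonoidalCategory.whiskerLeft_comp_assoc]
    simp

theorem comp {C : M} {i' : B ⟶ C} (h : Ext i k) (h' : Ext i' k) : Ext (i ≫ i') k := by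
  intro Z f H e
  obtain ⟨G, h1, h2⟩ := h Z (i' ▷ J ≫ f) H (by rw [← e]; simp)
  obtain ⟨G', h1', h2'⟩ := h' Z f G h1.symm
  exact ⟨G', h1', by rw [comp_whiskerRight_assoc, h2', h2]⟩

theorem comp_right {R : M} {k' : Q ⟶ R} (h : Ext i k) (h' : Ext i k') : Ext i (k ≫ k') := by
  intro Z f H e
  obtain ⟨G, h1, h2⟩ := h Z f (A ◁ k' ≫ H) (by rw [e]; simp)
  obtain ⟨G', h1', h2'⟩ := h' Z G H h2
  exact ⟨G', by rw [MonoidalCategory.whiskerLeft_comp_assoc, h1', h1], h2'⟩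

/-- `Ext` is stable under retracts of the second map -/
theorem of_retract {J' Q' : M} {k' : J' ⟶ Q'} (h : Ext i k') (a₁ : J ⟶ J') (a₂ : Q ⟶ Q')
    (b₁ : J' ⟶ J) (b₂ : Q' ⟶ Q) (ha : a₁ ≫ k' = k ≫ a₂) (hb : b₁ ≫ k = k' ≫ b₂)
    (h₁ : a₁ ≫ b₁ = 𝟙 J) (h₂ : a₂ ≫ b₂ = 𝟙 Q) : Ext i k := by
  intro Z f H e
  obtain ⟨G, h1, h2⟩ := h Z (B ◁ b₁ ≫ f) (A ◁ b₂ ≫ H) (by
    rw [← whisker_exchange_assoc, e, ← MonoidalCategory.whiskerLeft_comp_assoc, hb,
      MonoidalCategory.whiskerLeft_comp_assoc])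
  refine ⟨B ◁ a₂ ≫ G, ?_, ?_⟩
  · rw [← MonoidalCategory.whiskerLeft_comp_assoc, ← ha, MonoidalCategory.whiskerLeft_comp_assoc,
      h1, ← MonoidalCategory.whiskerLeft_comp_assoc, h₁]
    simp
  · rw [← whisker_exchange_assoc, h2, ← MonoidalCategory.whiskerLeft_comp_assoc, h₂]
    simp

/-- `Ext` is stable under retracts of the first map -/
theorem of_retract_left {A' B' : M} {i' : A' ⟶ B'} (h : Ext i' k) (a₁ : A ⟶ A') (a₂ : B ⟶ B')
    (b₁ : A' ⟶ A) (b₂ : B' ⟶ B) (ha : a₁ ≫ i' = i ≫ a₂) (hb : b₁ ≫ i = i' ≫ b₂)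
    (h₁ : a₁ ≫ b₁ = 𝟙 A) (h₂ : a₂ ≫ b₂ = 𝟙 B) : Ext i k := by
  intro Z f H e
  obtain ⟨G, h1, h2⟩ := h Z (b₂ ▷ J ≫ f) (b₁ ▷ Q ≫ H) (by
    rw [whisker_exchange_assoc, ← e, ← comp_whiskerRight_assoc, ← comp_whiskerRight_assoc, hb])
  refine ⟨a₂ ▷ Q ≫ G, ?_, ?_⟩
  · rw [whisker_exchange_assoc, h1, ← comp_whiskerRight_assoc, h₂]
    simp
  · rw [← comp_whiskerRight_assoc, ← ha, comp_whiskerRight_assoc, h2, ← comp_whiskerRight_assoc, h₁]
    simp

theorem congr_iso {A' B' : M} {i' : A' ⟶ B'} (h : Ext i' k) (a : A ≅ A') (b : B ≅ B')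
    (e : a.hom ≫ i' = i ≫ b.hom) : Ext i k :=
  h.of_retract_left a.hom b.hom a.inv b.inv e
    (by rw [← cancel_mono b.hom, Category.assoc, ← e]; simp) (by simp) (by simp)

theorem congr_iso_right {J' Q' : M} {k' : J' ⟶ Q'} (h : Ext i k') (a : J ≅ J') (b : Q ≅ Q')
    (e : a.hom ≫ k' = k ≫ b.hom) : Ext i k :=
  h.of_retract a.hom b.hom a.inv b.inv e
    (by rw [← cancel_mono b.hom, Category.assoc, ← e]; simp) (by simp) (by simp)

/-- if `i` is split by a retraction `r` then `i □ k` is split provided ... (trivial case: initial) -/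
theorem of_isZero [HasZeroMorphisms M] [MonoidalClosed M] [SymmetricCategory M] (hA : IsZero A)
    (h : ∃ r : Q ⟶ J, k ≫ r = 𝟙 J) : Ext i k := by
  intro Z f H _
  obtain ⟨r, hr⟩ := h
  refine ⟨B ◁ r ≫ f, ?_, (isZero_tensor_right hA Q).eq_of_src _ _⟩
  rw [← MonoidalCategory.whiskerLeft_comp_assoc, hr]
  simp

section closed

variable [SymmetricCategory M] [MonoidalClosed M]

theorem whiskerLeft (h : Ext i k) (C : M) : Ext (C ◁ i) k := by
  intro Z f H e
  obtain ⟨G, h1, h2⟩ := h ((ihom C).obj Z) (MonoidalClosed.curry ((α_ C B J).inv ≫ f))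
    (MonoidalClosed.curry ((α_ C A Q).inv ≫ H)) (by
      rw [← MonoidalClosed.curry_natural_left, ← MonoidalClosed.curry_natural_left]
      congr 1
      simp only [associator_inv_naturality_middle_assoc, associator_inv_naturality_right_assoc]
      rw [e])
  refine ⟨(α_ C B Q).hom ≫ MonoidalClosed.uncurry G, ?_, ?_⟩
  · rw [associator_naturality_right_assoc, ← MonoidalClosed.uncurry_natural_left, h1]
    simp
  · rw [associator_naturality_middle_assoc, ← MonoidalClosed.uncurry_natural_left, h2]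
    simp

omit [MonoidalClosed M] in
theorem swap (h : Ext i k) : Ext k i := by
  intro Z f H e
  obtain ⟨G, h1, h2⟩ := h Z ((β_ B J).hom ≫ H) ((β_ A Q).hom ≫ f) (by
    rw [BraidedCategory.braiding_naturality_left_assoc, ← e,
      BraidedCategory.braiding_naturality_right_assoc])
  refine ⟨(β_ Q B).hom ≫ G, ?_, ?_⟩
  · rw [BraidedCategory.braiding_naturality_right_assoc, h2]
    simp
  · rw [BraidedCategory.braiding_naturality_left_assoc, h1]
    simp

theorem whiskerRight (h : Ext i k) (C : M) : Ext (i ▷ C) k :=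
  (h.whiskerLeft C).congr_iso (β_ A C) (β_ B C) (by simp)

theorem whiskerLeft_right (h : Ext i k) (C : M) : Ext i (C ◁ k) :=
  (h.swap.whiskerLeft C).swap

theorem whiskerRight_right (h : Ext i k) (C : M) : Ext i (k ▷ C) :=
  (h.swap.whiskerRight C).swap

/-- `Ext` is stable under cobase change in the first variable -/
theorem of_isPushout {X P : M} {f : A ⟶ X} {g : B ⟶ P} {l : X ⟶ P} (h : IsPushout i f g l)
    (hi : Ext i k) : Ext l k := by
  intro Z u H e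
  obtain ⟨G, h1, h2⟩ := hi Z (g ▷ J ≫ u) (f ▷ Q ≫ H) (by
    rw [← comp_whiskerRight_assoc, h.w, comp_whiskerRight_assoc, e, whisker_exchange_assoc])
  have hQ := isPushout_whiskerRight Q h
  have hJ := isPushout_whiskerRight J h
  refine ⟨hQ.desc G H h2, ?_, ?_⟩
  · apply hJ.hom_ext
    · rw [← whisker_exchange_assoc, hQ.inl_desc, h1]
    · rw [← whisker_exchange_assoc, hQ.inr_desc, e]
  · rw [hQ.inr_desc]

theorem of_isPushout_right {J' Q' : M} {f : J ⟶ J'} {g : Q ⟶ Q'} {k' : J' ⟶ Q'}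
    (h : IsPushout k f g k') (hi : Ext i k) : Ext i k' :=
  (hi.swap.of_isPushout h).swap

/-- `Ext` is stable under coproducts in the first variable -/
theorem sigma [HasCoproducts.{0} M] {ι : Type} {A B : ι → M} (i : ∀ x, A x ⟶ B x)
    (h : ∀ x, Ext (i x) k) : Ext (Limits.Sigma.map i) k := by
  have hp : PreservesColimitsOfSize.{0, 0} (tensorRight Q) :=
    (Adjunction.ofIsLeftAdjoint (tensorRight Q)).leftAdjoint_preservesColimits
  have hpJ : PreservesColimitsOfSize.{0, 0} (tensorRight J) :=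
    (Adjunction.ofIsLeftAdjoint (tensorRight J)).leftAdjoint_preservesColimits
  have hB : IsColimit (Cofan.mk ((∐ B) ⊗ Q) (fun x => Sigma.ι B x ▷ Q)) :=
    isColimitOfHasCoproductOfPreservesColimit (tensorRight Q) B
  have hA : IsColimit (Cofan.mk ((∐ A) ⊗ Q) (fun x => Sigma.ι A x ▷ Q)) :=
    isColimitOfHasCoproductOfPreservesColimit (tensorRight Q) A
  have hJ : IsColimit (Cofan.mk ((∐ B) ⊗ J) (fun x => Sigma.ι B x ▷ J)) :=
    isColimitOfHasCoproductOfPreservesColimit (tensorRight J) B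
  intro Z f H e
  have h' : ∀ x, ∃ G : B x ⊗ Q ⟶ Z, B x ◁ k ≫ G = Sigma.ι B x ▷ J ≫ f ∧
      i x ▷ Q ≫ G = Sigma.ι A x ▷ Q ≫ H := by
    intro x
    refine h x Z _ _ ?_
    rw [← comp_whiskerRight_assoc, ← Sigma.ι_map, comp_whiskerRight_assoc, e,
      whisker_exchange_assoc]
  choose G h1 h2 using h'
  have hd : ∀ x, Sigma.ι B x ▷ Q ≫ Cofan.IsColimit.desc hB G = G x := fun x =>
    Cofan.IsColimit.fac hB G x
  refine ⟨Cofan.IsColimit.desc hB G, ?_, ?_⟩
  · apply Cofan.IsColimit.hom_ext hJ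
    intro x
    change Sigma.ι B x ▷ J ≫ _ ≫ _ = Sigma.ι B x ▷ J ≫ _
    rw [← whisker_exchange_assoc, hd, h1]
  · apply Cofan.IsColimit.hom_ext hA
    intro x
    change Sigma.ι A x ▷ Q ≫ _ ≫ _ = Sigma.ι A x ▷ Q ≫ _
    rw [← comp_whiskerRight_assoc, Sigma.ι_map, comp_whiskerRight_assoc, hd, h2]

end closed

end Ext

end ext

namespace StabInput

variable {M : Type u} [Category.{v} M] [MonoidalCategory M] [SymmetricCategory M]
    [MonoidalClosed M] [HasZeroMorphisms M] [HasColimitsOfSize.{0, 0} M] [StabInput M]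

/-- the homotopy extension property -/
def HCof {A B : M} (i : A ⟶ B) : Prop :=
  ∀ (Z : M) (f : B ⟶ Z) (H : A ⊗ I M ⟶ Z), inc 0 A ≫ H = i ≫ f →
    ∃ K : B ⊗ I M ⟶ Z, inc 0 B ≫ K = f ∧ i ▷ I M ≫ K = H

theorem hCof_iff_ext {A B : M} (i : A ⟶ B) : HCof i ↔ Ext i (pt 0 : 𝟙_ M ⟶ I M) := by
  constructor
  · intro h Z f H e
    obtain ⟨K, h1, h2⟩ := h Z ((ρ_ B).inv ≫ f) H (by
      rw [inc_def, Category.assoc, ← e, rightUnitor_inv_naturality_assoc])
    refine ⟨K, ?_, h2⟩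
    rw [inc_def, Category.assoc] at h1
    exact (cancel_epi _).mp h1
  · intro h Z f H e
    obtain ⟨K, h1, h2⟩ := h Z ((ρ_ B).hom ≫ f) H (by
      rw [rightUnitor_naturality_assoc, ← e, inc_def]
      simp)
    refine ⟨K, ?_, h2⟩
    rw [inc_def, Category.assoc, h1]
    simp

namespace HCof

variable {A B C : M} {i : A ⟶ B}

theorem ext (h : HCof i) : Ext i (pt 0 : 𝟙_ M ⟶ I M) := (hCof_iff_ext i).mp h

theorem of_isIso (i : A ⟶ B) [IsIso i] : HCof i := (hCof_iff_ext i).mpr (Ext.of_isIso i _)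

theorem comp {i' : B ⟶ C} (h : HCof i) (h' : HCof i') : HCof (i ≫ i') :=
  (hCof_iff_ext _).mpr (h.ext.comp h'.ext)

theorem of_isZero (hA : IsZero A) (i : A ⟶ B) : HCof i := by
  refine (hCof_iff_ext _).mpr (Ext.of_isZero hA ⟨(J M).map (ofCompact (X := II) (Y := 𝟙_ LC)
    (fun _ => ()) continuous_const) ≫ Functor.OplaxMonoidal.η (J M), ?_⟩)
  have h : point (X := II) (0 : unitInterval) ≫ (ofCompact (X := II) (Y := 𝟙_ LC)
    (fun _ => ()) continuous_const) = 𝟙 _ := by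
    apply LC.hom_ext
    intro x
    rfl
  rw [Category.assoc, ← Functor.map_comp_assoc, h]
  simp

theorem whiskerLeft (h : HCof i) (C : M) : HCof (C ◁ i) :=
  (hCof_iff_ext _).mpr (h.ext.whiskerLeft C)

theorem whiskerRight (h : HCof i) (C : M) : HCof (i ▷ C) :=
  (hCof_iff_ext _).mpr (h.ext.whiskerRight C)

theorem of_isPushout {X P : M} {f : A ⟶ X} {g : B ⟶ P} {l : X ⟶ P} (h : IsPushout i f g l)
    (hi : HCof i) : HCof l :=
  (hCof_iff_ext _).mpr (hi.ext.of_isPushout h)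

theorem sigma {ι : Type} {A B : ι → M} (i : ∀ x, A x ⟶ B x)
    (h : ∀ x, HCof (i x)) : HCof (Limits.Sigma.map i) :=
  (hCof_iff_ext _).mpr (Ext.sigma i (fun x => (h x).ext))

theorem congr_iso {A' B' : M} {i' : A' ⟶ B'} (h : HCof i') (a : A ≅ A') (b : B ≅ B')
    (e : a.hom ≫ i' = i ≫ b.hom) : HCof i :=
  (hCof_iff_ext _).mpr (h.ext.congr_iso a b e)

theorem of_retract {A' B' : M} {i' : A' ⟶ B'} (h : HCof i') (a₁ : A ⟶ A') (a₂ : B ⟶ B')
    (b₁ : A' ⟶ A) (b₂ : B' ⟶ B) (ha : a₁ ≫ i' = i ≫ a₂) (hb : b₁ ≫ i = i' ≫ b₂)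
    (h₁ : a₁ ≫ b₁ = 𝟙 A) (h₂ : a₂ ≫ b₂ = 𝟙 B) : HCof i :=
  (hCof_iff_ext _).mpr (h.ext.of_retract_left a₁ a₂ b₁ b₂ ha hb h₁ h₂)

end HCof

end StabInput

end Vale.Agent.P251.H
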