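import Vale.Agent.P251.G.Homotopy
import Mathlib.CategoryTheory.Limits.Shapes.Pullback.IsPullback.Basic

/-!
# P251, part H: pushouts in `LC`

`isPushout_of`: a commutative square which is a pushout on underlying sets of one-point
compactifications is a pushout in `LC`.
-/

open CategoryTheory MonoidalCategory Limits Topology OnePoint

namespace Vale.Agent.P251.H

open Vale.Agent.P251.G Vale.Agent.P251.G.LC

section

variable {A B C D : LC}

/-- Gluing a map out of `D` from two maps on a closed cover (in the sense of jointly surjective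
maps). -/
theorem exists_glue {g : B ⟶ D} {k : C ⟶ D} {Z : LC}
    (hs : ∀ d : OnePoint D, (∃ b, app g b = d) ∨ ∃ c, app k c = d)
    (u : B ⟶ Z) (v : C ⟶ Z)
    (huu : ∀ b b', app g b = app g b' → app u b = app u b')
    (huv : ∀ b c, app g b = app k c → app u b = app v c)
    (hvv : ∀ c c', app k c = app k c' → app v c = app v c') :
    ∃ w : D ⟶ Z, g ≫ w = u ∧ k ≫ w = v := by
  let q : C(OnePoint B ⊕ OnePoint C, OnePoint D) :=
    ⟨Sum.elim (app g) (app k), (continuous_app g).sumElim (continuous_app k)⟩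
  have hqs : Function.Surjective q := by
    intro d
    rcases hs d with ⟨b, hb⟩ | ⟨c, hc⟩
    · exact ⟨Sum.inl b, hb⟩
    · exact ⟨Sum.inr c, hc⟩
  have hq : IsQuotientMap q := q.continuous.isClosedMap.isQuotientMap q.continuous hqs
  let p : C(OnePoint B ⊕ OnePoint C, OnePoint Z) :=
    ⟨Sum.elim (app u) (app v), (continuous_app u).sumElim (continuous_app v)⟩
  have hp : ∀ x y, q x = q y → p x = p y := by
    rintro (b | c) (b' | c') h
    · exact huu b b' h
    · exact huv b c' h
    · exact (huv b' c h.symm).symm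
    · exact hvv c c' h
  have hp' : Function.FactorsThrough p q := fun x y h => hp x y h
  let w : C(OnePoint D, OnePoint Z) := hq.lift p hp'
  have hw : ∀ x, w (q x) = p x := fun x => by
    have := hq.lift_comp p hp'
    exact congrArg (fun f : C(_, _) => f x) this
  refine ⟨⟨w, ?_⟩, ?_, ?_⟩
  · have h1 : q (Sum.inl ∞) = ∞ := app_infty g
    rw [← h1, hw]
    exact app_infty u
  · ext b
    exact hw (Sum.inl b)
  · ext c
    exact hw (Sum.inr c)

/-- A criterion for pushouts in `LC`. -/
theorem isPushout_of {i : A ⟶ B} {f : A ⟶ C} {g : B ⟶ D} {k : C ⟶ D} (w : i ≫ g = f ≫ k)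
    (hs : ∀ d : OnePoint D, (∃ b, app g b = d) ∨ ∃ c, app k c = d)
    (hk : Function.Injective (app k))
    (hgk : ∀ b c, app g b = app k c → ∃ a, app i a = b ∧ app f a = c)
    (hg : ∀ b b', app g b = app g b' →
      b = b' ∨ ∃ a a', app i a = b ∧ app i a' = b' ∧ app f a = app f a') :
    IsPushout i f g k := by
  have hjoint : ∀ {Z : LC} (m n : D ⟶ Z), g ≫ m = g ≫ n → k ≫ m = k ≫ n → m = n := by
    intro Z m n h1 h2
    apply hom_ext
    intro d
    rcases hs d with ⟨b, hb⟩ | ⟨c, hc⟩
    · rw [← hb, ← app_comp, ← app_comp, h1]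
    · rw [← hc, ← app_comp, ← app_comp, h2]
  have hex : ∀ {Z : LC} (u : B ⟶ Z) (v : C ⟶ Z), i ≫ u = f ≫ v →
      ∃ w : D ⟶ Z, g ≫ w = u ∧ k ≫ w = v := by
    intro Z u v huv
    have huv' : ∀ a, app u (app i a) = app v (app f a) := fun a => by
      rw [← app_comp, ← app_comp, huv]
    refine exists_glue hs u v ?_ ?_ ?_
    · intro b b' h
      rcases hg b b' h with rfl | ⟨a, a', rfl, rfl, h'⟩
      · rfl
      · rw [huv', huv', h']
    · intro b c h
      obtain ⟨a, rfl, rfl⟩ := hgk b c h
      exact huv' a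
    · intro c c' h
      rw [hk h]
  refine ⟨⟨w⟩, ⟨PushoutCocone.IsColimit.mk w (fun s => (hex s.inl s.inr s.condition).choose)
    (fun s => (hex s.inl s.inr s.condition).choose_spec.1)
    (fun s => (hex s.inl s.inr s.condition).choose_spec.2) ?_⟩⟩
  intro s m h1 h2
  exact hjoint _ _ (h1.trans (hex s.inl s.inr s.condition).choose_spec.1.symm)
    (h2.trans (hex s.inl s.inr s.condition).choose_spec.2.symm)

end

end Vale.Agent.P251.H
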