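import Vale.Agent.P251.G.Homotopy

/-!
# P251, part H: pushouts in `LC`

A commutative square of `LC` is a pushout iff it is one on pointed sets (compactness); we prove the
case in which the left map is injective.
-/

open CategoryTheory MonoidalCategory Limits Topology OnePoint

namespace Vale.Agent.P251.H.Sq

open Vale.Agent.P251.G Vale.Agent.P251.G.LC

variable {A B C D : LC}

section

variable {i : A ⟶ B} {f : A ⟶ C} {g : B ⟶ D} {k : C ⟶ D}

open scoped Classical in
/-- the induced function on the pushout -/
noncomputable def pushFun {Z : LC} (p : B ⟶ Z) (q : C ⟶ Z) (g : B ⟶ D) (k : C ⟶ D)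
    (d : OnePoint D) : OnePoint Z :=
  if h : ∃ c, app k c = d then app q h.choose
  else if h : ∃ b, app g b = d then app p h.choose else ∞

/-- criterion for a square to be a pushout -/
theorem isPushout_of_sets (w : i ≫ g = f ≫ k)
    (hs : ∀ d : D, (∃ c, app k c = d) ∨ (∃ b, app g b = d))
    (hk : Function.Injective (app k))
    (hg : ∀ b b', app g b = app g b' → b = b' ∨ ∃ c, app g b = app k c)
    (hgk : ∀ b c, app g b = app k c → ∃ a, app i a = b ∧ app f a = c) : IsPushout i f g k := by
  have hs' : ∀ d : OnePoint D, (∃ c, app k c = d) ∨ (∃ b, app g b = d) := by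
    intro d
    induction d using OnePoint.rec with
    | infty => exact Or.inl ⟨∞, app_infty k⟩
    | coe d => exact hs d
  -- the descended function
  have key : ∀ {Z : LC} (p : B ⟶ Z) (q : C ⟶ Z), i ≫ p = f ≫ q →
      (∀ c, pushFun p q g k (app k c) = app q c) ∧
      (∀ b, pushFun p q g k (app g b) = app p b) := by
    intro Z p q hpq
    have h1 : ∀ c, pushFun p q g k (app k c) = app q c := by
      intro c
      unfold pushFun
      have h : ∃ c', app k c' = app k c := ⟨c, rfl⟩
      rw [dif_pos h, hk h.choose_spec]
    refine ⟨h1, ?_⟩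
    intro b
    by_cases h : ∃ c, app k c = app g b
    · obtain ⟨c, hc⟩ := h
      rw [← hc, h1]
      obtain ⟨a, rfl, rfl⟩ := hgk b c hc.symm
      have := congrArg (fun m => app m a) hpq
      simpa using this.symm
    · unfold pushFun
      rw [dif_neg h]
      have h' : ∃ b', app g b' = app g b := ⟨b, rfl⟩
      rw [dif_pos h']
      rcases hg _ _ h'.choose_spec with h2 | ⟨c, hc⟩
      · rw [h2]
      · exact absurd ⟨c, (h'.choose_spec.symm.trans hc).symm⟩ h
  -- quotient map
  let G : OnePoint B ⊕ OnePoint C → OnePoint D := Sum.elim (app g) (app k)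
  have hG : IsQuotientMap G := by
    apply IsClosedMap.isQuotientMap
    · exact (Continuous.isClosedMap ((continuous_app g).sumElim (continuous_app k)))
    · exact (continuous_app g).sumElim (continuous_app k)
    · intro d
      rcases hs' d with ⟨c, hc⟩ | ⟨b, hb⟩
      · exact ⟨Sum.inr c, hc⟩
      · exact ⟨Sum.inl b, hb⟩
  refine ⟨⟨w⟩, ⟨PushoutCocone.IsColimit.mk _ (fun s => ?_) (fun s => ?_) (fun s => ?_)
    (fun s m h1 h2 => ?_)⟩⟩
  · exact ⟨⟨pushFun s.inl s.inr g k, by
      rw [hG.continuous_iff]
      have : pushFun s.inl s.inr g k ∘ G = Sum.elim (app s.inl) (app s.inr) := by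
        ext x
        rcases x with b | c
        · exact (key s.inl s.inr s.condition).2 b
        · exact (key s.inl s.inr s.condition).1 c
      rw [this]
      exact (continuous_app _).sumElim (continuous_app _)⟩, by
      change pushFun s.inl s.inr g k ∞ = ∞
      have := (key s.inl s.inr s.condition).1 ∞
      rwa [app_infty, app_infty] at this⟩
  · apply hom_ext
    intro b
    exact (key s.inl s.inr s.condition).2 b
  · apply hom_ext
    intro c
    exact (key s.inl s.inr s.condition).1 c
  · apply hom_ext
    intro d
    rcases hs' d with ⟨c, hc⟩ | ⟨b, hb⟩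
    · rw [← hc]
      exact (congrArg (fun m => app m c) h2).trans ((key s.inl s.inr s.condition).1 c).symm
    · rw [← hb]
      exact (congrArg (fun m => app m b) h1).trans ((key s.inl s.inr s.condition).2 b).symm

end

end Vale.Agent.P251.H.Sq
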