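import Vale.Agent.P251.H.StabInput
import Vale.Agent.P251.H.LCGlue
import Mathlib.CategoryTheory.Limits.Shapes.Pullback.IsPullback.Basic
import Mathlib.CategoryTheory.Limits.Preserves.Shapes.Pullbacks

/-!
# P251, part H: naive homotopy in a `StabInput` category

`MHtpy` is an equivalence relation compatible with composition and tensor products; `MHtpy.sigma`:
homotopies on the summands of a coproduct glue.
-/

open CategoryTheory MonoidalCategory Limits Topology OnePoint

namespace Vale.Agent.P251.H

open Vale.Agent.P251.G Vale.Agent.P251.G.LC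

universe v u

section LCside

/-- the first half `t ↦ t/2` of the unit interval -/
noncomputable def half₀ : II ⟶ II :=
  ofCompact (X := II) (Y := II)
    (fun t : unitInterval => (⟨t.1 / 2, by
      have := t.2.1; have := t.2.2; constructor <;> linarith⟩ : unitInterval))
    (by fun_prop)

/-- the second half `t ↦ (1+t)/2` of the unit interval -/
noncomputable def half₁ : II ⟶ II :=
  ofCompact (X := II) (Y := II)
    (fun t : unitInterval => (⟨(1 + t.1) / 2, by
      have := t.2.1; have := t.2.2; constructor <;> linarith⟩ : unitInterval))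
    (by fun_prop)

/-- the reversal `t ↦ 1-t` of the unit interval -/
noncomputable def revII : II ⟶ II :=
  ofCompact (X := II) (Y := II) (fun t : unitInterval => unitInterval.symm t) (by fun_prop)

/-- the projection of the interval to the point -/
def projII : II ⟶ 𝟙_ LC := ofCompact (X := II) (Y := LC.of Unit) (fun _ => ()) continuous_const

theorem point_half₀ (t : unitInterval) : point (X := II) t ≫ half₀ =
    point (X := II) (⟨t.1 / 2, by
      have := t.2.1; have := t.2.2; constructor <;> linarith⟩ : unitInterval) := by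
  apply hom_ext; intro x; rfl

theorem point_half₁ (t : unitInterval) : point (X := II) t ≫ half₁ =
    point (X := II) (⟨(1 + t.1) / 2, by
      have := t.2.1; have := t.2.2; constructor <;> linarith⟩ : unitInterval) := by
  apply hom_ext; intro x; rfl

theorem point_revII (t : unitInterval) :
    point (X := II) t ≫ revII = point (X := II) (unitInterval.symm t) := by
  apply hom_ext; intro x; rfl

@[reassoc (attr := simp)]
theorem point_projII (t : unitInterval) : point (X := II) t ≫ projII = 𝟙 (𝟙_ LC) := by
  apply hom_ext; intro x; rfl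

theorem half₀_zero : point (X := II) 0 ≫ half₀ = point (X := II) 0 := by
  rw [point_half₀]; congr 1; ext; simp

theorem half₁_one : point (X := II) 1 ≫ half₁ = point (X := II) 1 := by
  rw [point_half₁]; congr 1; ext; norm_num

theorem half_half : point (X := II) 1 ≫ half₀ = point (X := II) 0 ≫ half₁ := by
  rw [point_half₀, point_half₁]; congr 1; ext; norm_num

theorem app_ofCompact_injective {X Y : LC} [CompactSpace X] (f : X → Y) (hf : Continuous f)
    (h : Function.Injective f) : Function.Injective (app (ofCompact f hf)) := by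
  intro x y hxy
  induction x using OnePoint.rec with
  | infty =>
    induction y using OnePoint.rec with
    | infty => rfl
    | coe y =>
      rw [app_infty, app_ofCompact_coe] at hxy
      exact absurd hxy (OnePoint.infty_ne_coe _)
  | coe x =>
    induction y using OnePoint.rec with
    | infty =>
      rw [app_infty, app_ofCompact_coe] at hxy
      exact absurd hxy (OnePoint.coe_ne_infty _)
    | coe y =>
      rw [app_ofCompact_coe, app_ofCompact_coe] at hxy
      rw [h (OnePoint.coe_injective hxy)]

theorem injective_point {X : LC} (x : X) : Function.Injective (app (point x)) :=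
  app_ofCompact_injective (X := LC.of Unit) _ _ (fun _ _ _ => rfl)

theorem injective_half₀ : Function.Injective (app half₀) := by
  apply app_ofCompact_injective
  intro s t h
  have := congrArg Subtype.val h
  simp only at this
  ext
  linarith

theorem injective_half₁ : Function.Injective (app half₁) := by
  apply app_ofCompact_injective
  intro s t h
  have := congrArg Subtype.val h
  simp only at this
  ext
  linarith

/-- `[0,1] = [0,1/2] ∪ [1/2,1]`. -/
theorem isPushout_half :
    IsPushout (point (X := II) 1) (point (X := II) 0) half₀ half₁ := by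
  refine isPushout_of half_half ?_ injective_half₁ ?_ ?_
  · intro d
    induction d using OnePoint.rec with
    | infty => exact Or.inl ⟨∞, app_infty _⟩
    | coe d =>
      have h0 := d.2.1
      have h1 := d.2.2
      by_cases h : d.1 ≤ 1 / 2
      · left
        refine ⟨((⟨2 * d.1, by constructor <;> linarith⟩ : unitInterval) : OnePoint unitInterval),
          ?_⟩
        change (((⟨2 * d.1 / 2, _⟩ : unitInterval)) : OnePoint unitInterval) = _
        congr 1
        ext
        change 2 * d.1 / 2 = d.1
        ring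
      · right
        rw [not_le] at h
        refine ⟨((⟨2 * d.1 - 1, by constructor <;> linarith⟩ : unitInterval) :
          OnePoint unitInterval), ?_⟩
        change (((⟨(1 + (2 * d.1 - 1)) / 2, _⟩ : unitInterval)) : OnePoint unitInterval) = _
        congr 1
        ext
        change (1 + (2 * d.1 - 1)) / 2 = d.1
        ring
  · intro b c h
    induction b using OnePoint.rec with
    | infty =>
      induction c using OnePoint.rec with
      | infty => exact ⟨∞, app_infty _, app_infty _⟩
      | coe c =>
        rw [app_infty] at h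
        exact absurd h (OnePoint.infty_ne_coe _)
    | coe b =>
      induction c using OnePoint.rec with
      | infty =>
        rw [app_infty half₁] at h
        exact absurd h (OnePoint.coe_ne_infty _)
      | coe c =>
        have h' := congrArg Subtype.val (OnePoint.coe_injective h)
        change b.1 / 2 = (1 + c.1) / 2 at h'
        have hb := b.2.2
        have hc := c.2.1
        refine ⟨((() : Unit) : OnePoint Unit), ?_, ?_⟩
        · change ((1 : unitInterval) : OnePoint unitInterval) = b
          congr 1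
          ext
          change (1 : ℝ) = b.1
          linarith
        · change ((0 : unitInterval) : OnePoint unitInterval) = c
          congr 1
          ext
          change (0 : ℝ) = c.1
          linarith
  · intro b b' h
    exact Or.inl (injective_half₀ h)

end LCside

namespace StabInput

variable {M : Type u} [Category.{v} M] [MonoidalCategory M] [SymmetricCategory M]
    [MonoidalClosed M] [HasZeroMorphisms M] [HasColimitsOfSize.{0, 0} M] [StabInput M]

open Functor.LaxMonoidal Functor.OplaxMonoidal

/-- the time `t` point of `I` -/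
abbrev pt (t : unitInterval) : 𝟙_ M ⟶ I M := ε (J M) ≫ (J M).map (point (X := II) t)

/-- the map of `I` to the unit -/
abbrev ptI : I M ⟶ 𝟙_ M := (J M).map projII ≫ η (J M)

theorem inc_def (t : unitInterval) (X : M) : inc t X = (ρ_ X).inv ≫ X ◁ pt t := rfl

@[reassoc (attr := simp)]
theorem pt_ptI (t : unitInterval) : (pt t : 𝟙_ M ⟶ I M) ≫ ptI = 𝟙 (𝟙_ M) := by
  have h : (J M).map (point (X := II) t) ≫ (J M).map projII = 𝟙 _ := by
    rw [← Functor.map_comp, point_projII, CategoryTheory.Functor.map_id]
  rw [Category.assoc, reassoc_of% h, Functor.Monoidal.ε_η]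

/-- the projection of the cylinder -/
def pr (X : M) : X ⊗ I M ⟶ X := X ◁ ptI ≫ (ρ_ X).hom

@[reassoc (attr := simp)]
theorem inc_pr (t : unitInterval) (X : M) : inc t X ≫ pr X = 𝟙 X := by
  rw [inc_def, pr, Category.assoc, ← MonoidalCategory.whiskerLeft_comp_assoc, pt_ptI,
    MonoidalCategory.whiskerLeft_id, Category.id_comp, Iso.inv_hom_id]

@[reassoc]
theorem inc_naturality (t : unitInterval) {X Y : M} (f : X ⟶ Y) :
    inc t X ≫ f ▷ I M = f ≫ inc t Y := by
  rw [inc_def, inc_def, Category.assoc, whisker_exchange, ← rightUnitor_inv_naturality_assoc]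

@[reassoc]
theorem pr_naturality {X Y : M} (f : X ⟶ Y) : f ▷ I M ≫ pr Y = pr X ≫ f := by
  rw [pr, pr, Category.assoc, ← rightUnitor_naturality, ← whisker_exchange_assoc]

theorem inc_comp_map {t s : unitInterval} (X : M) {f : II ⟶ II}
    (h : point (X := II) t ≫ f = point (X := II) s) :
    inc t X ≫ X ◁ (J M).map f = inc s X := by
  rw [inc_def, inc_def, Category.assoc, ← MonoidalCategory.whiskerLeft_comp, Category.assoc,
    ← Functor.map_comp, h]

theorem inc_comp_map_assoc {t s : unitInterval} (X : M) {f : II ⟶ II}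
    (h : point (X := II) t ≫ f = point (X := II) s) {Z : M} (k : X ⊗ I M ⟶ Z) :
    inc t X ≫ X ◁ (J M).map f ≫ k = inc s X ≫ k := by
  rw [← Category.assoc, inc_comp_map X h]

theorem inc_tensor (t : unitInterval) (Z X : M) :
    inc t (Z ⊗ X) ≫ (α_ Z X (I M)).hom = Z ◁ inc t X := by
  rw [inc_def, inc_def, Category.assoc, tensor_whiskerLeft, Category.assoc, Category.assoc,
    Iso.inv_hom_id, Category.comp_id, rightUnitor_tensor_inv, Category.assoc,
    Iso.inv_hom_id_assoc, MonoidalCategory.whiskerLeft_comp Z (ρ_ X).inv]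

/-- pushouts of `LC` along injective maps, tensored with an object of `M` -/
theorem isPushout_tensor (X : M) {A B C D : LC} {i : A ⟶ B} {f : A ⟶ C} {g : B ⟶ D} {k : C ⟶ D}
    (hi : Function.Injective (app i)) (h : IsPushout i f g k) :
    IsPushout (X ◁ (J M).map i) (X ◁ (J M).map f) (X ◁ (J M).map g) (X ◁ (J M).map k) :=
  (StabInput.pushout i f g k hi h).map (tensorLeft X)

omit [SymmetricCategory M] [HasZeroMorphisms M] [HasColimitsOfSize.{0, 0} M] [StabInput M] in
/-- pushouts of `M` tensored with an object on the left -/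
theorem isPushout_whiskerLeft (X : M) {A B C D : M} {i : A ⟶ B} {f : A ⟶ C} {g : B ⟶ D}
    {k : C ⟶ D} (h : IsPushout i f g k) : IsPushout (X ◁ i) (X ◁ f) (X ◁ g) (X ◁ k) :=
  h.map (tensorLeft X)

omit [HasZeroMorphisms M] [HasColimitsOfSize.{0, 0} M] [StabInput M] in
/-- `- ⊗ Y` preserves colimits since it is isomorphic to `Y ⊗ -` -/
instance preservesColimits_tensorRight (Y : M) :
    PreservesColimitsOfSize.{0, 0} (tensorRight Y) :=
  preservesColimits_of_natIso (BraidedCategory.tensorLeftIsoTensorRight Y)

omit [HasZeroMorphisms M] [HasColimitsOfSize.{0, 0} M] [StabInput M] in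
/-- pushouts of `M` tensored with an object on the right -/
theorem isPushout_whiskerRight (X : M) {A B C D : M} {i : A ⟶ B} {f : A ⟶ C} {g : B ⟶ D}
    {k : C ⟶ D} (h : IsPushout i f g k) : IsPushout (i ▷ X) (f ▷ X) (g ▷ X) (k ▷ X) :=
  h.map (tensorRight X)

/-- Two homotopies which match can be concatenated. -/
theorem exists_concat {X Y : M} (H K : X ⊗ I M ⟶ Y) (h : inc 1 X ≫ H = inc 0 X ≫ K) :
    ∃ G : X ⊗ I M ⟶ Y, X ◁ (J M).map half₀ ≫ G = H ∧ X ◁ (J M).map half₁ ≫ G = K := by
  have hp := isPushout_tensor X (injective_point (X := II) 1) isPushout_half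
  have hc : X ◁ (J M).map (point (X := II) 1) ≫ H = X ◁ (J M).map (point (X := II) 0) ≫ K := by
    have e1 : ∀ (t : unitInterval) (G : X ⊗ I M ⟶ Y),
        X ◁ (J M).map (point (X := II) t) ≫ G = X ◁ η (J M) ≫ (ρ_ X).hom ≫ inc t X ≫ G := by
      intro t G
      rw [inc_def, Category.assoc, Iso.hom_inv_id_assoc,
        ← MonoidalCategory.whiskerLeft_comp_assoc, Functor.Monoidal.η_ε_assoc]
    rw [e1, e1, h]
  exact ⟨hp.desc H K hc, hp.inl_desc _ _ _, hp.inr_desc _ _ _⟩

namespace MHtpy

variable {X Y Z W : M}

theorem refl (f : X ⟶ Y) : MHtpy f f :=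
  ⟨pr X ≫ f, by rw [inc_pr_assoc], by rw [inc_pr_assoc]⟩

theorem of_eq {f g : X ⟶ Y} (h : f = g) : MHtpy f g := by
  subst h; exact refl f

theorem symm {f g : X ⟶ Y} (h : MHtpy f g) : MHtpy g f := by
  obtain ⟨H, h0, h1⟩ := h
  refine ⟨X ◁ (J M).map revII ≫ H, ?_, ?_⟩
  · rw [inc_comp_map_assoc X (by rw [point_revII, unitInterval.symm_zero]), h1]
  · rw [inc_comp_map_assoc X (by rw [point_revII, unitInterval.symm_one]), h0]

theorem trans {f g h : X ⟶ Y} (hfg : MHtpy f g) (hgh : MHtpy g h) : MHtpy f h := by
  obtain ⟨H, h0, h1⟩ := hfg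
  obtain ⟨K, k0, k1⟩ := hgh
  obtain ⟨G, hG0, hG1⟩ := exists_concat H K (h1.trans k0.symm)
  refine ⟨G, ?_, ?_⟩
  · rw [← h0, ← hG0, inc_comp_map_assoc X half₀_zero]
  · rw [← k1, ← hG1, inc_comp_map_assoc X half₁_one]

theorem equivalence (X Y : M) : Equivalence (MHtpy (X := X) (Y := Y)) :=
  ⟨refl, symm, trans⟩

theorem comp_left (f : X ⟶ Y) {g h : Y ⟶ Z} (H : MHtpy g h) : MHtpy (f ≫ g) (f ≫ h) := by
  obtain ⟨K, h0, h1⟩ := H
  refine ⟨f ▷ I M ≫ K, ?_, ?_⟩
  · rw [inc_naturality_assoc, h0]
  · rw [inc_naturality_assoc, h1]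

theorem comp_right {f g : X ⟶ Y} (H : MHtpy f g) (h : Y ⟶ Z) : MHtpy (f ≫ h) (g ≫ h) := by
  obtain ⟨K, h0, h1⟩ := H
  refine ⟨K ≫ h, ?_, ?_⟩
  · rw [← Category.assoc, h0]
  · rw [← Category.assoc, h1]

theorem comp {f g : X ⟶ Y} (H : MHtpy f g) {h k : Y ⟶ Z} (K : MHtpy h k) :
    MHtpy (f ≫ h) (g ≫ k) :=
  (H.comp_right h).trans (comp_left g K)

theorem whiskerLeft (Z : M) {f g : X ⟶ Y} (H : MHtpy f g) : MHtpy (Z ◁ f) (Z ◁ g) := by
  obtain ⟨K, h0, h1⟩ := H
  refine ⟨(α_ Z X (I M)).hom ≫ Z ◁ K, ?_, ?_⟩
  · rw [← Category.assoc, inc_tensor, ← MonoidalCategory.whiskerLeft_comp, h0]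
  · rw [← Category.assoc, inc_tensor, ← MonoidalCategory.whiskerLeft_comp, h1]

theorem whiskerRight {f g : X ⟶ Y} (H : MHtpy f g) (Z : M) : MHtpy (f ▷ Z) (g ▷ Z) := by
  have h1 : ∀ k : X ⟶ Y, k ▷ Z = (β_ X Z).hom ≫ Z ◁ k ≫ (β_ Y Z).inv := by
    intro k
    rw [← Category.assoc, ← BraidedCategory.braiding_naturality_left, Category.assoc,
      Iso.hom_inv_id, Category.comp_id]
  rw [h1 f, h1 g]
  exact comp_left _ ((whiskerLeft Z H).comp_right _)

theorem tensor {f g : X ⟶ Y} (H : MHtpy f g) {h k : Z ⟶ W} (K : MHtpy h k) :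
    MHtpy (f ⊗ₘ h) (g ⊗ₘ k) := by
  rw [MonoidalCategory.tensorHom_def, MonoidalCategory.tensorHom_def]
  exact (H.whiskerRight Z).comp (K.whiskerLeft Y)

/-- the functor `J` preserves homotopies -/
theorem map {X Y : LC} {f g : X ⟶ Y} (H : LC.Homotopic f g) :
    MHtpy ((J M).map f) ((J M).map g) := by
  obtain ⟨K, h0, h1⟩ := H
  have key : ∀ t : unitInterval, inc t ((J M).obj X) ≫ μ (J M) X II = (J M).map (incl t X) := by
    intro t
    rw [inc_def, Category.assoc, MonoidalCategory.whiskerLeft_comp, Category.assoc,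
      Functor.LaxMonoidal.μ_natural_right, incl, Functor.map_comp,
      Functor.LaxMonoidal.right_unitality_inv_assoc]
  refine ⟨μ (J M) X II ≫ (J M).map K, ?_, ?_⟩
  · rw [← Category.assoc, key, ← Functor.map_comp, h0]
  · rw [← Category.assoc, key, ← Functor.map_comp, h1]

end MHtpy

end StabInput

end Vale.Agent.P251.H
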