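import Vale.Agent.P251.G.LC
import Mathlib.Topology.Homeomorph.Lemmas
import Mathlib.Topology.Constructions.SumProd

/-!
# P251, part H: pointed quasi-topological spaces

`PQ` is the category of pointed quasi-topological spaces (Spanier 1963), in the style of `LC`:
an object is a type `X` together with the plots `K → OnePoint X` for all compact Hausdorff
spaces `K`, subject to the usual sheaf-like conditions.  A morphism `X ⟶ Y` is a pointed function
`OnePoint X → OnePoint Y` preserving plots.

The tensor product is the smash product; its underlying type is the product.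
-/

open CategoryTheory MonoidalCategory Topology OnePoint

namespace Vale.Agent.P251.H

/-- A compact Hausdorff space. -/
structure CH where
  /-- the underlying type -/
  carrier : Type
  [top : TopologicalSpace carrier]
  [cs : CompactSpace carrier]
  [t2 : T2Space carrier]

namespace CH

instance : CoeSort CH Type := ⟨CH.carrier⟩

attribute [instance] CH.top CH.cs CH.t2

/-- the compact Hausdorff space given by a type -/
abbrev of (K : Type) [TopologicalSpace K] [CompactSpace K] [T2Space K] : CH := ⟨K⟩

/-- disjoint union -/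
abbrev sum (K L : CH) : CH := CH.of (K ⊕ L)

/-- product -/
abbrev prod (K L : CH) : CH := CH.of (K × L)

end CH

/-- A pointed quasi-topological space (the base point is the added point `∞`). -/
structure PQ where
  /-- the underlying type (without the base point) -/
  carrier : Type
  /-- the plots -/
  plot : ∀ (K : CH), (K → OnePoint carrier) → Prop
  plot_const : ∀ (K : CH) (x : OnePoint carrier), plot K (fun _ => x)
  plot_comp : ∀ {K L : CH} (g : L → K) (f : K → OnePoint carrier), Continuous g → plot K f →
    plot L (fun l => f (g l))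
  plot_sum : ∀ {K L : CH} (f : K ⊕ L → OnePoint carrier), plot K (fun k => f (Sum.inl k)) →
    plot L (fun l => f (Sum.inr l)) → plot (CH.sum K L) f
  plot_surj : ∀ {K L : CH} (g : L → K) (f : K → OnePoint carrier), Continuous g →
    Function.Surjective g → plot L (fun l => f (g l)) → plot K f

namespace PQ

instance : CoeSort PQ Type := ⟨PQ.carrier⟩

/-- Morphisms: pointed functions preserving the plots. -/
@[ext]
structure Hom (X Y : PQ) where
  /-- the function -/
  toFun : OnePoint X → OnePoint Y
  map_infty : toFun ∞ = ∞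
  map_plot : ∀ (K : CH) (f : K → OnePoint X), X.plot K f → Y.plot K (fun k => toFun (f k))

instance : Category PQ where
  Hom X Y := Hom X Y
  id X := ⟨fun x => x, rfl, fun _ _ h => h⟩
  comp f g := ⟨fun x => g.toFun (f.toFun x), by rw [f.map_infty, g.map_infty],
    fun K a h => g.map_plot K _ (f.map_plot K a h)⟩

/-- the underlying function of a morphism -/
def app {X Y : PQ} (f : X ⟶ Y) : OnePoint X → OnePoint Y := Hom.toFun f

@[simp] theorem app_infty {X Y : PQ} (f : X ⟶ Y) : app f ∞ = ∞ := Hom.map_infty f

@[simp] theorem app_id (X : PQ) (x : OnePoint X) : app (𝟙 X) x = x := rfl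

@[simp] theorem app_comp {X Y Z : PQ} (f : X ⟶ Y) (g : Y ⟶ Z) (x : OnePoint X) :
    app (f ≫ g) x = app g (app f x) := rfl

theorem app_plot {X Y : PQ} (f : X ⟶ Y) {K : CH} {a : K → OnePoint X} (ha : X.plot K a) :
    Y.plot K (fun k => app f (a k)) := Hom.map_plot f K a ha

/-- Morphisms are determined by their values on points. -/
@[ext (iff := false)]
theorem hom_ext {X Y : PQ} {f g : X ⟶ Y} (h : ∀ x : X, app f (x : OnePoint X) = app g x) :
    f = g := by
  apply Hom.ext
  funext x
  induction x using OnePoint.rec with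
  | infty => exact (Hom.map_infty f).trans (Hom.map_infty g).symm
  | coe x => exact h x

theorem hom_ext' {X Y : PQ} {f g : X ⟶ Y} (h : ∀ x : OnePoint X, app f x = app g x) :
    f = g := hom_ext fun x => h x

section zero

instance : Limits.HasZeroMorphisms PQ where
  zero X Y := ⟨⟨fun _ => ∞, rfl, fun K _ _ => Y.plot_const K ∞⟩⟩
  comp_zero := by intros; rfl
  zero_comp := by
    intro X Y Z f
    apply hom_ext
    intro x
    exact app_infty f

@[simp] theorem app_zero {X Y : PQ} (x : OnePoint X) : app (0 : X ⟶ Y) x = ∞ := rfl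

end zero

section gen

/-- The smallest class of plots containing `G`. -/
inductive Gen {X : Type} (G : ∀ (K : CH), (K → OnePoint X) → Prop) :
    ∀ (K : CH), (K → OnePoint X) → Prop
  | base {K : CH} (f : K → OnePoint X) (h : G K f) : Gen G K f
  | const (K : CH) (x : OnePoint X) : Gen G K (fun _ => x)
  | comp {K L : CH} (g : L → K) (f : K → OnePoint X) (hg : Continuous g) (hf : Gen G K f) :
      Gen G L (fun l => f (g l))
  | sum {K L : CH} (f : K ⊕ L → OnePoint X) (h1 : Gen G K (fun k => f (Sum.inl k)))
      (h2 : Gen G L (fun l => f (Sum.inr l))) : Gen G (CH.sum K L) f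
  | surj {K L : CH} (g : L → K) (f : K → OnePoint X) (hg : Continuous g)
      (hs : Function.Surjective g) (hf : Gen G L (fun l => f (g l))) : Gen G K f

/-- The quasi-topology generated by a class of functions. -/
abbrev gen (X : Type) (G : ∀ (K : CH), (K → OnePoint X) → Prop) : PQ where
  carrier := X
  plot := Gen G
  plot_const := Gen.const
  plot_comp := Gen.comp
  plot_sum := Gen.sum
  plot_surj := Gen.surj

/-- It suffices to check plots on generators. -/
theorem gen_plot_map {X : Type} {G : ∀ (K : CH), (K → OnePoint X) → Prop} {Y : PQ}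
    (φ : OnePoint X → OnePoint Y)
    (h : ∀ (K : CH) (f : K → OnePoint X), G K f → Y.plot K (fun k => φ (f k)))
    {K : CH} {f : K → OnePoint X} (hf : Gen G K f) : Y.plot K (fun k => φ (f k)) := by
  induction hf with
  | base f hf => exact h _ f hf
  | const K x => exact Y.plot_const K _
  | comp g f hg _ ih => exact Y.plot_comp g (fun k => φ (f k)) hg ih
  | sum f _ _ ih1 ih2 => exact Y.plot_sum (fun k => φ (f k)) ih1 ih2
  | surj g f hg hs _ ih => exact Y.plot_surj g (fun k => φ (f k)) hg hs ih

/-- A morphism out of a generated object. -/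
def genDesc {X : Type} {G : ∀ (K : CH), (K → OnePoint X) → Prop} {Y : PQ}
    (φ : OnePoint X → OnePoint Y) (h0 : φ ∞ = ∞)
    (h : ∀ (K : CH) (f : K → OnePoint X), G K f → Y.plot K (fun k => φ (f k))) :
    gen X G ⟶ Y :=
  ⟨φ, h0, fun _ _ hf => gen_plot_map φ h hf⟩

@[simp] theorem app_genDesc {X : Type} {G : ∀ (K : CH), (K → OnePoint X) → Prop} {Y : PQ}
    (φ : OnePoint X → OnePoint Y) (h0 : φ ∞ = ∞)
    (h : ∀ (K : CH) (f : K → OnePoint X), G K f → Y.plot K (fun k => φ (f k)))
    (x : OnePoint X) : app (genDesc φ h0 h) x = φ x := rfl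

end gen

section plots

/-- Plots may be checked on a surjective family of two. -/
theorem plot_cover (X : PQ) {K L M : CH} (f : M → OnePoint X) (g : K → M) (h : L → M)
    (hg : Continuous g) (hh : Continuous h) (hs : ∀ m, (∃ k, g k = m) ∨ ∃ l, h l = m)
    (h1 : X.plot K (fun k => f (g k))) (h2 : X.plot L (fun l => f (h l))) : X.plot M f := by
  refine X.plot_surj (L := CH.sum K L) (Sum.elim g h) f (hg.sumElim hh) ?_
    (X.plot_sum (fun x => f (Sum.elim g h x)) h1 h2)
  intro m
  rcases hs m with ⟨k, rfl⟩ | ⟨l, rfl⟩
  · exact ⟨Sum.inl k, rfl⟩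
  · exact ⟨Sum.inr l, rfl⟩

end plots

section prodPlot

/-- Plots on products `K × L`, in the first variable: the class of functions `a : K → OnePoint X`
such that `(k, l) ↦ F (a k) l` is a plot is closed under the operations of `Gen`. -/
theorem gen_prod_left {X : Type} {G : ∀ (K : CH), (K → OnePoint X) → Prop} {Y : PQ} (L : CH)
    (F : OnePoint X → L → OnePoint Y) (hF : ∀ x, Y.plot L (F x))
    (h : ∀ (K : CH) (a : K → OnePoint X), G K a →
      Y.plot (CH.prod K L) (fun p => F (a p.1) p.2))
    {K : CH} {a : K → OnePoint X} (ha : Gen G K a) :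
    Y.plot (CH.prod K L) (fun p => F (a p.1) p.2) := by
  induction ha with
  | base f hf => exact h _ f hf
  | const K x => exact Y.plot_comp (K := L) (L := CH.prod K L) Prod.snd (F x) continuous_snd (hF x)
  | @comp K K' g f hg _ ih =>
    exact Y.plot_comp (K := CH.prod K L) (L := CH.prod K' L) (fun p => (g p.1, p.2))
      (fun p => F (f p.1) p.2) (by fun_prop) ih
  | @sum K K' f _ _ ih1 ih2 =>
    refine Y.plot_cover (K := CH.prod K L) (L := CH.prod K' L) (M := CH.prod (CH.sum K K') L)
      (fun p => F (f p.1) p.2) (fun p => (Sum.inl p.1, p.2)) (fun p => (Sum.inr p.1, p.2))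
      (by fun_prop) (by fun_prop) ?_ ih1 ih2
    rintro ⟨k | k, l⟩
    · exact Or.inl ⟨(k, l), rfl⟩
    · exact Or.inr ⟨(k, l), rfl⟩
  | @surj K K' g f hg hs _ ih =>
    refine Y.plot_surj (K := CH.prod K L) (L := CH.prod K' L) (fun p => (g p.1, p.2))
      (fun p => F (f p.1) p.2) (by fun_prop) ?_ ih
    rintro ⟨k, l⟩
    obtain ⟨k', rfl⟩ := hs k
    exact ⟨(k', l), rfl⟩

end prodPlot

section tensor

open Vale.Agent.P251.G.LC (smash smash_coe_coe smash_infty_left smash_infty_right)

/-- the generating plots of the smash product: pairs of plots -/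
def TensorGen (X Y : PQ) (K : CH) (f : K → OnePoint (X × Y)) : Prop :=
  ∃ (a : K → OnePoint X) (b : K → OnePoint Y), X.plot K a ∧ Y.plot K b ∧
    f = fun k => smash (a k) (b k)

/-- The smash product. -/
abbrev tensor (X Y : PQ) : PQ := gen (X × Y) (TensorGen X Y)

theorem tensor_plot (X Y : PQ) {K : CH} {a : K → OnePoint X} {b : K → OnePoint Y}
    (ha : X.plot K a) (hb : Y.plot K b) : (tensor X Y).plot K (fun k => smash (a k) (b k)) :=
  Gen.base _ ⟨a, b, ha, hb, rfl⟩

/-- the pairing of elements of `OnePoint` descends to the smash product -/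
def unsmash {X Y : Type} {Z : Type} (F : OnePoint X → OnePoint Y → OnePoint Z) :
    OnePoint (X × Y) → OnePoint Z :=
  fun p => p.elim ∞ (fun q => F q.1 q.2)

@[simp] theorem unsmash_infty {X Y : Type} {Z : Type}
    (F : OnePoint X → OnePoint Y → OnePoint Z) : unsmash F ∞ = ∞ := rfl

@[simp] theorem unsmash_coe {X Y : Type} {Z : Type}
    (F : OnePoint X → OnePoint Y → OnePoint Z) (x : X) (y : Y) :
    unsmash F (((x, y) : X × Y) : OnePoint (X × Y)) = F x y := rfl

theorem unsmash_smash {X Y : Type} {Z : Type} (F : OnePoint X → OnePoint Y → OnePoint Z)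
    (h1 : ∀ y, F ∞ y = ∞) (h2 : ∀ x, F x ∞ = ∞) (x : OnePoint X) (y : OnePoint Y) :
    unsmash F (smash x y) = F x y := by
  induction x using OnePoint.rec with
  | infty => rw [smash_infty_left, h1]; rfl
  | coe x =>
    induction y using OnePoint.rec with
    | infty => rw [smash_infty_right, h2]; rfl
    | coe y => rfl

/-- A morphism out of a smash product. -/
def lift₂ {X Y Z : PQ} (F : OnePoint X → OnePoint Y → OnePoint Z) (h1 : ∀ y, F ∞ y = ∞)
    (h2 : ∀ x, F x ∞ = ∞)
    (h : ∀ (K : CH) (a : K → OnePoint X) (b : K → OnePoint Y), X.plot K a → Y.plot K b →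
      Z.plot K (fun k => F (a k) (b k))) : tensor X Y ⟶ Z :=
  genDesc (unsmash F) rfl (by
    rintro K f ⟨a, b, ha, hb, rfl⟩
    have : (fun k => unsmash F (smash (a k) (b k))) = fun k => F (a k) (b k) := by
      funext k; exact unsmash_smash F h1 h2 _ _
    rw [this]
    exact h K a b ha hb)

@[simp] theorem app_lift₂_coe {X Y Z : PQ} (F : OnePoint X → OnePoint Y → OnePoint Z)
    (h1 : ∀ y, F ∞ y = ∞) (h2 : ∀ x, F x ∞ = ∞)
    (h : ∀ (K : CH) (a : K → OnePoint X) (b : K → OnePoint Y), X.plot K a → Y.plot K b →
      Z.plot K (fun k => F (a k) (b k))) (x : X) (y : Y) :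
    app (lift₂ F h1 h2 h) (((x, y) : X × Y) : OnePoint (X × Y)) = F x y := rfl

theorem app_lift₂_smash {X Y Z : PQ} (F : OnePoint X → OnePoint Y → OnePoint Z)
    (h1 : ∀ y, F ∞ y = ∞) (h2 : ∀ x, F x ∞ = ∞)
    (h : ∀ (K : CH) (a : K → OnePoint X) (b : K → OnePoint Y), X.plot K a → Y.plot K b →
      Z.plot K (fun k => F (a k) (b k))) (x : OnePoint X) (y : OnePoint Y) :
    app (lift₂ F h1 h2 h) (smash x y) = F x y := unsmash_smash F h1 h2 x y

/-- Isomorphisms from bijections of the carriers compatible with plots. -/
def isoOfEquiv {X Y : PQ} (e : X ≃ Y)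
    (h1 : ∀ (K : CH) (f : K → OnePoint X), X.plot K f → Y.plot K (fun k => OnePoint.map e (f k)))
    (h2 : ∀ (K : CH) (f : K → OnePoint Y), Y.plot K f →
      X.plot K (fun k => OnePoint.map e.symm (f k))) : X ≅ Y where
  hom := ⟨OnePoint.map e, rfl, h1⟩
  inv := ⟨OnePoint.map e.symm, rfl, h2⟩
  hom_inv_id := by
    apply hom_ext; intro x
    change OnePoint.map e.symm (OnePoint.map e (x : OnePoint X)) = x
    simp
  inv_hom_id := by
    apply hom_ext; intro x
    change OnePoint.map e (OnePoint.map e.symm (x : OnePoint Y)) = x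
    simp

/-- tensor product of morphisms -/
def tensorHom' {X Y Z W : PQ} (f : X ⟶ Y) (g : Z ⟶ W) : tensor X Z ⟶ tensor Y W :=
  lift₂ (Z := tensor Y W) (fun x z => smash (app f x) (app g z))
    (by intro y; rw [app_infty]; rfl) (by intro x; rw [app_infty]; exact smash_infty_right _)
    (fun _ _ _ ha hb => tensor_plot Y W (app_plot f ha) (app_plot g hb))

theorem app_tensorHom'_smash {X Y Z W : PQ} (f : X ⟶ Y) (g : Z ⟶ W) (x : OnePoint X)
    (z : OnePoint Z) :
    app (tensorHom' f g) (smash x z) = smash (app f x) (app g z) :=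
  app_lift₂_smash _ _ _ _ x z

/-- A function out of `(X ⊗ Y) ⊗ Z` preserves plots as soon as it does so on triples of plots. -/
theorem plot_tensor_left {X Y Z W : PQ} (F : OnePoint (X × Y) → OnePoint Z → OnePoint W)
    (hz : ∀ x (K : CH) (c : K → OnePoint Z), Z.plot K c → W.plot K (fun k => F x (c k)))
    (h : ∀ (K : CH) (a : K → OnePoint X) (b : K → OnePoint Y) (c : K → OnePoint Z),
      X.plot K a → Y.plot K b → Z.plot K c →
      W.plot K (fun k => F (smash (a k) (b k)) (c k)))
    {K : CH} {d : K → OnePoint (X × Y)} {c : K → OnePoint Z} (hd : (tensor X Y).plot K d)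
    (hc : Z.plot K c) : W.plot K (fun k => F (d k) (c k)) := by
  have key := gen_prod_left (G := TensorGen X Y) (Y := W) K (fun x k => F x (c k))
    (fun x => hz x K c hc) (by
      rintro K' f ⟨a, b, ha, hb, rfl⟩
      exact h (CH.prod K' K) (fun p => a p.1) (fun p => b p.1) (fun p => c p.2)
        (X.plot_comp (L := CH.prod K' K) _ a continuous_fst ha)
        (Y.plot_comp (L := CH.prod K' K) _ b continuous_fst hb)
        (Z.plot_comp (L := CH.prod K' K) _ c continuous_snd hc)) hd
  exact W.plot_comp (K := CH.prod K K) (L := K) (fun k => (k, k)) _ (by fun_prop) key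

/-- the swap -/
def swapHom (X Y : PQ) : tensor X Y ⟶ tensor Y X :=
  lift₂ (Z := tensor Y X) (fun x y => smash y x) (fun y => smash_infty_right y)
    (fun x => smash_infty_left x) (fun _ _ _ ha hb => tensor_plot Y X hb ha)

theorem app_swapHom_smash (X Y : PQ) (x : OnePoint X) (y : OnePoint Y) :
    app (swapHom X Y) (smash x y) = smash y x := app_lift₂_smash _ _ _ _ x y

theorem tensor_ext {X Y Z : PQ} {f g : tensor X Y ⟶ Z}
    (h : ∀ (x : X) (y : Y), app f (smash (x : OnePoint X) (y : OnePoint Y)) =
      app g (smash (x : OnePoint X) (y : OnePoint Y))) : f = g := by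
  apply hom_ext
  rintro ⟨x, y⟩
  exact h x y

theorem tensor_ext₃ {X Y Z W : PQ} {f g : tensor (tensor X Y) Z ⟶ W}
    (h : ∀ (x : X) (y : Y) (z : Z),
      app f (smash (smash (x : OnePoint X) (y : OnePoint Y)) (z : OnePoint Z)) =
      app g (smash (smash (x : OnePoint X) (y : OnePoint Y)) (z : OnePoint Z))) : f = g := by
  apply hom_ext
  rintro ⟨⟨x, y⟩, z⟩
  exact h x y z

/-- the associator, as a function -/
def assocFun {X Y Z : Type} (p : OnePoint (X × Y)) (z : OnePoint Z) : OnePoint (X × (Y × Z)) :=
  p.elim ∞ (fun q => smash (q.1 : OnePoint X) (smash (q.2 : OnePoint Y) z))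

theorem assocFun_smash {X Y Z : Type} (x : OnePoint X) (y : OnePoint Y) (z : OnePoint Z) :
    assocFun (smash x y) z = smash x (smash y z) := by
  induction x using OnePoint.rec with
  | infty => rfl
  | coe x =>
    induction y using OnePoint.rec with
    | infty => rfl
    | coe y => rfl

theorem assocFun_infty_left {X Y Z : Type} (z : OnePoint Z) :
    assocFun (∞ : OnePoint (X × Y)) z = ∞ := rfl

theorem assocFun_infty_right {X Y Z : Type} (p : OnePoint (X × Y)) :
    assocFun p (∞ : OnePoint Z) = ∞ := by
  induction p using OnePoint.rec with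
  | infty => rfl
  | coe p =>
    obtain ⟨x, y⟩ := p
    change smash (x : OnePoint X) (smash (y : OnePoint Y) (∞ : OnePoint Z)) = ∞
    rw [smash_infty_right, smash_infty_right]

/-- the associator -/
def assocHom (X Y Z : PQ) : tensor (tensor X Y) Z ⟶ tensor X (tensor Y Z) :=
  lift₂ (X := tensor X Y) (Z := tensor X (tensor Y Z)) assocFun assocFun_infty_left
    assocFun_infty_right
    (fun K d c hd hc => plot_tensor_left (W := tensor X (tensor Y Z)) assocFun
      (fun p K c hc => by
        induction p using OnePoint.rec with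
        | infty => exact (tensor X (tensor Y Z)).plot_const K ∞
        | coe p =>
          exact tensor_plot X (tensor Y Z) (X.plot_const K (p.1 : OnePoint X))
            (tensor_plot Y Z (Y.plot_const K (p.2 : OnePoint Y)) hc))
      (fun K a b c ha hb hc => by
        simp_rw [assocFun_smash]
        exact tensor_plot X (tensor Y Z) ha (tensor_plot Y Z hb hc)) hd hc)

theorem app_assocHom_smash (X Y Z : PQ) (x : OnePoint X) (y : OnePoint Y) (z : OnePoint Z) :
    app (assocHom X Y Z) (smash (smash x y) z) = smash x (smash y z) := by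
  rw [assocHom, app_lift₂_smash, assocFun_smash]

/-- the inverse of the associator -/
def assocInv (X Y Z : PQ) : tensor X (tensor Y Z) ⟶ tensor (tensor X Y) Z :=
  swapHom X (tensor Y Z) ≫ tensorHom' (swapHom Y Z) (𝟙 X) ≫ assocHom Z Y X ≫
    swapHom Z (tensor Y X) ≫ tensorHom' (swapHom Y X) (𝟙 Z)

theorem app_assocInv_smash (X Y Z : PQ) (x : OnePoint X) (y : OnePoint Y) (z : OnePoint Z) :
    app (assocInv X Y Z) (smash x (smash y z)) = smash (smash x y) z := by
  simp only [assocInv, app_comp]
  rw [app_swapHom_smash X (tensor Y Z), app_tensorHom'_smash, app_swapHom_smash, app_id,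
    app_assocHom_smash, app_swapHom_smash Z (tensor Y X), app_tensorHom'_smash,
    app_swapHom_smash, app_id]

end tensor

section unit

open Vale.Agent.P251.G (LC)
open Vale.Agent.P251.G.LC (smash smash_coe_coe smash_infty_left smash_infty_right)

/-- The unit `S⁰`: the point with all continuous maps `K → OnePoint Unit`. -/
abbrev unit : PQ where
  carrier := Unit
  plot _ f := Continuous f
  plot_const _ _ := continuous_const
  plot_comp _ _ hg hf := hf.comp hg
  plot_sum _ h1 h2 := continuous_sum_dom.mpr ⟨h1, h2⟩
  plot_surj _ _ hg hs hf :=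
    (IsQuotientMap.of_surjective_continuous hs hg).continuous_iff.mpr hf

theorem isClopen_infty : IsClopen ({∞} : Set (OnePoint Unit)) := by
  refine ⟨isClosed_singleton, ?_⟩
  have : ({∞} : Set (OnePoint Unit)) = ((↑) '' (Set.univ : Set Unit))ᶜ := by
    ext x
    induction x using OnePoint.rec with
    | infty => simp
    | coe x => simp
  rw [this, OnePoint.isOpen_compl_image_coe]
  exact ⟨isClosed_univ, isCompact_univ⟩

/-- Plots can be glued along a decomposition of `K` given by a map to `S⁰`. -/
theorem plot_ite (X : PQ) {K : CH} {a : K → OnePoint Unit} (ha : Continuous a)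
    {f : K → OnePoint X} (hf : X.plot K f) :
    X.plot K (fun k => (a k).elim ∞ (fun _ => f k)) := by
  have h1 : IsClosed {k | a k = ∞} := isClopen_infty.isClosed.preimage ha
  have h2 : IsClosed {k | a k ≠ ∞} := (isClopen_infty.compl.preimage ha).isClosed
  have : CompactSpace {k | a k = ∞} := isCompact_iff_compactSpace.mp h1.isCompact
  have : CompactSpace {k | a k ≠ ∞} := isCompact_iff_compactSpace.mp h2.isCompact
  refine X.plot_cover (K := CH.of {k | a k = ∞}) (L := CH.of {k | a k ≠ ∞})
    (fun k => (a k).elim ∞ (fun _ => f k)) (fun k => k.1) (fun k => k.1)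
    continuous_subtype_val continuous_subtype_val ?_ ?_ ?_
  · intro k
    by_cases h : a k = ∞
    · exact Or.inl ⟨⟨k, h⟩, rfl⟩
    · exact Or.inr ⟨⟨k, h⟩, rfl⟩
  · have : (fun k : {k | a k = ∞} => (a k.1).elim ∞ (fun _ => f k.1)) = fun _ => ∞ := by
      funext k
      have := k.2
      rw [Set.mem_ofPred_eq] at this
      rw [this]
      rfl
    rw [this]
    exact X.plot_const _ _
  · have : (fun k : {k | a k ≠ ∞} => (a k.1).elim ∞ (fun _ => f k.1)) = fun k => f k.1 := by
      funext k
      obtain ⟨u, hu⟩ := OnePoint.ne_infty_iff_exists.mp k.2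
      rw [← hu]
      rfl
    rw [this]
    exact X.plot_comp (K := K) (L := CH.of {k | a k ≠ ∞}) (fun k => k.1) f
      continuous_subtype_val hf

/-- the function underlying the left unitor -/
def unitFun {X : Type} (u : OnePoint Unit) (x : OnePoint X) : OnePoint X :=
  u.elim ∞ (fun _ => x)

@[simp] theorem unitFun_coe {X : Type} (x : OnePoint X) :
    unitFun ((() : Unit) : OnePoint Unit) x = x := rfl

theorem unitFun_infty_left {X : Type} (x : OnePoint X) : unitFun ∞ x = ∞ := rfl

theorem unitFun_infty_right {X : Type} (u : OnePoint Unit) :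
    unitFun u (∞ : OnePoint X) = ∞ := by
  induction u using OnePoint.rec <;> rfl

/-- left unitor, forward -/
def leftHom (X : PQ) : tensor unit X ⟶ X :=
  lift₂ unitFun unitFun_infty_left unitFun_infty_right (fun _ _ _ ha hb => plot_ite X ha hb)

theorem app_leftHom_smash (X : PQ) (u : OnePoint Unit) (x : OnePoint X) :
    app (leftHom X) (smash u x) = unitFun u x :=
  app_lift₂_smash (X := unit) (Y := X) unitFun unitFun_infty_left unitFun_infty_right _ u x

/-- left unitor, backward -/
def leftInv (X : PQ) : X ⟶ tensor unit X :=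
  ⟨fun x => smash ((() : Unit) : OnePoint Unit) x, smash_infty_right _,
    fun K _ hf => tensor_plot unit X (unit.plot_const K _) hf⟩

theorem app_leftInv (X : PQ) (x : OnePoint X) :
    app (leftInv X) x = smash ((() : Unit) : OnePoint Unit) x := rfl

end unit

section ofLC

open Vale.Agent.P251.G (LC)

/-- The pointed quasi-topological space of a locally compact Hausdorff space: all continuous maps
into the one-point compactification are plots. -/
abbrev ofLC (X : LC) : PQ where
  carrier := X
  plot _ f := Continuous f
  plot_const _ _ := continuous_const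
  plot_comp _ _ hg hf := hf.comp hg
  plot_sum _ h1 h2 := continuous_sum_dom.mpr ⟨h1, h2⟩
  plot_surj _ _ hg hs hf :=
    (IsQuotientMap.of_surjective_continuous hs hg).continuous_iff.mpr hf

end ofLC

section monoidal

open Vale.Agent.P251.G (LC)
open Vale.Agent.P251.G.LC (smash smash_coe_coe smash_infty_left smash_infty_right)

instance : MonoidalCategoryStruct PQ where
  tensorObj X Y := tensor X Y
  tensorUnit := unit
  whiskerLeft X _ _ f := tensorHom' (𝟙 X) f
  whiskerRight f Z := tensorHom' f (𝟙 Z)
  tensorHom f g := tensorHom' f g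
  associator X Y Z :=
    { hom := assocHom X Y Z
      inv := assocInv X Y Z
      hom_inv_id := by
        apply tensor_ext₃; intro x y z
        rw [app_comp, app_assocHom_smash, app_assocInv_smash, app_id]
      inv_hom_id := by
        apply hom_ext; rintro ⟨x, ⟨y, z⟩⟩
        change app (assocHom X Y Z) (app (assocInv X Y Z)
          (smash (x : OnePoint X) (smash (y : OnePoint Y) (z : OnePoint Z)))) =
          smash (x : OnePoint X) (smash (y : OnePoint Y) (z : OnePoint Z))
        rw [app_assocInv_smash, app_assocHom_smash] }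
  leftUnitor X :=
    { hom := leftHom X
      inv := leftInv X
      hom_inv_id := by
        apply tensor_ext; rintro ⟨⟩ x
        rw [app_comp, app_leftHom_smash, app_leftInv, app_id]; rfl
      inv_hom_id := by
        apply hom_ext; intro x
        rw [app_comp, app_leftInv, app_leftHom_smash, app_id]; rfl }
  rightUnitor X :=
    { hom := swapHom X unit ≫ leftHom X
      inv := leftInv X ≫ swapHom unit X
      hom_inv_id := by
        apply tensor_ext; rintro x ⟨⟩
        simp only [app_comp, app_id]
        rw [app_swapHom_smash, app_leftHom_smash, unitFun_coe, app_leftInv, app_swapHom_smash]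
      inv_hom_id := by
        apply hom_ext; intro x
        simp only [app_comp, app_id]
        rw [app_leftInv, app_swapHom_smash, app_swapHom_smash, app_leftHom_smash, unitFun_coe] }

theorem tensorObj_eq (X Y : PQ) : X ⊗ Y = tensor X Y := rfl

theorem tensorUnit_eq : 𝟙_ PQ = unit := rfl

section

variable {X Y Z W : PQ}

theorem app_tensorHom_smash (f : X ⟶ Y) (g : Z ⟶ W) (x : OnePoint X) (z : OnePoint Z) :
    app (f ⊗ₘ g) (smash x z) = smash (app f x) (app g z) :=
  app_tensorHom'_smash f g x z

theorem app_whiskerLeft_smash (X : PQ) {Z W : PQ} (g : Z ⟶ W) (x : OnePoint X) (z : OnePoint Z) :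
    app (X ◁ g) (smash x z) = smash x (app g z) :=
  app_tensorHom'_smash (𝟙 X) g x z

theorem app_whiskerRight_smash {X Y : PQ} (f : X ⟶ Y) (Z : PQ) (x : OnePoint X)
    (z : OnePoint Z) :
    app (f ▷ Z) (smash x z) = smash (app f x) z :=
  app_tensorHom'_smash f (𝟙 Z) x z

theorem app_associator_smash (X Y Z : PQ) (x : OnePoint X) (y : OnePoint Y) (z : OnePoint Z) :
    app (α_ X Y Z).hom (smash (smash x y) z) = smash x (smash y z) :=
  app_assocHom_smash X Y Z x y z

theorem app_associator_inv_smash (X Y Z : PQ) (x : OnePoint X) (y : OnePoint Y)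
    (z : OnePoint Z) :
    app (α_ X Y Z).inv (smash x (smash y z)) = smash (smash x y) z :=
  app_assocInv_smash X Y Z x y z

theorem app_leftUnitor_smash (X : PQ) (x : OnePoint X) :
    app (λ_ X).hom (smash ((() : Unit) : OnePoint Unit) x) = x :=
  app_leftHom_smash X _ x

theorem app_rightUnitor_smash (X : PQ) (x : OnePoint X) :
    app (ρ_ X).hom (smash x ((() : Unit) : OnePoint Unit)) = x := by
  change app (leftHom X) (app (swapHom X unit) (smash x ((() : Unit) : OnePoint Unit))) = x
  rw [app_swapHom_smash, app_leftHom_smash, unitFun_coe]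

end

theorem hom_ext₂ {X Y Z : PQ} {f g : X ⊗ Y ⟶ Z}
    (h : ∀ (x : OnePoint X) (y : OnePoint Y), app f (smash x y) = app g (smash x y)) : f = g :=
  tensor_ext fun x y => h x y

theorem hom_ext₃ {X Y Z W : PQ} {f g : (X ⊗ Y) ⊗ Z ⟶ W}
    (h : ∀ (x : OnePoint X) (y : OnePoint Y) (z : OnePoint Z),
      app f (smash (smash x y) z) = app g (smash (smash x y) z)) : f = g :=
  tensor_ext₃ fun x y z => h x y z

theorem hom_ext₃' {X Y Z W : PQ} {f g : X ⊗ (Y ⊗ Z) ⟶ W}
    (h : ∀ (x : OnePoint X) (y : OnePoint Y) (z : OnePoint Z),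
      app f (smash x (smash y z)) = app g (smash x (smash y z))) : f = g := by
  apply hom_ext; rintro ⟨x, y, z⟩
  exact h x y z

theorem hom_ext₄ {X Y Z W V : PQ} {f g : ((X ⊗ Y) ⊗ Z) ⊗ W ⟶ V}
    (h : ∀ (x : OnePoint X) (y : OnePoint Y) (z : OnePoint Z) (w : OnePoint W),
      app f (smash (smash (smash x y) z) w) = app g (smash (smash (smash x y) z) w)) : f = g := by
  apply hom_ext; rintro ⟨⟨⟨x, y⟩, z⟩, w⟩
  exact h x y z w

instance : MonoidalCategory PQ where
  tensorHom_def f g := by
    apply hom_ext₂; intro x y
    rw [app_tensorHom_smash, app_comp, app_whiskerRight_smash, app_whiskerLeft_smash]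
  id_tensorHom_id X Y := by
    apply hom_ext₂; intro x y
    rw [app_tensorHom_smash]; rfl
  tensorHom_comp_tensorHom f₁ f₂ g₁ g₂ := by
    apply hom_ext₂; intro x y
    rw [app_comp, app_tensorHom_smash, app_tensorHom_smash, app_tensorHom_smash]; rfl
  whiskerLeft_id X Y := by
    apply hom_ext₂; intro x y
    rw [app_whiskerLeft_smash]; rfl
  id_whiskerRight X Y := by
    apply hom_ext₂; intro x y
    rw [app_whiskerRight_smash]; rfl
  associator_naturality f₁ f₂ f₃ := by
    apply hom_ext₃; intro x y z
    rw [app_comp, app_tensorHom_smash, app_tensorHom_smash, app_associator_smash, app_comp,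
      app_associator_smash, app_tensorHom_smash, app_tensorHom_smash]
  leftUnitor_naturality f := by
    apply tensor_ext; rintro ⟨⟩ y
    rw [app_comp, app_whiskerLeft_smash, app_leftUnitor_smash, app_comp, app_leftUnitor_smash]
  rightUnitor_naturality f := by
    apply tensor_ext; rintro y ⟨⟩
    rw [app_comp, app_whiskerRight_smash, app_rightUnitor_smash, app_comp, app_rightUnitor_smash]
  pentagon W X Y Z := by
    apply hom_ext₄; intro w x y z
    simp only [app_comp]
    rw [app_whiskerRight_smash, app_associator_smash, app_associator_smash,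
      app_whiskerLeft_smash, app_associator_smash, app_associator_smash, app_associator_smash]
  triangle X Y := by
    apply tensor_ext₃; rintro x ⟨⟩ y
    simp only [app_comp]
    rw [app_associator_smash, app_whiskerLeft_smash, app_leftUnitor_smash,
      app_whiskerRight_smash, app_rightUnitor_smash]

instance : BraidedCategory PQ where
  braiding X Y :=
    { hom := swapHom X Y
      inv := swapHom Y X
      hom_inv_id := by
        apply tensor_ext; intro x y
        rw [app_comp, app_swapHom_smash, app_swapHom_smash]; rfl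
      inv_hom_id := by
        apply tensor_ext; intro x y
        rw [app_comp, app_swapHom_smash, app_swapHom_smash]; rfl }
  braiding_naturality_right X Y Z f := by
    apply hom_ext₂; intro x y
    rw [app_comp, app_comp, app_whiskerLeft_smash]
    change app (swapHom X Z) _ = app (f ▷ X) (app (swapHom X Y) _)
    rw [app_swapHom_smash, app_swapHom_smash, app_whiskerRight_smash]
  braiding_naturality_left {X Y} f Z := by
    apply hom_ext₂; intro x y
    rw [app_comp, app_comp, app_whiskerRight_smash]
    change app (swapHom Y Z) _ = app (Z ◁ f) (app (swapHom X Z) _)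
    rw [app_swapHom_smash, app_swapHom_smash, app_whiskerLeft_smash]
  hexagon_forward X Y Z := by
    apply hom_ext₃; intro x y z
    simp only [app_comp]
    rw [app_associator_smash, app_whiskerRight_smash]
    change app (α_ Y Z X).hom (app (swapHom X (tensor Y Z)) (smash x (smash y z))) =
      app (Y ◁ _) (app (α_ Y X Z).hom (smash (app (swapHom X Y) (smash x y)) z))
    rw [app_swapHom_smash, app_swapHom_smash, app_associator_smash, app_associator_smash,
      app_whiskerLeft_smash]
    change _ = smash y (app (swapHom X Z) (smash x z))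
    rw [app_swapHom_smash]
  hexagon_reverse X Y Z := by
    apply hom_ext₃'; intro x y z
    simp only [app_comp]
    rw [app_associator_inv_smash, app_whiskerLeft_smash]
    change app (α_ Z X Y).inv (app (swapHom (tensor X Y) Z) (smash (smash x y) z)) =
      app (_ ▷ Y) (app (α_ X Z Y).inv (smash x (app (swapHom Y Z) (smash y z))))
    rw [app_swapHom_smash, app_swapHom_smash, app_associator_inv_smash,
      app_associator_inv_smash, app_whiskerRight_smash]
    change _ = smash (app (swapHom X Z) (smash x z)) y
    rw [app_swapHom_smash]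

theorem app_braiding_smash (X Y : PQ) (x : OnePoint X) (y : OnePoint Y) :
    app (β_ X Y).hom (smash x y) = smash y x := app_swapHom_smash X Y x y

instance : SymmetricCategory PQ where
  symmetry X Y := by
    apply hom_ext₂; intro x y
    rw [app_comp, app_braiding_smash, app_braiding_smash, app_id]

end monoidal

end PQ

end Vale.Agent.P251.H
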