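import Vale.Agent.P251.H.PiYoneda

/-!
# Morphisms in the localization, relative form

`q : C ⥤ K` is a full functor, `P` a well-copointed endofunctor of `K` such that the powers
`F^k (q A)` lift to `C`, and `L : C ⥤ T` is a localization functor for a class `W` of morphisms of
`C` such that `L` identifies morphisms with the same image under `q` and inverts the
transition maps `F^k A ⟶ A`.  If `A : C` is such that `X ↦ Pi (q A) (q X)` inverts `W`, then
`Pi (q A) (q X) → (L A ⟶ L X)` is bijective (`CoPtRel.phi_bijective`).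
-/

open CategoryTheory Category Opposite

universe v u v₁ u₁ v' u'

namespace Vale.Agent.P251.H

/-- Liftings to `C` of the powers of a well-copointed endofunctor of `K`. -/
structure CoPtRel {C : Type u₁} [Category.{v₁} C] {K : Type u} [Category.{v} K] (q : C ⥤ K)
    (P : CoPt K) where
  /-- the powers -/
  pwC : ℕ → C → C
  /-- the comparison -/
  c : ∀ (k : ℕ) (A : C), q.obj (pwC k A) ≅ P.pw k (q.obj A)

namespace CoPtRel

variable {C : Type u₁} [Category.{v₁} C] {K : Type u} [Category.{v} K] {q : C ⥤ K} [q.Full]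
  {P : CoPt K} (R : CoPtRel q P)

/-- A lifting of a morphism defined on a power. -/
noncomputable def lift {k : ℕ} {A X : C} (x : P.pw k (q.obj A) ⟶ q.obj X) : R.pwC k A ⟶ X :=
  q.preimage ((R.c k A).hom ≫ x)

@[simp] lemma q_lift {k : ℕ} {A X : C} (x : P.pw k (q.obj A) ⟶ q.obj X) :
    q.map (R.lift x) = (R.c k A).hom ≫ x := q.map_preimage _

/-- The lifting of the transition maps. -/
noncomputable def trC {k m : ℕ} (h : k ≤ m) (A : C) : R.pwC m A ⟶ R.pwC k A :=
  q.preimage ((R.c m A).hom ≫ P.tr h (q.obj A) ≫ (R.c k A).inv)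

@[simp] lemma q_trC {k m : ℕ} (h : k ≤ m) (A : C) :
    q.map (R.trC h A) = (R.c m A).hom ≫ P.tr h (q.obj A) ≫ (R.c k A).inv := q.map_preimage _

/-- The lifting of the transition map to `A`. -/
noncomputable def tkC (k : ℕ) (A : C) : R.pwC k A ⟶ A := R.lift (P.tk k (q.obj A))

@[simp] lemma q_tkC (k : ℕ) (A : C) :
    q.map (R.tkC k A) = (R.c k A).hom ≫ P.tk k (q.obj A) := R.q_lift _

section phi

variable {T : Type u'} [Category.{v'} T] (L : C ⥤ T)

/-- `L` is compatible with `q` and inverts the transition maps. -/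
structure Compat : Prop where
  map_eq {X Y : C} (f g : X ⟶ Y) : q.map f = q.map g → L.map f = L.map g
  isIso (k : ℕ) (A : C) : IsIso (L.map (R.tkC k A))

variable {L} (hL : R.Compat L)

include hL

lemma Compat.map_trC {k m : ℕ} (h : k ≤ m) (A : C) :
    L.map (R.trC h A) ≫ L.map (R.tkC k A) = L.map (R.tkC m A) := by
  rw [← L.map_comp]
  apply hL.map_eq
  rw [q.map_comp, q_trC, q_tkC, q_tkC, assoc, assoc, Iso.inv_hom_id_assoc, P.tr_tk]

lemma Compat.map_lift_tr {k m : ℕ} (h : k ≤ m) {A X : C} (x : P.pw k (q.obj A) ⟶ q.obj X) :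
    L.map (R.lift (P.tr h (q.obj A) ≫ x)) = L.map (R.trC h A) ≫ L.map (R.lift x) := by
  rw [← L.map_comp]
  apply hL.map_eq
  simp

omit hL in
/-- The comparison map `Pi A X → (L A ⟶ L X)`. -/
noncomputable def phi (hL : R.Compat L) (A X : C) :
    P.Pi (q.obj A) (q.obj X) → (L.obj A ⟶ L.obj X) :=
  Quotient.lift (fun x => (@asIso _ _ _ _ _ (hL.isIso x.1 A)).inv ≫ L.map (R.lift x.2)) (by
    rintro ⟨k, x⟩ ⟨l, y⟩ ⟨m, h, h', e⟩
    dsimp at e h h' ⊢
    have h1 := hL.isIso k A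
    have h2 := hL.isIso l A
    have h3 := hL.isIso m A
    have h4 : inv (L.map (R.tkC k A)) = inv (L.map (R.tkC m A)) ≫ L.map (R.trC h A) := by
      rw [IsIso.eq_inv_comp, IsIso.comp_inv_eq, hL.map_trC]
    have h5 : inv (L.map (R.tkC l A)) = inv (L.map (R.tkC m A)) ≫ L.map (R.trC h' A) := by
      rw [IsIso.eq_inv_comp, IsIso.comp_inv_eq, hL.map_trC]
    rw [h4, h5, assoc, assoc, ← hL.map_lift_tr, ← hL.map_lift_tr, e])

/-- The basic property of the comparison map. -/
lemma phi_cl_lift {A X : C} (k : ℕ) (x : P.pw k (q.obj A) ⟶ q.obj X) :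
    L.map (R.tkC k A) ≫ R.phi hL A X (P.cl k x) = L.map (R.lift x) := by
  have := hL.isIso k A
  change L.map (R.tkC k A) ≫ (asIso (L.map (R.tkC k A))).inv ≫ L.map _ = _
  simp

/-- The value of the comparison map on the class of a morphism of `C`. -/
lemma phi_cl {A X : C} (k : ℕ) (x : R.pwC k A ⟶ X) (t : R.pwC k A ⟶ A)
    (ht : q.map t = (R.c k A).hom ≫ P.tk k (q.obj A)) :
    L.map t ≫ R.phi hL A X (P.cl k ((R.c k A).inv ≫ q.map x)) = L.map x := by
  have h1 : L.map t = L.map (R.tkC k A) := hL.map_eq _ _ (by rw [ht, q_tkC])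
  rw [h1, phi_cl_lift]
  apply hL.map_eq
  simp

@[simp] lemma phi_cl_zero {A X : C} (x : A ⟶ X) :
    R.phi hL A X (P.cl 0 (q.map x)) = L.map x := by
  have := hL.isIso 0 A
  rw [← cancel_epi (L.map (R.tkC 0 A)), phi_cl_lift, ← L.map_comp]
  apply hL.map_eq
  rw [q_lift, q.map_comp, q_tkC, P.tk_zero, comp_id]

@[simp] lemma phi_unit (A : C) : R.phi hL A A (P.unit (q.obj A)) = 𝟙 _ := by
  have h := R.phi_cl_zero hL (𝟙 A)
  rw [q.map_id, L.map_id] at h
  exact h

lemma phi_map {A X Y : C} (f : X ⟶ Y) (x : P.Pi (q.obj A) (q.obj X)) :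
    R.phi hL A Y (P.map (q.obj A) (q.map f) x) = R.phi hL A X x ≫ L.map f := by
  obtain ⟨k, y, rfl⟩ := CoPt.cl_surj x
  have := hL.isIso k A
  rw [← cancel_epi (L.map (R.tkC k A)), CoPt.map_cl, phi_cl_lift, ← assoc, phi_cl_lift,
    ← L.map_comp]
  apply hL.map_eq
  simp

lemma phi_comap {A B X : C} (f : A ⟶ B) (x : P.Pi (q.obj B) (q.obj X)) :
    R.phi hL A X (P.comap (q.map f) (q.obj X) x) = L.map f ≫ R.phi hL B X x := by
  obtain ⟨k, y, rfl⟩ := CoPt.cl_surj x
  have := hL.isIso k A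
  let fk : R.pwC k A ⟶ R.pwC k B :=
    q.preimage ((R.c k A).hom ≫ P.pwMap k (q.map f) ≫ (R.c k B).inv)
  have hfk : q.map fk = (R.c k A).hom ≫ P.pwMap k (q.map f) ≫ (R.c k B).inv :=
    q.map_preimage _
  have h1 : L.map (R.tkC k A) ≫ L.map f = L.map fk ≫ L.map (R.tkC k B) := by
    rw [← L.map_comp, ← L.map_comp]
    apply hL.map_eq
    rw [q.map_comp, q.map_comp, q_tkC, q_tkC, hfk, assoc, assoc, assoc, Iso.inv_hom_id_assoc,
      P.tk_nat]
  rw [← cancel_epi (L.map (R.tkC k A)), CoPt.comap_cl, phi_cl_lift, ← assoc, h1, assoc,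
    phi_cl_lift, ← L.map_comp]
  apply hL.map_eq
  rw [q.map_comp, hfk, q_lift, q_lift]
  simp

end phi

section yoneda

variable {T : Type u'} [Category.{v'} T] {L : C ⥤ T} (hL : R.Compat L) (W : MorphismProperty C)
  [L.IsLocalization W]

/-- The comparison map as a natural transformation. -/
noncomputable def phiNat (A : C) :
    q ⋙ CoPt.piFunctorU.{v, u, v'} P (q.obj A) ⟶ L ⋙ CoPt.coyonedaU.{v, v', u'} T (L.obj A) where
  app X := TypeCat.ofHom (fun x => ⟨R.phi hL A X x.down⟩)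
  naturality X Y f := by
    ext x
    exact congrArg ULift.up (R.phi_map hL f x.down)

include W in
/-- **Morphisms in the localization.** -/
theorem phi_bijective (A : C)
    (hW : ∀ ⦃X Y : C⦄ (f : X ⟶ Y), W f → Function.Bijective (P.map (q.obj A) (q.map f))) (X : C) :
    Function.Bijective (R.phi hL A X) := by
  have hinv : W.IsInvertedBy (q ⋙ CoPt.piFunctorU.{v, u, v'} P (q.obj A)) := by
    intro X Y f hf
    rw [isIso_iff_bijective]
    exact (Equiv.ulift.symm.bijective.comp (hW f hf)).comp Equiv.ulift.bijective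
  let F' : T ⥤ Type (max v v') :=
    Localization.lift (q ⋙ CoPt.piFunctorU.{v, u, v'} P (q.obj A)) hinv L
  let e : L ⋙ F' ≅ q ⋙ CoPt.piFunctorU.{v, u, v'} P (q.obj A) := Localization.fac _ hinv L
  let τ : F' ⟶ CoPt.coyonedaU.{v, v', u'} T (L.obj A) :=
    Localization.liftNatTrans L W (q ⋙ CoPt.piFunctorU.{v, u, v'} P (q.obj A))
      (L ⋙ CoPt.coyonedaU.{v, v', u'} T (L.obj A)) F' _ (R.phiNat hL A)
  have hτ (X : C) (x : P.Pi (q.obj A) (q.obj X)) :
      (τ.app (L.obj X) (e.inv.app X ⟨x⟩)).down = R.phi hL A X x := by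
    have h1 : τ.app (L.obj X) = e.hom.app X ≫ (R.phiNat hL A).app X ≫ 𝟙 _ :=
      Localization.liftNatTrans_app L W (q ⋙ CoPt.piFunctorU.{v, u, v'} P (q.obj A))
        (L ⋙ CoPt.coyonedaU.{v, v', u'} T (L.obj A)) F' _ (R.phiNat hL A) X
    have h2 : e.inv.app X ≫ τ.app (L.obj X) = (R.phiNat hL A).app X := by
      rw [h1, comp_id, Iso.inv_hom_id_app_assoc]
    have h3 := ConcreteCategory.congr_hom h2 ⟨x⟩
    exact congrArg ULift.down h3
  let u₀ : F'.obj (L.obj A) := e.inv.app A ⟨P.unit (q.obj A)⟩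
  constructor
  · intro x x' hxx'
    have key (x : P.Pi (q.obj A) (q.obj X)) : F'.map (R.phi hL A X x) u₀ = e.inv.app X ⟨x⟩ := by
      obtain ⟨k, y, rfl⟩ := CoPt.cl_surj x
      let u₁ : F'.obj (L.obj (R.pwC k A)) := e.inv.app (R.pwC k A) ⟨P.cl k (R.c k A).inv⟩
      have h1 : F'.map (L.map (R.tkC k A)) u₁ = u₀ := by
        have := ConcreteCategory.congr_hom (e.inv.naturality (R.tkC k A)) ⟨P.cl k (R.c k A).inv⟩
        refine Eq.trans this.symm ?_
        change e.inv.app A ⟨P.map (q.obj A) (q.map (R.tkC k A)) (P.cl k (R.c k A).inv)⟩ = _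
        rw [CoPt.map_cl, q_tkC, Iso.inv_hom_id_assoc, CoPt.cl_tk]
      have h2 : F'.map (L.map (R.lift y)) u₁ = e.inv.app X ⟨P.cl k y⟩ := by
        have := ConcreteCategory.congr_hom (e.inv.naturality (R.lift y)) ⟨P.cl k (R.c k A).inv⟩
        refine Eq.trans this.symm ?_
        change e.inv.app X ⟨P.map (q.obj A) (q.map (R.lift y)) (P.cl k (R.c k A).inv)⟩ = _
        rw [CoPt.map_cl, q_lift, Iso.inv_hom_id_assoc]
      rw [← h1, ← h2, ← R.phi_cl_lift hL k y, F'.map_comp]
      rfl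
    have h3 : e.inv.app X ⟨x⟩ = e.inv.app X ⟨x'⟩ := by rw [← key, ← key, hxx']
    have h4 := congrArg (fun z => (e.hom.app X z).down) h3
    have h5 (z) : e.hom.app X (e.inv.app X z) = z :=
      ConcreteCategory.congr_hom (e.inv_hom_id_app X) z
    exact ((congrArg ULift.down (h5 ⟨x⟩)).symm.trans h4).trans (congrArg ULift.down (h5 ⟨x'⟩))
  · intro f
    refine ⟨(e.hom.app X (F'.map f u₀)).down, ?_⟩
    have h5 (z) : e.inv.app X (e.hom.app X z) = z :=
      ConcreteCategory.congr_hom (e.hom_inv_id_app X) z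
    rw [← hτ]
    change (τ.app (L.obj X) (e.inv.app X (e.hom.app X (F'.map f u₀)))).down = f
    rw [h5]
    have h6 := ConcreteCategory.congr_hom (τ.naturality f) u₀
    refine (congrArg ULift.down h6).trans ?_
    change (τ.app (L.obj A) u₀).down ≫ f = f
    rw [hτ, phi_unit, id_comp]

end yoneda

end CoPtRel

end Vale.Agent.P251.H
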