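import Vale.Agent.P251.H.PhiLoc
import Vale.Agent.P251.H.GoodPi
import Vale.Agent.P251.H.FlatCat

/-!
# P251, part H: morphisms in localizations of full subcategories of `M`

`P : ObjectProperty M` is closed under `U ⊗ -` and cylinders (`IsStabClosed P`, e.g. `Flat W`),
`L : P.FullSubcategory ⥤ T` is a localization functor for a good class `W` containing the maps
`U ⊗ X ⟶ X`.  The comparison map `phiM : PiM A.obj X.obj → (L.obj A ⟶ L.obj X)` is bijective if
`PiM A.obj` inverts `W`, e.g. if `W = piW GG` and `GG A.obj` (`phiM_bijective`).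
-/

open CategoryTheory MonoidalCategory Limits

namespace Vale.Agent.P251.H

open Vale.Agent.P251.G Vale.Agent.P251.G.LC

universe v u v' u'

namespace StabInput

variable {M : Type u} [Category.{v} M] [MonoidalCategory M] [SymmetricCategory M]
    [MonoidalClosed M] [HasZeroMorphisms M] [HasColimitsOfSize.{0, 0} M] [StabInput M]

/-- A class of objects closed under `U ⊗ -` and cylinders. -/
class IsStabClosed (P : ObjectProperty M) : Prop where
  U_tensor {X : M} : P X → P (U M ⊗ X)
  cyl {X : M} : P X → P (X ⊗ I M)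

instance (W : MorphismProperty M) [GoodW W] : IsStabClosed (Flat W) where
  U_tensor h := (flatInput W).flat_tensor
    ((flatInput W).flat_tensor (flatInput W).flat_L (flatInput W).flat_S) h
  cyl h := (flatInput W).flat_cyl h

variable (P : ObjectProperty M)

/-- The projection to the naive homotopy category. -/
abbrev qM : P.FullSubcategory ⥤ HM M := P.ι ⋙ HM.proj M

/-- The transition map `U^k ⊗ A ⟶ A`. -/
def tkM : (k : ℕ) → (A : M) → (((stab M).coPt.pw k ((HM.proj M).obj A)).obj ⟶ A)
  | 0, A => 𝟙 A
  | k + 1, A => (lamU M ▷ ((stab M).coPt.pw k ((HM.proj M).obj A)).obj ≫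
      (λ_ ((stab M).coPt.pw k ((HM.proj M).obj A)).obj).hom) ≫ tkM k A

theorem proj_tkM (k : ℕ) (A : M) :
    (HM.proj M).map (tkM k A) = (stab M).coPt.tk k ((HM.proj M).obj A) := by
  induction k with
  | zero => exact ((stab M).coPt.tk_zero _).symm
  | succ k ih =>
    refine Eq.trans ?_ ((stab M).coPt.tk_succ k _).symm
    rw [← ih]
    rfl

variable [IsStabClosed P]

theorem IsStabClosed.pw {A : M} (h : P A) (k : ℕ) :
    P ((stab M).coPt.pw k ((HM.proj M).obj A)).obj := by
  induction k with
  | zero => exact h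
  | succ k ih => exact IsStabClosed.U_tensor ih

/-- The powers `U^k ⊗ A` in the full subcategory. -/
@[reducible] def relM : CoPtRel (qM P) (stab M).coPt where
  pwC k A := ⟨((stab M).coPt.pw k ((HM.proj M).obj A.obj)).obj,
    IsStabClosed.pw P A.property k⟩
  c _ _ := Iso.refl _

/-- The transition map `U^k ⊗ A ⟶ A` in the full subcategory. -/
abbrev tkP (k : ℕ) (A : P.FullSubcategory) : (relM P).pwC k A ⟶ A :=
  ObjectProperty.homMk (tkM k A.obj)

variable {P} {T : Type u'} [Category.{v'} T] {L : P.FullSubcategory ⥤ T}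

/-- Functors inverting homotopy equivalences identify homotopic maps. -/
theorem map_eq_of_mHtpy {W : MorphismProperty M} [hW : GoodW W]
    (hL : (W.inverseImage P.ι).IsInvertedBy L) {X Y : P.FullSubcategory} (f g : X ⟶ Y)
    (h : MHtpy f.hom g.hom) : L.map f = L.map g := by
  obtain ⟨H, h0, h1⟩ := h
  let C : P.FullSubcategory := ⟨X.obj ⊗ I M, IsStabClosed.cyl X.property⟩
  let i0 : X ⟶ C := ObjectProperty.homMk (inc 0 X.obj)
  let i1 : X ⟶ C := ObjectProperty.homMk (inc 1 X.obj)
  let p : C ⟶ X := ObjectProperty.homMk (pr X.obj)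
  let H' : C ⟶ Y := ObjectProperty.homMk H
  have hp : IsIso (L.map p) := hL _ (by
    rw [MorphismProperty.inverseImage_iff]
    exact hW.hequiv (pr X.obj) (inc 0 X.obj) (mHtpy_pr_inc X.obj) (MHtpy.of_eq (inc_pr 0 X.obj)))
  have e0 : f = i0 ≫ H' := by ext; exact h0.symm
  have e1 : g = i1 ≫ H' := by ext; exact h1.symm
  have e2 : L.map i0 = L.map i1 := by
    rw [← cancel_mono (L.map p), ← L.map_comp, ← L.map_comp]
    congr 1
    ext
    exact (inc_pr 0 X.obj).trans (inc_pr 1 X.obj).symm
  rw [e0, e1, L.map_comp, L.map_comp, e2]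

theorem W_tkM {W : MorphismProperty M} [hW : GoodW W]
    (hlam : ∀ X : M, W (lamU M ▷ X ≫ (λ_ X).hom)) (k : ℕ) (A : M) : W (tkM k A) := by
  induction k with
  | zero => exact hW.isIso (𝟙 A)
  | succ k ih => exact hW.comp _ _ (hlam _) ih

theorem compatM {W : MorphismProperty M} [hW : GoodW W]
    (hlam : ∀ X : M, W (lamU M ▷ X ≫ (λ_ X).hom))
    (hL : (W.inverseImage P.ι).IsInvertedBy L) : (relM P).Compat L where
  map_eq f g h := map_eq_of_mHtpy hL f g ((HM.proj_map_eq_iff _ _).mp h)
  isIso k A := by
    have h : L.map ((relM P).tkC k A) = L.map (tkP P k A) := by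
      apply map_eq_of_mHtpy hL
      refine (HM.proj_map_eq_iff _ _).mp ?_
      refine ((relM P).q_tkC k A).trans ?_
      refine (Category.id_comp (((stab M).coPt).tk k ((qM P).obj A))).trans ?_
      exact (proj_tkM k A.obj).symm
    rw [h]
    exact hL _ (W_tkM hlam k A.obj)

section phi

variable (hL : (relM P).Compat L)

/-- The comparison map from stable homotopy classes to morphisms of the localization. -/
noncomputable def phiM (A X : P.FullSubcategory) : PiM A.obj X.obj → (L.obj A ⟶ L.obj X) :=
  (relM P).phi hL A X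

/-- The basic property of the comparison map. -/
theorem phiM_cl {A X : P.FullSubcategory} (k : ℕ) (x : (relM P).pwC k A ⟶ X) :
    L.map (tkP P k A) ≫ phiM hL A X ((stab M).coPt.cl k ((HM.proj M).map x.hom)) = L.map x := by
  have h := (relM P).phi_cl hL k x (tkP P k A) ((proj_tkM k A.obj).trans
    (Category.id_comp ((stab M).coPt.tk k ((HM.proj M).obj A.obj))).symm)
  refine Eq.trans ?_ h
  congr 2
  exact congrArg _ (Category.id_comp ((HM.proj M).map x.hom)).symm

@[simp] theorem phiM_cl_zero {A X : P.FullSubcategory} (x : A ⟶ X) :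
    phiM hL A X ((stab M).coPt.cl 0 ((HM.proj M).map x.hom)) = L.map x :=
  (relM P).phi_cl_zero hL x

@[simp] theorem phiM_unit (A : P.FullSubcategory) :
    phiM hL A A ((stab M).coPt.unit ((HM.proj M).obj A.obj)) = 𝟙 _ :=
  (relM P).phi_unit hL A

theorem phiM_map {A X Y : P.FullSubcategory} (f : X ⟶ Y) (x : PiM A.obj X.obj) :
    phiM hL A Y (mapM A.obj f.hom x) = phiM hL A X x ≫ L.map f :=
  (relM P).phi_map hL f x

theorem phiM_comap {A B X : P.FullSubcategory} (f : A ⟶ B) (x : PiM B.obj X.obj) :
    phiM hL A X (comapM f.hom X.obj x) = L.map f ≫ phiM hL B X x :=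
  (relM P).phi_comap hL f x

/-- **Morphisms in the localization**. -/
theorem phiM_bijective {W : MorphismProperty M} [L.IsLocalization (W.inverseImage P.ι)]
    (A : P.FullSubcategory)
    (hA : ∀ ⦃X Y : M⦄ (f : X ⟶ Y), W f → Function.Bijective (mapM A.obj f))
    (X : P.FullSubcategory) : Function.Bijective (phiM hL A X) :=
  (relM P).phi_bijective hL (W.inverseImage P.ι) A (fun _ _ f hf => hA f.hom hf) X

/-- **Morphisms in the localization** out of test objects. -/
theorem phiM_bijective_of_test {GG : ObjectProperty M}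
    [L.IsLocalization ((piW GG).inverseImage P.ι)] (A : P.FullSubcategory) (hA : GG A.obj)
    (X : P.FullSubcategory) : Function.Bijective (phiM hL A X) :=
  phiM_bijective hL (W := piW GG) A (fun _ _ f hf => (piW_iff f).mp hf A.obj hA) X

end phi

end StabInput

end Vale.Agent.P251.H
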