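import Mathlib.CategoryTheory.Functor.OfSequence
import Mathlib.CategoryTheory.Monoidal.Braided.Basic
import Mathlib.CategoryTheory.Localization.Predicate
import Mathlib.Tactic

/-!
# Stable homotopy classes for a well-copointed endofunctor

For an endofunctor `F` of a category `K` with a natural transformation `t : F ⟶ 𝟭 K` such that
`F t = t F` we define `Pi A X = colim_k (F^k A ⟶ X)`.
-/

open CategoryTheory Category Opposite

universe v u v' u'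

namespace Vale.Agent.P251.H

/-- A well-copointed endofunctor. -/
structure CoPt (K : Type u) [Category.{v} K] where
  F : K ⥤ K
  t : ∀ A : K, F.obj A ⟶ A
  nat : ∀ {A B : K} (f : A ⟶ B), F.map f ≫ t B = t A ≫ f
  comm : ∀ A : K, F.map (t A) = t (F.obj A)

namespace CoPt

attribute [reassoc] CoPt.nat

variable {K : Type u} [Category.{v} K] (P : CoPt K)

/-- The powers of `F`. -/
@[reducible] def pw : ℕ → K → K
  | 0, A => A
  | k + 1, A => P.F.obj (pw k A)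

/-- The powers of `F` on morphisms. -/
def pwMap : (k : ℕ) → {A B : K} → (A ⟶ B) → (P.pw k A ⟶ P.pw k B)
  | 0, _, _, f => f
  | k + 1, _, _, f => P.F.map (pwMap k f)

@[simp] lemma pwMap_zero {A B : K} (f : A ⟶ B) : P.pwMap 0 f = f := rfl
@[simp] lemma pwMap_succ (k : ℕ) {A B : K} (f : A ⟶ B) :
    P.pwMap (k + 1) f = P.F.map (P.pwMap k f) := rfl

@[simp] lemma pwMap_id (k : ℕ) (A : K) : P.pwMap k (𝟙 A) = 𝟙 _ := by
  induction k with
  | zero => rfl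
  | succ k ih => rw [pwMap_succ, ih, P.F.map_id]

@[reassoc, simp]
lemma pwMap_comp (k : ℕ) {A B D : K} (f : A ⟶ B) (g : B ⟶ D) :
    P.pwMap k (f ≫ g) = P.pwMap k f ≫ P.pwMap k g := by
  induction k with
  | zero => rfl
  | succ k ih => rw [pwMap_succ, ih, P.F.map_comp, pwMap_succ, pwMap_succ]

/-- The transition maps. -/
def tr {k m : ℕ} (h : k ≤ m) (A : K) : P.pw m A ⟶ P.pw k A :=
  (Functor.ofOpSequence (X := fun k => P.pw k A) (fun k => P.t (P.pw k A))).map (homOfLE h).op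

@[simp] lemma tr_refl (k : ℕ) (A : K) : P.tr (le_refl k) A = 𝟙 _ :=
  (Functor.ofOpSequence (X := fun k => P.pw k A) (fun k => P.t (P.pw k A))).map_id _

@[reassoc (attr := simp)]
lemma tr_tr {k m n : ℕ} (h : k ≤ m) (h' : m ≤ n) (A : K) :
    P.tr h' A ≫ P.tr h A = P.tr (h.trans h') A :=
  ((Functor.ofOpSequence (X := fun k => P.pw k A) (fun k => P.t (P.pw k A))).map_comp
    (homOfLE h').op (homOfLE h).op).symm

@[simp] lemma tr_succ (k : ℕ) (A : K) (h : k ≤ k + 1) : P.tr h A = P.t (P.pw k A) :=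
  Functor.ofOpSequence_map_homOfLE_succ (X := fun k => P.pw k A) (fun k => P.t (P.pw k A)) k

lemma tr_succ_right {k m : ℕ} (h : k ≤ m) (A : K) :
    P.tr (h.trans (Nat.le_succ m)) A = P.t (P.pw m A) ≫ P.tr h A := by
  rw [← P.tr_tr h (Nat.le_succ m), tr_succ]

@[reassoc]
lemma tr_nat {k m : ℕ} (h : k ≤ m) {A B : K} (f : A ⟶ B) :
    P.pwMap m f ≫ P.tr h B = P.tr h A ≫ P.pwMap k f := by
  induction m, h using Nat.le_induction with
  | base => simp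
  | succ m hm ih =>
    rw [P.tr_succ_right hm, P.tr_succ_right hm, assoc, ← ih, pwMap_succ, P.nat_assoc]

/-- `F` applied to a transition map is a transition map. -/
lemma map_tr {k m : ℕ} (h : k ≤ m) (A : K) :
    P.F.map (P.tr h A) = P.tr (Nat.succ_le_succ h) A := by
  induction m, h using Nat.le_induction with
  | base => simp
  | succ m hm ih =>
    rw [P.tr_succ_right hm, P.F.map_comp, ih, P.comm]
    exact (P.tr_succ_right (Nat.succ_le_succ hm) A).symm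

/-- The transition map `F^k A ⟶ A`. -/
def tk (k : ℕ) (A : K) : P.pw k A ⟶ A := P.tr (Nat.zero_le k) A

@[simp] lemma tk_zero (A : K) : P.tk 0 A = 𝟙 A := P.tr_refl 0 A

@[reassoc (attr := simp)]
lemma tr_tk {k m : ℕ} (h : k ≤ m) (A : K) : P.tr h A ≫ P.tk k A = P.tk m A :=
  P.tr_tr _ h A

lemma tk_succ (k : ℕ) (A : K) : P.tk (k + 1) A = P.t (P.pw k A) ≫ P.tk k A :=
  P.tr_succ_right (Nat.zero_le k) A

@[reassoc]
lemma tk_nat (k : ℕ) {A B : K} (f : A ⟶ B) : P.pwMap k f ≫ P.tk k B = P.tk k A ≫ f :=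
  P.tr_nat (Nat.zero_le k) f

/-- The isomorphism `F^k (F A) ≅ F (F^k A)`. -/
def sh : (k : ℕ) → (A : K) → (P.pw k (P.F.obj A) ≅ P.F.obj (P.pw k A))
  | 0, _ => Iso.refl _
  | k + 1, A => P.F.mapIso (sh k A)

@[simp] lemma sh_zero (A : K) : P.sh 0 A = Iso.refl _ := rfl
@[simp] lemma sh_succ (k : ℕ) (A : K) : P.sh (k + 1) A = P.F.mapIso (P.sh k A) := rfl

@[reassoc]
lemma sh_hom_t (k : ℕ) (A : K) : (P.sh k A).hom ≫ P.t (P.pw k A) = P.pwMap k (P.t A) := by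
  induction k with
  | zero => simp
  | succ k ih =>
    rw [sh_succ, pwMap_succ, ← ih, P.F.map_comp, P.comm]
    rfl

@[reassoc]
lemma sh_inv_pwMap (k : ℕ) (A : K) : (P.sh k A).inv ≫ P.pwMap k (P.t A) = P.t (P.pw k A) := by
  rw [Iso.inv_comp_eq, sh_hom_t]

lemma pwMap_sh_inv (k : ℕ) (A : K) :
    P.pwMap (k + 1) (P.t A) ≫ (P.sh k A).inv = P.t (P.pw k (P.F.obj A)) := by
  rw [Iso.comp_inv_eq, pwMap_succ, ← sh_hom_t, P.F.map_comp, P.comm, P.nat]

/-- The relation defining `Pi`. -/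
def piSetoid (A X : K) : Setoid (Σ k, (P.pw k A ⟶ X)) where
  r x y := ∃ (m : ℕ) (h : x.1 ≤ m) (h' : y.1 ≤ m), P.tr h A ≫ x.2 = P.tr h' A ≫ y.2
  iseqv :=
    { refl := fun x => ⟨x.1, le_refl _, le_refl _, rfl⟩
      symm := fun {x y} ⟨m, h, h', e⟩ => ⟨m, h', h, e.symm⟩
      trans := fun {x y z} ⟨m, h, h', e⟩ ⟨n, g, g', f⟩ => ⟨max m n, h.trans (le_max_left _ _),
        g'.trans (le_max_right _ _), by
          rw [← P.tr_tr h (le_max_left m n), assoc, e, tr_tr_assoc,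
            ← P.tr_tr g (le_max_right m n), assoc, f, tr_tr_assoc]⟩ }

/-- Stable homotopy classes `colim_k (F^k A ⟶ X)`. -/
def Pi (A X : K) : Type v := Quotient (P.piSetoid A X)

/-- The class of a map `F^k A ⟶ X`. -/
def cl {A X : K} (k : ℕ) (x : P.pw k A ⟶ X) : P.Pi A X :=
  Quotient.mk (P.piSetoid A X) ⟨k, x⟩

variable {P}

lemma cl_surj {A X : K} (x : P.Pi A X) : ∃ (k : ℕ) (y : P.pw k A ⟶ X), P.cl k y = x := by
  obtain ⟨⟨k, y⟩, rfl⟩ := Quotient.exists_rep x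
  exact ⟨k, y, rfl⟩

lemma cl_eq_iff {A X : K} {k l : ℕ} (x : P.pw k A ⟶ X) (y : P.pw l A ⟶ X) :
    P.cl k x = P.cl l y ↔ ∃ (m : ℕ) (h : k ≤ m) (h' : l ≤ m), P.tr h A ≫ x = P.tr h' A ≫ y :=
  Quotient.eq (r := P.piSetoid A X)

lemma cl_tr {A X : K} {k m : ℕ} (h : k ≤ m) (x : P.pw k A ⟶ X) :
    P.cl m (P.tr h A ≫ x) = P.cl k x := by
  rw [cl_eq_iff]
  exact ⟨m, le_refl m, h, by simp⟩

lemma cl_succ {A X : K} (k : ℕ) (x : P.pw k A ⟶ X) :
    P.cl (k + 1) (P.t (P.pw k A) ≫ x) = P.cl k x := by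
  rw [← P.tr_succ k A (Nat.le_succ k), cl_tr]

/-- Two maps defined at the same stage are equal in `Pi` iff they become equal at some later
stage. -/
lemma cl_eq_iff' {A X : K} {k : ℕ} (x y : P.pw k A ⟶ X) :
    P.cl k x = P.cl k y ↔ ∃ (m : ℕ) (h : k ≤ m), P.tr h A ≫ x = P.tr h A ≫ y := by
  rw [cl_eq_iff]
  exact ⟨fun ⟨m, h, _, e⟩ => ⟨m, h, e⟩, fun ⟨m, h, e⟩ => ⟨m, h, h, e⟩⟩

/-- A pair of elements can be represented at the same stage. -/
lemma cl_surj₂ {A X B Y : K} (x : P.Pi A X) (y : P.Pi B Y) :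
    ∃ (k : ℕ) (x' : P.pw k A ⟶ X) (y' : P.pw k B ⟶ Y), P.cl k x' = x ∧ P.cl k y' = y := by
  obtain ⟨k, x', rfl⟩ := cl_surj x
  obtain ⟨l, y', rfl⟩ := cl_surj y
  exact ⟨max k l, P.tr (le_max_left k l) A ≫ x', P.tr (le_max_right k l) B ≫ y',
    cl_tr _ _, cl_tr _ _⟩

variable (P)

/-- Functoriality in `X`. -/
def map (A : K) {X Y : K} (f : X ⟶ Y) : P.Pi A X → P.Pi A Y :=
  Quotient.map' (s₁ := P.piSetoid A X) (s₂ := P.piSetoid A Y) (fun x => ⟨x.1, x.2 ≫ f⟩)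
    (fun _ _ ⟨m, h, h', e⟩ => ⟨m, h, h', by simpa using congrArg (· ≫ f) e⟩)

@[simp] lemma map_cl (A : K) {X Y : K} (f : X ⟶ Y) (k : ℕ) (x : P.pw k A ⟶ X) :
    P.map A f (P.cl k x) = P.cl k (x ≫ f) := rfl

@[simp] lemma map_id (A X : K) (x : P.Pi A X) : P.map A (𝟙 X) x = x := by
  obtain ⟨k, y, rfl⟩ := cl_surj x
  simp

lemma map_comp (A : K) {X Y Z : K} (f : X ⟶ Y) (g : Y ⟶ Z) (x : P.Pi A X) :
    P.map A (f ≫ g) x = P.map A g (P.map A f x) := by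
  obtain ⟨k, y, rfl⟩ := cl_surj x
  simp

/-- Functoriality in `A`. -/
def comap {A B : K} (f : A ⟶ B) (X : K) : P.Pi B X → P.Pi A X :=
  Quotient.map' (s₁ := P.piSetoid B X) (s₂ := P.piSetoid A X)
    (fun x => ⟨x.1, P.pwMap x.1 f ≫ x.2⟩)
    (fun _ _ ⟨m, h, h', e⟩ => ⟨m, h, h', by
      rw [← P.tr_nat_assoc, e, P.tr_nat_assoc]⟩)

@[simp] lemma comap_cl {A B : K} (f : A ⟶ B) (X : K) (k : ℕ) (x : P.pw k B ⟶ X) :
    P.comap f X (P.cl k x) = P.cl k (P.pwMap k f ≫ x) := rfl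

@[simp] lemma comap_id (A X : K) (x : P.Pi A X) : P.comap (𝟙 A) X x = x := by
  obtain ⟨k, y, rfl⟩ := cl_surj x
  simp

lemma comap_comp {A B D : K} (f : A ⟶ B) (g : B ⟶ D) (X : K) (x : P.Pi D X) :
    P.comap (f ≫ g) X x = P.comap f X (P.comap g X x) := by
  obtain ⟨k, y, rfl⟩ := cl_surj x
  simp

lemma map_comap {A B X Y : K} (f : A ⟶ B) (g : X ⟶ Y) (x : P.Pi B X) :
    P.map A g (P.comap f X x) = P.comap f Y (P.map B g x) := by
  obtain ⟨k, y, rfl⟩ := cl_surj x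
  simp

/-- `Pi A` as a functor. -/
@[simps] def piFunctor (A : K) : K ⥤ Type v where
  obj X := P.Pi A X
  map f := TypeCat.ofHom (P.map A f)
  map_id X := by ext x; exact P.map_id A X x
  map_comp f g := by ext x; exact P.map_comp A f g x

/-- The tautological class. -/
def unit (A : K) : P.Pi A A := P.cl 0 (𝟙 A)

@[simp] lemma map_unit {A X : K} (f : A ⟶ X) : P.map A f (P.unit A) = P.cl 0 f := by
  simp [unit]

lemma cl_tk (k : ℕ) (A : K) : P.cl k (P.tk k A) = P.unit A := by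
  have := cl_tr (P := P) (Nat.zero_le k) (𝟙 A : P.pw 0 A ⟶ A)
  rw [comp_id] at this
  exact this

/-- Application of `F`. -/
def shift {A X : K} : P.Pi A X → P.Pi A (P.F.obj X) :=
  Quotient.map' (s₁ := P.piSetoid A X) (s₂ := P.piSetoid A (P.F.obj X))
    (fun x => ⟨x.1 + 1, P.F.map x.2⟩)
    (fun _ _ ⟨m, h, h', e⟩ => ⟨m + 1, Nat.succ_le_succ h, Nat.succ_le_succ h', by
      rw [← P.map_tr h, ← P.map_tr h', ← P.F.map_comp, e, P.F.map_comp]⟩)

@[simp] lemma shift_cl {A X : K} (k : ℕ) (x : P.pw k A ⟶ X) :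
    P.shift (P.cl k x) = P.cl (k + 1) (P.F.map x) := rfl

/-- The map `Pi A (F X) → Pi A X` induced by `t X` is bijective. -/
theorem bijective_map_t (A X : K) : Function.Bijective (P.map A (P.t X)) := by
  refine Function.bijective_iff_has_inverse.2 ⟨P.shift, ?_, ?_⟩
  · intro x
    obtain ⟨k, y, rfl⟩ := cl_surj x
    rw [map_cl, shift_cl, P.F.map_comp, P.comm, P.nat, cl_succ]
  · intro x
    obtain ⟨k, y, rfl⟩ := cl_surj x
    rw [shift_cl, map_cl, P.nat, cl_succ]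

/-- The map `Pi A X → Pi (F A) X` induced by `t A` is bijective. -/
theorem bijective_comap_t (A X : K) : Function.Bijective (P.comap (P.t A) X) := by
  constructor
  · intro x y hxy
    obtain ⟨k, x, y, rfl, rfl⟩ := cl_surj₂ x y
    rw [comap_cl, comap_cl, cl_eq_iff'] at hxy
    obtain ⟨m, h, e⟩ := hxy
    rw [← P.tr_nat_assoc, ← P.tr_nat_assoc] at e
    have e' := congrArg ((P.sh m A).inv ≫ ·) e
    simp only [sh_inv_pwMap_assoc] at e'
    rw [cl_eq_iff']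
    refine ⟨m + 1, h.trans (Nat.le_succ m), ?_⟩
    rw [P.tr_succ_right h, assoc, e', assoc]
  · intro x
    obtain ⟨k, x, rfl⟩ := cl_surj x
    refine ⟨P.cl (k + 1) ((P.sh k A).inv ≫ x), ?_⟩
    rw [comap_cl, ← assoc, pwMap_sh_inv, cl_succ]

lemma bijective_map_tk (k : ℕ) (A X : K) : Function.Bijective (P.map A (P.tk k X)) := by
  induction k with
  | zero =>
    have : P.map A (P.tk 0 X) = id := by
      ext x
      rw [tk_zero]
      exact P.map_id A X x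
    rw [this]
    exact Function.bijective_id
  | succ k ih =>
    have : P.map A (P.tk (k + 1) X) = P.map A (P.tk k X) ∘ P.map A (P.t (P.pw k X)) := by
      ext x
      rw [tk_succ, map_comp]
      rfl
    rw [this]
    exact ih.comp (P.bijective_map_t A _)

end CoPt

/-- A functor `G` commuting with two well-copointed endofunctors. -/
structure CoPtMap {K : Type u} [Category.{v} K] {K' : Type u'} [Category.{v'} K']
    (P : CoPt K) (P' : CoPt K') where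
  G : K ⥤ K'
  θ : ∀ A : K, P'.F.obj (G.obj A) ⟶ G.obj (P.F.obj A)
  θ_nat : ∀ {A B : K} (f : A ⟶ B), P'.F.map (G.map f) ≫ θ B = θ A ≫ G.map (P.F.map f)
  θ_t : ∀ A : K, θ A ≫ G.map (P.t A) = P'.t (G.obj A)

namespace CoPtMap

variable {K : Type u} [Category.{v} K] {K' : Type u'} [Category.{v'} K']
  {P : CoPt K} {P' : CoPt K'} (Q : CoPtMap P P')

/-- The iterates of `θ`. -/
def Θ : (k : ℕ) → (A : K) → (P'.pw k (Q.G.obj A) ⟶ Q.G.obj (P.pw k A))
  | 0, _ => 𝟙 _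
  | k + 1, A => P'.F.map (Θ k A) ≫ Q.θ (P.pw k A)

@[simp] lemma Θ_zero (A : K) : Q.Θ 0 A = 𝟙 _ := rfl
lemma Θ_succ (k : ℕ) (A : K) : Q.Θ (k + 1) A = P'.F.map (Q.Θ k A) ≫ Q.θ (P.pw k A) := rfl

@[reassoc]
lemma Θ_t (k : ℕ) (A : K) :
    Q.Θ (k + 1) A ≫ Q.G.map (P.t (P.pw k A)) = P'.t (P'.pw k (Q.G.obj A)) ≫ Q.Θ k A := by
  rw [Θ_succ, assoc, Q.θ_t, P'.nat]

@[reassoc]
lemma Θ_tr {k m : ℕ} (h : k ≤ m) (A : K) :
    Q.Θ m A ≫ Q.G.map (P.tr h A) = P'.tr h (Q.G.obj A) ≫ Q.Θ k A := by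
  induction m, h using Nat.le_induction with
  | base => simp
  | succ m hm ih =>
    rw [P.tr_succ_right hm, P'.tr_succ_right hm, Q.G.map_comp, Q.Θ_t_assoc, ih, assoc]

@[reassoc]
lemma Θ_nat (k : ℕ) {A B : K} (f : A ⟶ B) :
    P'.pwMap k (Q.G.map f) ≫ Q.Θ k B = Q.Θ k A ≫ Q.G.map (P.pwMap k f) := by
  induction k with
  | zero => simp
  | succ k ih =>
    rw [Θ_succ, Θ_succ, CoPt.pwMap_succ, ← P'.F.map_comp_assoc, ih, P'.F.map_comp, assoc, assoc,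
      Q.θ_nat]
    rfl

/-- The induced map on stable classes. -/
def pi (A X : K) : P.Pi A X → P'.Pi (Q.G.obj A) (Q.G.obj X) :=
  Quotient.map' (s₁ := P.piSetoid A X) (s₂ := P'.piSetoid (Q.G.obj A) (Q.G.obj X))
    (fun x => ⟨x.1, Q.Θ x.1 A ≫ Q.G.map x.2⟩)
    (fun _ _ ⟨m, h, h', e⟩ => ⟨m, h, h', by
      rw [← Q.Θ_tr_assoc, ← Q.Θ_tr_assoc, ← Q.G.map_comp, e, Q.G.map_comp]⟩)

@[simp] lemma pi_cl (A X : K) (k : ℕ) (x : P.pw k A ⟶ X) :
    Q.pi A X (P.cl k x) = P'.cl k (Q.Θ k A ≫ Q.G.map x) := rfl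

lemma pi_map (A : K) {X Y : K} (f : X ⟶ Y) (x : P.Pi A X) :
    Q.pi A Y (P.map A f x) = P'.map (Q.G.obj A) (Q.G.map f) (Q.pi A X x) := by
  obtain ⟨k, y, rfl⟩ := CoPt.cl_surj x
  simp

lemma pi_comap {A B : K} (f : A ⟶ B) (X : K) (x : P.Pi B X) :
    Q.pi A X (P.comap f X x) = P'.comap (Q.G.map f) (Q.G.obj X) (Q.pi B X x) := by
  obtain ⟨k, y, rfl⟩ := CoPt.cl_surj x
  simp [Q.Θ_nat_assoc]

end CoPtMap

end Vale.Agent.P251.H
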