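import Vale.Agent.P251.H.PiMon
import Mathlib.CategoryTheory.Limits.Shapes.ZeroMorphisms
import Mathlib.Algebra.Group.Hom.Basic
import Mathlib.Algebra.Group.MinimalAxioms

/-!
# P251, part H: the group structure on stable classes and stable exactness

`CoGrp S`: natural group structures on `Hom (B ⊗ S, Z)`.  For a stabilization datum `D` with
`CoGrp D.S` the stable classes `D.coPt.Pi A X` form an abelian group, natural in `A` and `X`.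

`ExS S a b`: the unstable exactness property from which the exactness of `Pi A` is deduced.
-/

open CategoryTheory Category MonoidalCategory Limits

universe v u

namespace Vale.Agent.P251.H

/-- Natural group structures on `Hom (B ⊗ S, Z)`. -/
class CoGrp {K : Type u} [Category.{v} K] [MonoidalCategory K] [HasZeroMorphisms K] (S : K) where
  /-- the sum -/
  add : ∀ {B Z : K}, (B ⊗ S ⟶ Z) → (B ⊗ S ⟶ Z) → (B ⊗ S ⟶ Z)
  /-- the inverse -/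
  neg : ∀ {B Z : K}, (B ⊗ S ⟶ Z) → (B ⊗ S ⟶ Z)
  add_assoc : ∀ {B Z : K} (f g h : B ⊗ S ⟶ Z), add (add f g) h = add f (add g h)
  zero_add : ∀ {B Z : K} (f : B ⊗ S ⟶ Z), add 0 f = f
  neg_add : ∀ {B Z : K} (f : B ⊗ S ⟶ Z), add (neg f) f = 0
  add_comp : ∀ {B Z Z' : K} (f g : B ⊗ S ⟶ Z) (h : Z ⟶ Z'),
    add f g ≫ h = add (f ≫ h) (g ≫ h)
  whiskerRight_add : ∀ {B B' Z : K} (b : B ⟶ B') (f g : B' ⊗ S ⟶ Z),
    b ▷ S ≫ add f g = add (b ▷ S ≫ f) (b ▷ S ≫ g)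
  add_comm : ∀ {B Z : K} (f g : (B ⊗ S) ⊗ S ⟶ Z), add f g = add g f

namespace StabObj

variable {K : Type u} [Category.{v} K] [MonoidalCategory K] [SymmetricCategory K]
  [HasZeroMorphisms K] (D : StabObj K)

/-- The isomorphism `U ⊗ B ≅ L ⊗ (B ⊗ S)`. -/
def phi (B : K) : D.U ⊗ B ≅ D.L ⊗ (B ⊗ D.S) :=
  α_ D.L D.S B ≪≫ whiskerLeftIso D.L (β_ D.S B)

omit [HasZeroMorphisms K] in
@[reassoc]
lemma phi_hom_nat {B B' : K} (b : B ⟶ B') :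
    D.U ◁ b ≫ (D.phi B').hom = (D.phi B).hom ≫ D.L ◁ (b ▷ D.S) := by
  simp [phi, ← MonoidalCategory.whiskerLeft_comp]

omit [HasZeroMorphisms K] in
@[reassoc]
lemma phi_inv_nat {B B' : K} (b : B ⟶ B') :
    D.L ◁ (b ▷ D.S) ≫ (D.phi B').inv = (D.phi B).inv ≫ D.U ◁ b := by
  rw [Iso.comp_inv_eq, assoc, phi_hom_nat, Iso.inv_hom_id_assoc]

/-- The isomorphism `U ⊗ B ≅ (L ⊗ B) ⊗ S`. -/
def theta (B : K) : D.U ⊗ B ≅ (D.L ⊗ B) ⊗ D.S := D.phi B ≪≫ (α_ D.L B D.S).symm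

omit [HasZeroMorphisms K] in
@[reassoc]
lemma theta_hom_nat {B B' : K} (b : B ⟶ B') :
    D.U ◁ b ≫ (D.theta B').hom = (D.theta B).hom ≫ (D.L ◁ b) ▷ D.S := by
  change D.U ◁ b ≫ (D.phi B').hom ≫ (α_ D.L B' D.S).inv =
    ((D.phi B).hom ≫ (α_ D.L B D.S).inv) ≫ (D.L ◁ b) ▷ D.S
  rw [phi_hom_nat_assoc, associator_inv_naturality_middle, assoc]

omit [HasZeroMorphisms K] in
@[reassoc]
lemma theta_inv_nat {B B' : K} (b : B ⟶ B') :
    (D.L ◁ b) ▷ D.S ≫ (D.theta B').inv = (D.theta B).inv ≫ D.U ◁ b := by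
  rw [Iso.comp_inv_eq, assoc, theta_hom_nat, Iso.inv_hom_id_assoc]

/-! ### Stable exactness -/

/-- Unstable exactness after one suspension. -/
def ExS (S : K) {X Y Z : K} (a : X ⟶ Y) (b : Y ⟶ Z) : Prop :=
  ∀ (B : K) (g : B ⟶ Y), g ≫ b = 0 → ∃ g' : B ⊗ S ⟶ X ⊗ S, g' ≫ a ▷ S = g ▷ S

instance (A X : K) : Zero (D.coPt.Pi A X) := ⟨D.coPt.cl 0 0⟩

lemma zero_def (A X : K) : (0 : D.coPt.Pi A X) = D.coPt.cl 0 0 := rfl

lemma cl_zero (A X : K) (k : ℕ) : D.coPt.cl k (0 : D.coPt.pw k A ⟶ X) = 0 := by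
  rw [zero_def, ← CoPt.cl_tr (Nat.zero_le k) (0 : D.coPt.pw 0 A ⟶ X), comp_zero]

lemma cl_eq_zero_iff {A X : K} {k : ℕ} (x : D.coPt.pw k A ⟶ X) :
    D.coPt.cl k x = 0 ↔ ∃ (m : ℕ) (h : k ≤ m), D.coPt.tr h A ≫ x = 0 := by
  rw [← D.cl_zero A X k, CoPt.cl_eq_iff']
  simp only [comp_zero]

@[simp] lemma map_zero (A : K) {X Y : K} (f : X ⟶ Y) : D.coPt.map A f 0 = 0 := by
  rw [zero_def, CoPt.map_cl, zero_comp, zero_def]

@[simp] lemma comap_zero {A B : K} (f : A ⟶ B) (X : K) : D.coPt.comap f X 0 = 0 := by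
  rw [zero_def, CoPt.comap_cl, comp_zero, zero_def]

lemma map_zero_hom (A : K) {X Y : K} (x : D.coPt.Pi A X) :
    D.coPt.map A (0 : X ⟶ Y) x = 0 := by
  obtain ⟨k, x, rfl⟩ := CoPt.cl_surj x
  rw [CoPt.map_cl, comp_zero, cl_zero]

/-- **Stable exactness** from unstable exactness. -/
theorem exact_of_exS {X Y Z : K} (a : X ⟶ Y) (b : Y ⟶ Z) (h : ExS D.S a b) (A : K)
    (y : D.coPt.Pi A Y) (hy : D.coPt.map A b y = 0) : ∃ x, D.coPt.map A a x = y := by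
  obtain ⟨k, g, rfl⟩ := CoPt.cl_surj y
  rw [CoPt.map_cl, cl_eq_zero_iff] at hy
  obtain ⟨m, hm, e⟩ := hy
  rw [← assoc] at e
  obtain ⟨g', hg'⟩ := h _ _ e
  refine ⟨D.coPt.cl (m + 1) ((D.phi (D.coPt.pw m A)).hom ≫ D.L ◁ g' ≫ (D.phi X).inv ≫
    D.coPt.t X), ?_⟩
  have h1 : ((D.phi (D.coPt.pw m A)).hom ≫ D.L ◁ g' ≫ (D.phi X).inv ≫ D.coPt.t X) ≫ a =
      D.coPt.t (D.coPt.pw m A) ≫ (D.coPt.tr hm A ≫ g) := by
    rw [assoc, assoc, assoc, ← CoPt.nat]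
    change (D.phi (D.coPt.pw m A)).hom ≫ D.L ◁ g' ≫ (D.phi X).inv ≫ D.U ◁ a ≫
      D.coPt.t Y = _
    rw [← phi_inv_nat_assoc, ← MonoidalCategory.whiskerLeft_comp_assoc, hg', phi_inv_nat_assoc,
      Iso.hom_inv_id_assoc]
    exact D.coPt.nat _
  rw [CoPt.map_cl, h1, CoPt.cl_succ, CoPt.cl_tr]

/-! ### The group structure -/

section grp

variable [CoGrp D.S]

/-- The sum at a positive stage. -/
def sadd {B X : K} (x y : D.U ⊗ B ⟶ X) : D.U ⊗ B ⟶ X :=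
  (D.theta B).hom ≫ CoGrp.add ((D.theta B).inv ≫ x) ((D.theta B).inv ≫ y)

/-- The inverse at a positive stage. -/
def sneg {B X : K} (x : D.U ⊗ B ⟶ X) : D.U ⊗ B ⟶ X :=
  (D.theta B).hom ≫ CoGrp.neg ((D.theta B).inv ≫ x)

lemma sadd_assoc {B X : K} (x y z : D.U ⊗ B ⟶ X) :
    D.sadd (D.sadd x y) z = D.sadd x (D.sadd y z) := by
  unfold sadd
  rw [Iso.inv_hom_id_assoc, Iso.inv_hom_id_assoc, CoGrp.add_assoc]

lemma zero_sadd {B X : K} (x : D.U ⊗ B ⟶ X) : D.sadd 0 x = x := by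
  unfold sadd
  rw [comp_zero, CoGrp.zero_add, Iso.hom_inv_id_assoc]

lemma sneg_sadd {B X : K} (x : D.U ⊗ B ⟶ X) : D.sadd (D.sneg x) x = 0 := by
  unfold sadd sneg
  rw [Iso.inv_hom_id_assoc, CoGrp.neg_add, comp_zero]

lemma sadd_comp {B X X' : K} (x y : D.U ⊗ B ⟶ X) (f : X ⟶ X') :
    D.sadd x y ≫ f = D.sadd (x ≫ f) (y ≫ f) := by
  unfold sadd
  rw [assoc, CoGrp.add_comp, assoc, assoc]

lemma whiskerLeft_sadd {B B' X : K} (b : B ⟶ B') (x y : D.U ⊗ B' ⟶ X) :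
    D.U ◁ b ≫ D.sadd x y = D.sadd (D.U ◁ b ≫ x) (D.U ◁ b ≫ y) := by
  unfold sadd
  rw [theta_hom_nat_assoc, CoGrp.whiskerRight_add, theta_inv_nat_assoc, theta_inv_nat_assoc]

lemma sadd_comm_of_iso {B B' X : K} (e : D.L ⊗ B ≅ B' ⊗ D.S) (x y : D.U ⊗ B ⟶ X) :
    D.sadd x y = D.sadd y x := by
  have key : ∀ f g : (D.L ⊗ B) ⊗ D.S ⟶ X, CoGrp.add f g = CoGrp.add g f := by
    intro f g
    have h : ∀ f : (D.L ⊗ B) ⊗ D.S ⟶ X, e.hom ▷ D.S ≫ e.inv ▷ D.S ≫ f = f := by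
      intro f
      rw [← comp_whiskerRight_assoc, Iso.hom_inv_id, id_whiskerRight, id_comp]
    rw [← h (CoGrp.add f g), ← h (CoGrp.add g f), CoGrp.whiskerRight_add e.inv f g,
      CoGrp.whiskerRight_add e.inv g f, CoGrp.add_comm]
  unfold sadd
  rw [key]

lemma sadd_comm {B X : K} (x y : D.U ⊗ (D.U ⊗ B) ⟶ X) : D.sadd x y = D.sadd y x :=
  D.sadd_comm_of_iso (B' := D.L ⊗ (D.L ⊗ B))
    (whiskerLeftIso D.L (D.theta B) ≪≫ (α_ _ _ _).symm) x y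

/-- The group structure at a positive stage. -/
@[reducible] def sgrp (B X : K) : AddGroup (D.U ⊗ B ⟶ X) :=
  letI : Add (D.U ⊗ B ⟶ X) := ⟨D.sadd⟩
  letI : Neg (D.U ⊗ B ⟶ X) := ⟨D.sneg⟩
  AddGroup.ofLeftAxioms D.sadd_assoc D.zero_sadd D.sneg_sadd

lemma whiskerLeft_sneg {B B' X : K} (b : B ⟶ B') (x : D.U ⊗ B' ⟶ X) :
    D.U ◁ b ≫ D.sneg x = D.sneg (D.U ◁ b ≫ x) := by
  letI := D.sgrp B X
  letI := D.sgrp B' X
  exact (AddMonoidHom.mk' (fun x : D.U ⊗ B' ⟶ X => D.U ◁ b ≫ x)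
    (fun x y => D.whiskerLeft_sadd b x y)).map_neg x

/-- The sum at a positive stage. -/
def padd {A X : K} {k : ℕ} (x y : D.coPt.pw (k + 1) A ⟶ X) : D.coPt.pw (k + 1) A ⟶ X :=
  D.sadd (B := D.coPt.pw k A) x y

/-- The inverse at a positive stage. -/
def pneg {A X : K} {k : ℕ} (x : D.coPt.pw (k + 1) A ⟶ X) : D.coPt.pw (k + 1) A ⟶ X :=
  D.sneg (B := D.coPt.pw k A) x

lemma tr_padd {A X : K} {k m : ℕ} (h : k ≤ m) (h' : k + 1 ≤ m + 1)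
    (x y : D.coPt.pw (k + 1) A ⟶ X) :
    D.coPt.tr h' A ≫ D.padd x y = D.padd (D.coPt.tr h' A ≫ x) (D.coPt.tr h' A ≫ y) := by
  have h1 : D.coPt.tr h' A = D.U ◁ D.coPt.tr h A := (D.coPt.map_tr h A).symm
  rw [h1]
  exact D.whiskerLeft_sadd _ _ _

lemma tr_pneg {A X : K} {k m : ℕ} (h : k ≤ m) (h' : k + 1 ≤ m + 1)
    (x : D.coPt.pw (k + 1) A ⟶ X) :
    D.coPt.tr h' A ≫ D.pneg x = D.pneg (D.coPt.tr h' A ≫ x) := by
  have h1 : D.coPt.tr h' A = D.U ◁ D.coPt.tr h A := (D.coPt.map_tr h A).symm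
  rw [h1]
  exact D.whiskerLeft_sneg _ _

lemma padd_comp {A X X' : K} {k : ℕ} (x y : D.coPt.pw (k + 1) A ⟶ X) (f : X ⟶ X') :
    D.padd x y ≫ f = D.padd (x ≫ f) (y ≫ f) := D.sadd_comp x y f

lemma cl_padd_aux {A X : K} {k l : ℕ} (x : D.coPt.pw k A ⟶ X) (y : D.coPt.pw l A ⟶ X) (n m : ℕ)
    (hk : k ≤ n + 1) (hl : l ≤ n + 1) (h : n ≤ m) :
    D.coPt.cl (n + 1) (D.padd (D.coPt.tr hk A ≫ x) (D.coPt.tr hl A ≫ y)) =
      D.coPt.cl (m + 1) (D.padd (D.coPt.tr (hk.trans (Nat.succ_le_succ h)) A ≫ x)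
        (D.coPt.tr (hl.trans (Nat.succ_le_succ h)) A ≫ y)) := by
  rw [← CoPt.cl_tr (Nat.succ_le_succ h), D.tr_padd h, CoPt.tr_tr_assoc, CoPt.tr_tr_assoc]

/-- The sum of two stable classes. -/
def piAdd {A X : K} (a b : D.coPt.Pi A X) : D.coPt.Pi A X :=
  Quotient.liftOn₂ a b (fun x y => D.coPt.cl (max x.1 y.1 + 1)
    (D.padd (D.coPt.tr ((le_max_left x.1 y.1).trans (Nat.le_succ _)) A ≫ x.2)
      (D.coPt.tr ((le_max_right x.1 y.1).trans (Nat.le_succ _)) A ≫ y.2))) (by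
    rintro ⟨k, x⟩ ⟨l, y⟩ ⟨k', x'⟩ ⟨l', y'⟩ ⟨m, h1, h2, e⟩ ⟨n, h3, h4, e'⟩
    dsimp only at *
    have a1 : k ≤ m := h1
    have a2 : k' ≤ m := h2
    have a3 : l ≤ n := h3
    have a4 : l' ≤ n := h4
    rw [D.cl_padd_aux x y (max k l) (max m n) _ _ (by omega),
      D.cl_padd_aux x' y' (max k' l') (max m n) _ _ (by omega)]
    have f1 : ∀ (h : k ≤ max m n + 1) (h' : k' ≤ max m n + 1),
        D.coPt.tr h A ≫ x = D.coPt.tr h' A ≫ x' := by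
      intro h h'
      have hm : m ≤ max m n + 1 := by omega
      have := congrArg (D.coPt.tr hm A ≫ ·) e
      simpa only [CoPt.tr_tr_assoc] using this
    have f2 : ∀ (h : l ≤ max m n + 1) (h' : l' ≤ max m n + 1),
        D.coPt.tr h A ≫ y = D.coPt.tr h' A ≫ y' := by
      intro h h'
      have hm : n ≤ max m n + 1 := by omega
      have := congrArg (D.coPt.tr hm A ≫ ·) e'
      simpa only [CoPt.tr_tr_assoc] using this
    rw [f1, f2])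

lemma cl_pneg_aux {A X : K} {k m : ℕ} (h : k ≤ m) (x : D.coPt.pw k A ⟶ X) :
    D.coPt.cl (k + 1) (D.pneg (D.coPt.tr (Nat.le_succ k) A ≫ x)) =
      D.coPt.cl (m + 1) (D.pneg (D.coPt.tr (h.trans (Nat.le_succ m)) A ≫ x)) := by
  rw [← CoPt.cl_tr (Nat.succ_le_succ h), D.tr_pneg h, CoPt.tr_tr_assoc]

/-- The inverse of a stable class. -/
def piNeg {A X : K} (a : D.coPt.Pi A X) : D.coPt.Pi A X :=
  Quotient.liftOn a (fun x => D.coPt.cl (x.1 + 1)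
    (D.pneg (D.coPt.tr (Nat.le_succ x.1) A ≫ x.2))) (by
    rintro ⟨k, x⟩ ⟨l, y⟩ ⟨m, h1, h2, e⟩
    have a1 : k ≤ m := h1
    have a2 : l ≤ m := h2
    have e' : D.coPt.tr a1 A ≫ x = D.coPt.tr a2 A ≫ y := e
    change D.coPt.cl (k + 1) (D.pneg (D.coPt.tr (Nat.le_succ k) A ≫ x)) =
      D.coPt.cl (l + 1) (D.pneg (D.coPt.tr (Nat.le_succ l) A ≫ y))
    rw [D.cl_pneg_aux a1 x, D.cl_pneg_aux a2 y]
    have f1 : D.coPt.tr (a1.trans (Nat.le_succ m)) A ≫ x =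
        D.coPt.tr (a2.trans (Nat.le_succ m)) A ≫ y := by
      have := congrArg (D.coPt.tr (Nat.le_succ m) A ≫ ·) e'
      simpa only [CoPt.tr_tr_assoc] using this
    rw [f1])

instance (A X : K) : Add (D.coPt.Pi A X) := ⟨D.piAdd⟩

instance (A X : K) : Neg (D.coPt.Pi A X) := ⟨D.piNeg⟩

lemma cl_add {A X : K} (k : ℕ) (x y : D.coPt.pw (k + 1) A ⟶ X) :
    D.coPt.cl (k + 1) x + D.coPt.cl (k + 1) y = D.coPt.cl (k + 1) (D.padd x y) := by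
  change D.coPt.cl (max (k + 1) (k + 1) + 1) (D.padd (D.coPt.tr _ A ≫ x) (D.coPt.tr _ A ≫ y)) = _
  have h : k ≤ max (k + 1) (k + 1) := by omega
  rw [← D.tr_padd h, CoPt.cl_tr]

lemma cl_neg {A X : K} (k : ℕ) (x : D.coPt.pw (k + 1) A ⟶ X) :
    -D.coPt.cl (k + 1) x = D.coPt.cl (k + 1) (D.pneg x) := by
  change D.coPt.cl (k + 1 + 1) (D.pneg (D.coPt.tr _ A ≫ x)) = _
  rw [← D.tr_pneg (Nat.le_succ k), CoPt.cl_tr]

lemma exists_cl_succ {A X : K} (a : D.coPt.Pi A X) (n : ℕ) :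
    ∃ m, ∀ k, m ≤ k → ∃ x : D.coPt.pw (k + n) A ⟶ X, D.coPt.cl (k + n) x = a := by
  obtain ⟨k, x, rfl⟩ := CoPt.cl_surj a
  exact ⟨k, fun l h => ⟨D.coPt.tr (h.trans (Nat.le_add_right l n)) A ≫ x, CoPt.cl_tr _ _⟩⟩

lemma exists_cl₃ {A B C X Y Z : K} (a : D.coPt.Pi A X) (b : D.coPt.Pi B Y)
    (c : D.coPt.Pi C Z) (n : ℕ) :
    ∃ (k : ℕ) (x : D.coPt.pw (k + n) A ⟶ X) (y : D.coPt.pw (k + n) B ⟶ Y)
      (z : D.coPt.pw (k + n) C ⟶ Z),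
      D.coPt.cl (k + n) x = a ∧ D.coPt.cl (k + n) y = b ∧ D.coPt.cl (k + n) z = c := by
  obtain ⟨k₁, h₁⟩ := D.exists_cl_succ a n
  obtain ⟨k₂, h₂⟩ := D.exists_cl_succ b n
  obtain ⟨k₃, h₃⟩ := D.exists_cl_succ c n
  obtain ⟨x, hx⟩ := h₁ (max k₁ (max k₂ k₃)) (by omega)
  obtain ⟨y, hy⟩ := h₂ (max k₁ (max k₂ k₃)) (by omega)
  obtain ⟨z, hz⟩ := h₃ (max k₁ (max k₂ k₃)) (by omega)
  exact ⟨_, x, y, z, hx, hy, hz⟩

/-- The stable classes form an abelian group. -/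
instance (A X : K) : AddCommGroup (D.coPt.Pi A X) :=
  { AddGroup.ofLeftAxioms (G := D.coPt.Pi A X)
      (by
        intro a b c
        obtain ⟨k, x, y, z, rfl, rfl, rfl⟩ := D.exists_cl₃ a b c 1
        rw [cl_add, cl_add, cl_add, cl_add]
        exact congrArg _ (D.sadd_assoc _ _ _))
      (by
        intro a
        obtain ⟨k, x, -, -, rfl, -, -⟩ := D.exists_cl₃ a a a 1
        rw [← D.cl_zero A X (k + 1), cl_add]
        exact congrArg _ (D.zero_sadd _))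
      (by
        intro a
        obtain ⟨k, x, -, -, rfl, -, -⟩ := D.exists_cl₃ a a a 1
        rw [cl_neg, cl_add, ← D.cl_zero A X (k + 1)]
        exact congrArg _ (D.sneg_sadd _)) with
    add_comm := by
      intro a b
      obtain ⟨k, x, y, -, rfl, rfl, -⟩ := D.exists_cl₃ a b a 2
      rw [D.cl_add (k + 1), D.cl_add (k + 1)]
      exact congrArg _ (D.sadd_comm _ _) }

lemma map_add (A : K) {X Y : K} (f : X ⟶ Y) (a b : D.coPt.Pi A X) :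
    D.coPt.map A f (a + b) = D.coPt.map A f a + D.coPt.map A f b := by
  obtain ⟨k, x, y, -, rfl, rfl, -⟩ := D.exists_cl₃ a b a 1
  rw [cl_add, CoPt.map_cl, CoPt.map_cl, CoPt.map_cl, cl_add, padd_comp]

lemma comap_add {A B : K} (f : A ⟶ B) (X : K) (a b : D.coPt.Pi B X) :
    D.coPt.comap f X (a + b) = D.coPt.comap f X a + D.coPt.comap f X b := by
  obtain ⟨k, x, y, -, rfl, rfl, -⟩ := D.exists_cl₃ a b a 1
  rw [cl_add, CoPt.comap_cl, CoPt.comap_cl, CoPt.comap_cl, cl_add]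
  exact congrArg _ (D.whiskerLeft_sadd _ _ _)

/-- `map` as a homomorphism. -/
@[simps] def mapHom (A : K) {X Y : K} (f : X ⟶ Y) : D.coPt.Pi A X →+ D.coPt.Pi A Y where
  toFun := D.coPt.map A f
  map_zero' := D.map_zero A f
  map_add' := D.map_add A f

/-- `comap` as a homomorphism. -/
@[simps] def comapHom {A B : K} (f : A ⟶ B) (X : K) : D.coPt.Pi B X →+ D.coPt.Pi A X where
  toFun := D.coPt.comap f X
  map_zero' := D.comap_zero f X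
  map_add' := D.comap_add f X

lemma map_injective_iff (A : K) {X Y : K} (f : X ⟶ Y) :
    Function.Injective (D.coPt.map A f) ↔ ∀ x, D.coPt.map A f x = 0 → x = 0 :=
  injective_iff_map_eq_zero (D.mapHom A f)

end grp

end StabObj

end Vale.Agent.P251.H
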