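import Vale.Agent.P251.H.Pi
import Mathlib.CategoryTheory.Monoidal.Braided.Basic
import Mathlib.CategoryTheory.ObjectProperty.Basic

/-!
# Stable classes in a symmetric monoidal category

`StabObj K`: objects `L`, `S` and `lam : L ⊗ S ⟶ 𝟙` with `lam ▷ U = U ◁ lam` (`U = L ⊗ S`).
The functor `U ⊗ -` is well-copointed. We prove that tensoring with `S` and with `L` is bijective
on stable classes.
-/

open CategoryTheory Category MonoidalCategory

universe v u v' u' v'' u''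

namespace Vale.Agent.P251.H

namespace CoPtMap

section aug

variable {K : Type u} [Category.{v} K] {P : CoPt K} (Q Q' : CoPtMap P P)

/-- An augmentation of the composition of two `CoPtMap`s. -/
structure Aug where
  r : ∀ A : K, Q'.G.obj (Q.G.obj A) ⟶ A
  nat : ∀ {A B : K} (f : A ⟶ B), Q'.G.map (Q.G.map f) ≫ r B = r A ≫ f
  θ_r : ∀ A : K, Q'.θ (Q.G.obj A) ≫ Q'.G.map (Q.θ A) ≫ r (P.F.obj A) = P.F.map (r A)
  bij_map : ∀ A X : K, Function.Bijective (P.map A (r X))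
  bij_comap : ∀ A X : K, Function.Bijective (P.comap (r A) X)

variable {Q Q'}

@[reassoc]
lemma Aug.Θ_r (R : Aug Q Q') (k : ℕ) (A : K) :
    Q'.Θ k (Q.G.obj A) ≫ Q'.G.map (Q.Θ k A) ≫ R.r (P.pw k A) = P.pwMap k (R.r A) := by
  induction k with
  | zero => simp
  | succ k ih =>
    rw [Θ_succ, Θ_succ, CoPt.pwMap_succ, ← ih, P.F.map_comp, P.F.map_comp, Q'.G.map_comp,
      ← R.θ_r, ← assoc (P.F.map (Q'.G.map _)) (Q'.θ _), Q'.θ_nat]
    simp only [assoc]

lemma Aug.map_pi (R : Aug Q Q') {A X : K} (x : P.Pi A X) :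
    P.map _ (R.r X) (Q'.pi _ _ (Q.pi A X x)) = P.comap (R.r A) X x := by
  obtain ⟨k, y, rfl⟩ := CoPt.cl_surj x
  rw [pi_cl, pi_cl, CoPt.map_cl, CoPt.comap_cl, Q'.G.map_comp, assoc, assoc, R.nat, R.Θ_r_assoc]

theorem Aug.bijective (R : Aug Q Q') (A X : K) :
    Function.Bijective (fun x => Q'.pi _ _ (Q.pi A X x)) := by
  have h : P.map _ (R.r X) ∘ (fun x => Q'.pi _ _ (Q.pi A X x)) = P.comap (R.r A) X := by
    ext x
    exact R.map_pi x
  rw [← Function.Bijective.of_comp_iff' (R.bij_map _ X), h]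
  exact R.bij_comap A X

theorem bijective_of_comp (Q Q' : CoPtMap P P)
    (h₁ : ∀ A X, Function.Bijective (fun x => Q'.pi _ _ (Q.pi A X x)))
    (h₂ : ∀ A X, Function.Bijective (fun x => Q.pi _ _ (Q'.pi A X x))) (A X : K) :
    Function.Bijective (Q.pi A X) := by
  constructor
  · intro x y hxy
    apply (h₁ A X).1
    simp only [hxy]
  · intro z
    obtain ⟨y, hy⟩ := (h₁ A X).2 (Q'.pi _ _ z)
    dsimp only at hy
    refine ⟨y, (h₂ _ _).1 ?_⟩
    simp only [hy]

/-- Two `CoPtMap`s with augmentations of both composites are bijective on stable classes. -/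
theorem Aug.bijective₁ (R : Aug Q Q') (R' : Aug Q' Q) (A X : K) :
    Function.Bijective (Q.pi A X) :=
  bijective_of_comp Q Q' R.bijective R'.bijective A X

theorem Aug.bijective₂ (R : Aug Q Q') (R' : Aug Q' Q) (A X : K) :
    Function.Bijective (Q'.pi A X) :=
  bijective_of_comp Q' Q R'.bijective R.bijective A X

end aug

section iso

variable {K : Type u} [Category.{v} K] {K' : Type u'} [Category.{v'} K']
  {P : CoPt K} {P' : CoPt K'} (Q Q' : CoPtMap P P') (η : ∀ A, Q.G.obj A ⟶ Q'.G.obj A)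
  (ηnat : ∀ {A B : K} (f : A ⟶ B), Q.G.map f ≫ η B = η A ≫ Q'.G.map f)
  (hη : ∀ A, P'.F.map (η A) ≫ Q'.θ A = Q.θ A ≫ η (P.F.obj A))

include hη in
lemma Θ_iso (k : ℕ) (A : K) :
    P'.pwMap k (η A) ≫ Q'.Θ k A = Q.Θ k A ≫ η (P.pw k A) := by
  induction k with
  | zero => simp
  | succ k ih =>
    rw [Θ_succ, Θ_succ, CoPt.pwMap_succ, ← P'.F.map_comp_assoc, ih, P'.F.map_comp, assoc, assoc, hη]

include hη ηnat in
lemma pi_iso (A X : K) (x : P.Pi A X) :
    P'.comap (η A) _ (Q'.pi A X x) = P'.map _ (η X) (Q.pi A X x) := by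
  obtain ⟨k, y, rfl⟩ := CoPt.cl_surj x
  rw [pi_cl, pi_cl, CoPt.map_cl, CoPt.comap_cl, ← assoc, Q.Θ_iso Q' η hη, assoc, assoc,
    ηnat]

end iso

end CoPtMap

namespace CoPt

variable {K : Type u} [Category.{v} K] (P : CoPt K)

lemma bijective_map_of_isIso (A : K) {X Y : K} (f : X ⟶ Y) [IsIso f] :
    Function.Bijective (P.map A f) := by
  refine Function.bijective_iff_has_inverse.2 ⟨P.map A (inv f), ?_, ?_⟩
  · intro x
    rw [← P.map_comp, IsIso.hom_inv_id, P.map_id]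
  · intro x
    rw [← P.map_comp, IsIso.inv_hom_id, P.map_id]

lemma bijective_comap_of_isIso {A B : K} (f : A ⟶ B) [IsIso f] (X : K) :
    Function.Bijective (P.comap f X) := by
  refine Function.bijective_iff_has_inverse.2 ⟨P.comap (inv f) X, ?_, ?_⟩
  · intro x
    rw [← P.comap_comp, IsIso.inv_hom_id, P.comap_id]
  · intro x
    rw [← P.comap_comp, IsIso.hom_inv_id, P.comap_id]

lemma bijective_map_comp (A : K) {X Y Z : K} (f : X ⟶ Y) (g : Y ⟶ Z)
    (hf : Function.Bijective (P.map A f)) (hg : Function.Bijective (P.map A g)) :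
    Function.Bijective (P.map A (f ≫ g)) := by
  have : P.map A (f ≫ g) = P.map A g ∘ P.map A f := by ext x; exact P.map_comp A f g x
  rw [this]
  exact hg.comp hf

lemma bijective_comap_comp {A B D : K} (f : A ⟶ B) (g : B ⟶ D) (X : K)
    (hf : Function.Bijective (P.comap f X)) (hg : Function.Bijective (P.comap g X)) :
    Function.Bijective (P.comap (f ≫ g) X) := by
  have : P.comap (f ≫ g) X = P.comap f X ∘ P.comap g X := by ext x; exact P.comap_comp f g X x
  rw [this]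
  exact hf.comp hg

/-- The morphisms inducing bijections on `Pi A` for all `A` in a class of objects. -/
def W (GG : ObjectProperty K) : MorphismProperty K :=
  fun _ _ f => ∀ A, GG A → Function.Bijective (P.map A f)

lemma W_of_isIso (GG : ObjectProperty K) {X Y : K} (f : X ⟶ Y) [IsIso f] : P.W GG f :=
  fun A _ => P.bijective_map_of_isIso A f

instance (GG : ObjectProperty K) : (P.W GG).HasTwoOutOfThreeProperty where
  comp_mem f g hf hg A hA := P.bijective_map_comp A f g (hf A hA) (hg A hA)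
  of_postcomp f g hg hfg A hA := by
    have h := hfg A hA
    have : P.map A (f ≫ g) = P.map A g ∘ P.map A f := by ext x; exact P.map_comp A f g x
    rw [this, Function.Bijective.of_comp_iff' (hg A hA)] at h
    exact h
  of_precomp f g hf hfg A hA := by
    have h := hfg A hA
    have : P.map A (f ≫ g) = P.map A g ∘ P.map A f := by ext x; exact P.map_comp A f g x
    rw [this, Function.Bijective.of_comp_iff _ (hf A hA)] at h
    exact h

lemma W_t (GG : ObjectProperty K) (X : K) : P.W GG (P.t X) := fun A _ => P.bijective_map_t A X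

end CoPt

/-- A formal desuspension in a symmetric monoidal category. -/
structure StabObj (K : Type u) [Category.{v} K] [MonoidalCategory K] where
  L : K
  S : K
  lam : L ⊗ S ⟶ 𝟙_ K
  comm : lam ▷ (L ⊗ S) ≫ (λ_ _).hom = (L ⊗ S) ◁ lam ≫ (ρ_ _).hom

namespace StabObj

section general

variable {K : Type u} [Category.{v} K] [MonoidalCategory K]

lemma comm_aux {U : K} (lam : U ⟶ 𝟙_ K) (comm : lam ▷ U ≫ (λ_ _).hom = U ◁ lam ≫ (ρ_ _).hom)
    (A : K) : U ◁ (lam ▷ A ≫ (λ_ A).hom) = lam ▷ (U ⊗ A) ≫ (λ_ (U ⊗ A)).hom := by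
  have h := congrArg (fun g => g ▷ A) comm
  simp only [comp_whiskerRight] at h
  have h1 : U ◁ (lam ▷ A ≫ (λ_ A).hom) = (α_ U U A).inv ≫
      (U ◁ lam) ▷ A ≫ (ρ_ U).hom ▷ A := by
    simp
  have h2 : lam ▷ (U ⊗ A) ≫ (λ_ (U ⊗ A)).hom = (α_ U U A).inv ≫
      (lam ▷ U) ▷ A ≫ (λ_ U).hom ▷ A := by
    simp
  rw [h1, h2, h]

lemma right_nat (U Z : K) {A B : K} (f : A ⟶ B) :
    U ◁ (f ▷ Z) ≫ (α_ U B Z).inv = (α_ U A Z).inv ≫ (U ◁ f) ▷ Z := by simp

lemma right_t {U : K} (lam : U ⟶ 𝟙_ K) (A Z : K) :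
    (α_ U A Z).inv ≫ (lam ▷ A ≫ (λ_ A).hom) ▷ Z = lam ▷ (A ⊗ Z) ≫ (λ_ (A ⊗ Z)).hom := by simp

variable [SymmetricCategory K]

lemma left_nat (U Z : K) {A B : K} (f : A ⟶ B) :
    U ◁ (Z ◁ f) ≫ (α_ U Z B).inv ≫ (β_ U Z).hom ▷ B ≫ (α_ Z U B).hom =
      ((α_ U Z A).inv ≫ (β_ U Z).hom ▷ A ≫ (α_ Z U A).hom) ≫ Z ◁ (U ◁ f) := by
  rw [associator_inv_naturality_right_assoc, whisker_exchange_assoc, associator_naturality_right,
    assoc, assoc]

lemma left_t {U : K} (lam : U ⟶ 𝟙_ K) (Z A : K) :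
    ((α_ U Z A).inv ≫ (β_ U Z).hom ▷ A ≫ (α_ Z U A).hom) ≫
      Z ◁ (lam ▷ A ≫ (λ_ A).hom) = lam ▷ (Z ⊗ A) ≫ (λ_ (Z ⊗ A)).hom := by
  have h : (β_ U Z).hom ≫ Z ◁ lam ≫ (ρ_ Z).hom = lam ▷ Z ≫ (λ_ Z).hom := by
    rw [← BraidedCategory.braiding_naturality_left_assoc lam Z, braiding_rightUnitor]
  have h' := congrArg (fun g => (α_ U Z A).inv ≫ (g ▷ A)) h
  simpa using h'

end general

variable {K : Type u} [Category.{v} K] [MonoidalCategory K] (D : StabObj K)

/-- `U = L ⊗ S`. -/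
abbrev U : K := D.L ⊗ D.S

/-- The well-copointed endofunctor `U ⊗ -`. -/
@[reducible] def coPt : CoPt K where
  F := tensorLeft D.U
  t A := D.lam ▷ A ≫ (λ_ A).hom
  nat f := by
    dsimp
    rw [whisker_exchange_assoc, leftUnitor_naturality, assoc]
  comm A := comm_aux D.lam D.comm A

/-- Tensoring with an object on the right. -/
@[reducible] def right (Z : K) : CoPtMap D.coPt D.coPt where
  G := tensorRight Z
  θ A := (α_ D.U A Z).inv
  θ_nat f := right_nat D.U Z f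
  θ_t A := right_t D.lam A Z

lemma bijective_map_t (A X : K) : Function.Bijective (D.coPt.map A (D.lam ▷ X ≫ (λ_ X).hom)) :=
  D.coPt.bijective_map_t A X

lemma bijective_comap_t (A X : K) : Function.Bijective (D.coPt.comap (D.lam ▷ A ≫ (λ_ A).hom) X) :=
  D.coPt.bijective_comap_t A X

variable [SymmetricCategory K]

/-- Tensoring with an object on the left. -/
@[reducible] def left (Z : K) : CoPtMap D.coPt D.coPt where
  G := tensorLeft Z
  θ A := (α_ D.U Z A).inv ≫ (β_ D.U Z).hom ▷ A ≫ (α_ Z D.U A).hom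
  θ_nat f := left_nat D.U Z f
  θ_t A := left_t D.lam Z A

/-- The augmentation `A ⊗ Z ⊗ Z' ⟶ A` for `e : Z ⊗ Z' ≅ L ⊗ S`. -/
def aug (Z Z' : K) (e : Z ⊗ Z' ≅ D.L ⊗ D.S) : CoPtMap.Aug (D.right Z) (D.right Z') where
  r A := (α_ A Z Z').hom ≫ A ◁ (e.hom ≫ D.lam) ≫ (ρ_ A).hom
  nat {A B} f := by
    change (f ▷ Z) ▷ Z' ≫ (α_ B Z Z').hom ≫ B ◁ (e.hom ≫ D.lam) ≫ (ρ_ B).hom =
      ((α_ A Z Z').hom ≫ A ◁ (e.hom ≫ D.lam) ≫ (ρ_ A).hom) ≫ f
    generalize e.hom ≫ D.lam = a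
    simp only [associator_naturality_left_assoc, assoc, ← whisker_exchange_assoc,
      rightUnitor_naturality]
  θ_r A := by
    change (α_ D.U (A ⊗ Z) Z').inv ≫ (α_ D.U A Z).inv ▷ Z' ≫ (α_ (D.U ⊗ A) Z Z').hom ≫
      (D.U ⊗ A) ◁ (e.hom ≫ D.lam) ≫ (ρ_ (D.U ⊗ A)).hom =
      D.U ◁ ((α_ A Z Z').hom ≫ A ◁ (e.hom ≫ D.lam) ≫ (ρ_ A).hom)
    generalize e.hom ≫ D.lam = a
    generalize D.U = U
    simp
  bij_map A X := by
    have h : (α_ X Z Z').hom ≫ X ◁ (e.hom ≫ D.lam) ≫ (ρ_ X).hom =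
        ((α_ X Z Z').hom ≫ X ◁ e.hom ≫ (β_ X (D.L ⊗ D.S)).hom) ≫ D.lam ▷ X ≫ (λ_ X).hom := by
      rw [MonoidalCategory.whiskerLeft_comp, assoc, assoc, assoc,
        ← BraidedCategory.braiding_naturality_right_assoc, braiding_leftUnitor]
    rw [h]
    exact CoPt.bijective_map_comp _ _ _ _ (CoPt.bijective_map_of_isIso _ _ _)
      (D.bijective_map_t A X)
  bij_comap A X := by
    have h : (α_ A Z Z').hom ≫ A ◁ (e.hom ≫ D.lam) ≫ (ρ_ A).hom =
        ((α_ A Z Z').hom ≫ A ◁ e.hom ≫ (β_ A (D.L ⊗ D.S)).hom) ≫ D.lam ▷ A ≫ (λ_ A).hom := by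
      rw [MonoidalCategory.whiskerLeft_comp, assoc, assoc, assoc,
        ← BraidedCategory.braiding_naturality_right_assoc, braiding_leftUnitor]
    rw [h]
    exact CoPt.bijective_comap_comp _ _ _ _ (CoPt.bijective_comap_of_isIso _ _ _)
      (D.bijective_comap_t A X)

/-- `- ⊗ S` is bijective on stable classes. -/
theorem bijective_right_S (A X : K) : Function.Bijective ((D.right D.S).pi A X) :=
  (D.aug D.S D.L (β_ _ _)).bijective₁ (D.aug D.L D.S (Iso.refl _)) A X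

/-- `- ⊗ L` is bijective on stable classes. -/
theorem bijective_right_L (A X : K) : Function.Bijective ((D.right D.L).pi A X) :=
  (D.aug D.S D.L (β_ _ _)).bijective₂ (D.aug D.L D.S (Iso.refl _)) A X

/-- The braiding compares the left and right tensor product. -/
lemma right_left (Z A X : K) (x : D.coPt.Pi A X) :
    D.coPt.comap (β_ A Z).hom _ ((D.left Z).pi A X x) =
      D.coPt.map _ (β_ X Z).hom ((D.right Z).pi A X x) := by
  refine CoPtMap.pi_iso (D.right Z) (D.left Z) (fun A => (β_ A Z).hom) ?_ ?_ A X x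
  · intro A B f
    exact BraidedCategory.braiding_naturality_left f Z
  · intro A
    change D.U ◁ (β_ A Z).hom ≫ (α_ D.U Z A).inv ≫ (β_ D.U Z).hom ▷ A ≫ (α_ Z D.U A).hom =
      (α_ D.U A Z).inv ≫ (β_ (D.U ⊗ A) Z).hom
    generalize D.U = U
    simp

lemma bijective_left_iff (Z A X : K) :
    Function.Bijective ((D.left Z).pi A X) ↔ Function.Bijective ((D.right Z).pi A X) := by
  have h : D.coPt.comap (β_ A Z).hom _ ∘ ((D.left Z).pi A X) =
      D.coPt.map _ (β_ X Z).hom ∘ ((D.right Z).pi A X) := by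
    ext x
    exact D.right_left Z A X x
  have h1 : Function.Bijective (D.coPt.comap (β_ A Z).hom (Z ⊗ X)) :=
    D.coPt.bijective_comap_of_isIso _ _
  have h2 : Function.Bijective (D.coPt.map (A ⊗ Z) (β_ X Z).hom) :=
    D.coPt.bijective_map_of_isIso _ _
  exact (Function.Bijective.of_comp_iff' h1 _).symm.trans
    ((iff_of_eq (congrArg Function.Bijective h)).trans (Function.Bijective.of_comp_iff' h2 _))

@[simp] lemma right_pi_cl (Z : K) {A X : K} (k : ℕ) (x : D.coPt.pw k A ⟶ X) :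
    (D.right Z).pi A X (D.coPt.cl k x) = D.coPt.cl k ((D.right Z).Θ k A ≫ x ▷ Z) := rfl

@[simp] lemma left_pi_cl (Z : K) {A X : K} (k : ℕ) (x : D.coPt.pw k A ⟶ X) :
    (D.left Z).pi A X (D.coPt.cl k x) = D.coPt.cl k ((D.left Z).Θ k A ≫ Z ◁ x) := rfl

lemma right_pi_map (Z A : K) {X Y : K} (f : X ⟶ Y) (x : D.coPt.Pi A X) :
    (D.right Z).pi A Y (D.coPt.map A f x) = D.coPt.map (A ⊗ Z) (f ▷ Z) ((D.right Z).pi A X x) :=
  (D.right Z).pi_map A f x

lemma left_pi_map (Z A : K) {X Y : K} (f : X ⟶ Y) (x : D.coPt.Pi A X) :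
    (D.left Z).pi A Y (D.coPt.map A f x) = D.coPt.map (Z ⊗ A) (Z ◁ f) ((D.left Z).pi A X x) :=
  (D.left Z).pi_map A f x

theorem bijective_left_S (A X : K) : Function.Bijective ((D.left D.S).pi A X) :=
  (D.bijective_left_iff _ _ _).2 (D.bijective_right_S A X)

theorem bijective_left_L (A X : K) : Function.Bijective ((D.left D.L).pi A X) :=
  (D.bijective_left_iff _ _ _).2 (D.bijective_right_L A X)

/-- If `Pi A` inverts `f` then `Pi (S ⊗ A)` inverts `S ◁ f`. -/
lemma bijective_map_left {Z : K} (hZ : ∀ A X, Function.Bijective ((D.left Z).pi A X)) {A X Y : K}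
    (f : X ⟶ Y) :
    Function.Bijective (D.coPt.map (Z ⊗ A) (Z ◁ f)) ↔ Function.Bijective (D.coPt.map A f) := by
  have h : D.coPt.map (Z ⊗ A) (Z ◁ f) ∘ (D.left Z).pi A X =
      (D.left Z).pi A Y ∘ D.coPt.map A f := by
    ext x
    exact (D.left_pi_map Z A f x).symm
  exact (Function.Bijective.of_comp_iff _ (hZ A X)).symm.trans
    ((iff_of_eq (congrArg Function.Bijective h)).trans
      (Function.Bijective.of_comp_iff' (hZ A Y) _))

/-- Changing `A` by a stable equivalence. -/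
lemma bijective_map_comap {A B : K} (a : A ⟶ B)
    (ha : ∀ X, Function.Bijective (D.coPt.comap a X)) {X Y : K} (f : X ⟶ Y) :
    Function.Bijective (D.coPt.map A f) ↔ Function.Bijective (D.coPt.map B f) := by
  have h : D.coPt.map A f ∘ D.coPt.comap a X = D.coPt.comap a Y ∘ D.coPt.map B f := by
    ext x
    exact D.coPt.map_comap a f x
  exact (Function.Bijective.of_comp_iff _ (ha X)).symm.trans
    ((iff_of_eq (congrArg Function.Bijective h)).trans
      (Function.Bijective.of_comp_iff' (ha Y) _))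

section W

variable (GG : ObjectProperty K)

/-- The class of stable equivalences is stable under `Z ⊗ -` for `Z = S` and `Z = L`, provided the
class of test objects is stable under the other one. -/
lemma W_left {Z Z' : K} (hZ : ∀ A X, Function.Bijective ((D.left Z).pi A X))
    (e : Z ⊗ Z' ≅ D.L ⊗ D.S) (hZ' : ∀ A, GG A → GG (Z' ⊗ A)) {X Y : K} (f : X ⟶ Y)
    (hf : D.coPt.W GG f) : D.coPt.W GG (Z ◁ f) := by
  intro A hA
  let a : Z ⊗ (Z' ⊗ A) ⟶ A := ((α_ Z Z' A).inv ≫ e.hom ▷ A) ≫ D.lam ▷ A ≫ (λ_ A).hom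
  have ha (X : K) : Function.Bijective (D.coPt.comap a X) :=
    D.coPt.bijective_comap_comp _ _ _ (D.coPt.bijective_comap_of_isIso _ _)
      (D.bijective_comap_t A X)
  rw [← D.bijective_map_comap a ha, D.bijective_map_left hZ]
  exact hf _ (hZ' A hA)

lemma W_left_S (hL : ∀ A, GG A → GG (D.L ⊗ A)) {X Y : K} (f : X ⟶ Y)
    (hf : D.coPt.W GG f) : D.coPt.W GG (D.S ◁ f) :=
  D.W_left GG D.bijective_left_S (β_ _ _) hL f hf

lemma W_left_L (hS : ∀ A, GG A → GG (D.S ⊗ A)) {X Y : K} (f : X ⟶ Y)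
    (hf : D.coPt.W GG f) : D.coPt.W GG (D.L ◁ f) :=
  D.W_left GG D.bijective_left_L (Iso.refl _) hS f hf

/-- Conversely, `Z ⊗ -` reflects stable equivalences. -/
lemma W_of_left {Z : K} (hZ : ∀ A X, Function.Bijective ((D.left Z).pi A X))
    (hZ' : ∀ A, GG A → GG (Z ⊗ A)) {X Y : K} (f : X ⟶ Y)
    (hf : D.coPt.W GG (Z ◁ f)) : D.coPt.W GG f := by
  intro A hA
  exact (D.bijective_map_left hZ f).1 (hf _ (hZ' A hA))

lemma W_of_left_S (hS : ∀ A, GG A → GG (D.S ⊗ A)) {X Y : K} (f : X ⟶ Y)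
    (hf : D.coPt.W GG (D.S ◁ f)) : D.coPt.W GG f :=
  D.W_of_left GG D.bijective_left_S hS f hf

lemma W_of_left_L (hL : ∀ A, GG A → GG (D.L ⊗ A)) {X Y : K} (f : X ⟶ Y)
    (hf : D.coPt.W GG (D.L ◁ f)) : D.coPt.W GG f :=
  D.W_of_left GG D.bijective_left_L hL f hf

/-- The augmentation `lam` tensored with any object is a stable equivalence. -/
lemma W_lam (X : K) : D.coPt.W GG (D.lam ▷ X ≫ (λ_ X).hom) := D.coPt.W_t GG X

end W

end StabObj

end Vale.Agent.P251.H
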