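import Vale.Agent.P251.H.Pi
import Mathlib.CategoryTheory.Yoneda

/-!
# Morphisms in the localization by Yoneda

Let `P` be a well-copointed endofunctor of `K` and `L : K ⥤ T` a localization functor for a class
`W` such that all `L (t X)` are isomorphisms and `Pi A` inverts `W`. Then
`Pi A X → (L A ⟶ L X)` is bijective.
-/

open CategoryTheory Category Opposite

universe v u v' u'

namespace Vale.Agent.P251.H.CoPt

variable {K : Type u} [Category.{v} K] (P : CoPt K)

section phi

variable {T : Type u'} [Category.{v'} T] (L : K ⥤ T) (hL : ∀ X, IsIso (L.map (P.t X)))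

include hL in
lemma isIso_map_tr {k m : ℕ} (h : k ≤ m) (A : K) : IsIso (L.map (P.tr h A)) := by
  induction m, h using Nat.le_induction with
  | base => rw [tr_refl]; infer_instance
  | succ m hm ih =>
    rw [P.tr_succ_right hm, L.map_comp]
    have := hL (P.pw m A)
    infer_instance

include hL in
lemma isIso_map_tk (k : ℕ) (A : K) : IsIso (L.map (P.tk k A)) := P.isIso_map_tr L hL _ A

/-- The comparison map `Pi A X → (L A ⟶ L X)`. -/
noncomputable def phi (A X : K) : P.Pi A X → (L.obj A ⟶ L.obj X) :=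
  Quotient.lift (fun x => (@asIso _ _ _ _ _ (P.isIso_map_tk L hL x.1 A)).inv ≫ L.map x.2) (by
    rintro ⟨k, x⟩ ⟨l, y⟩ ⟨m, h, h', e⟩
    dsimp at e h h' ⊢
    have h1 := P.isIso_map_tk L hL k A
    have h2 := P.isIso_map_tk L hL l A
    have h3 := P.isIso_map_tk L hL m A
    have h4 : inv (L.map (P.tk k A)) = inv (L.map (P.tk m A)) ≫ L.map (P.tr h A) := by
      rw [IsIso.eq_inv_comp, IsIso.comp_inv_eq, ← L.map_comp, tr_tk]
    have h5 : inv (L.map (P.tk l A)) = inv (L.map (P.tk m A)) ≫ L.map (P.tr h' A) := by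
      rw [IsIso.eq_inv_comp, IsIso.comp_inv_eq, ← L.map_comp, tr_tk]
    rw [h4, h5, assoc, assoc, ← L.map_comp, ← L.map_comp, e])

lemma phi_cl {A X : K} (k : ℕ) (x : P.pw k A ⟶ X) :
    L.map (P.tk k A) ≫ P.phi L hL A X (P.cl k x) = L.map x := by
  have := P.isIso_map_tk L hL k A
  change L.map (P.tk k A) ≫ (asIso (L.map (P.tk k A))).inv ≫ L.map x = _
  simp

@[simp] lemma phi_cl_zero {A X : K} (x : A ⟶ X) :
    P.phi L hL A X (P.cl 0 x) = L.map x := by
  have := P.phi_cl L hL 0 (A := A) x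
  rw [tk_zero, L.map_id, id_comp] at this
  exact this

@[simp] lemma phi_unit (A : K) : P.phi L hL A A (P.unit A) = 𝟙 _ := by
  rw [unit, phi_cl_zero, L.map_id]

lemma phi_map {A X Y : K} (f : X ⟶ Y) (x : P.Pi A X) :
    P.phi L hL A Y (P.map A f x) = P.phi L hL A X x ≫ L.map f := by
  obtain ⟨k, y, rfl⟩ := cl_surj x
  have := P.isIso_map_tk L hL k A
  rw [← cancel_epi (L.map (P.tk k A)), map_cl, phi_cl, ← assoc, phi_cl, L.map_comp]

lemma phi_comap {A B X : K} (f : A ⟶ B) (x : P.Pi B X) :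
    P.phi L hL A X (P.comap f X x) = L.map f ≫ P.phi L hL B X x := by
  obtain ⟨k, y, rfl⟩ := cl_surj x
  have := P.isIso_map_tk L hL k A
  rw [← cancel_epi (L.map (P.tk k A)), comap_cl, phi_cl, ← L.map_comp_assoc, ← tk_nat,
    L.map_comp_assoc, phi_cl, L.map_comp]

end phi

section yoneda

variable {T : Type u'} [Category.{v'} T] (L : K ⥤ T) (W : MorphismProperty K) [L.IsLocalization W]
  (hL : ∀ X, IsIso (L.map (P.t X)))

/-- `Pi A` in a larger universe. -/
@[simps] def piFunctorU (A : K) : K ⥤ Type (max v v') where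
  obj X := ULift.{v'} (P.Pi A X)
  map f := TypeCat.ofHom (fun x => ⟨P.map A f x.down⟩)
  map_id X := by ext x; exact P.map_id A X x.down
  map_comp f g := by ext x; exact P.map_comp A f g x.down

variable (T) in
/-- `Hom(B, -)` in a larger universe. -/
@[simps] def coyonedaU (B : T) : T ⥤ Type (max v v') where
  obj X := ULift.{v} (B ⟶ X)
  map f := TypeCat.ofHom (fun x => ⟨x.down ≫ f⟩)
  map_id X := by ext x; exact comp_id x.down
  map_comp f g := by ext x; exact (assoc x.down f g).symm

/-- The comparison map as a natural transformation. -/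
noncomputable def phiNat (A : K) :
    piFunctorU.{v, u, v'} P A ⟶ L ⋙ coyonedaU.{v, v', u'} T (L.obj A) where
  app X := TypeCat.ofHom (fun x => ⟨P.phi L hL A X x.down⟩)
  naturality X Y f := by
    ext x
    exact congrArg ULift.up (P.phi_map L hL f x.down)

include W in
/-- **Morphisms in the localization.** -/
theorem phi_bijective (A : K)
    (hW : ∀ ⦃X Y : K⦄ (f : X ⟶ Y), W f → Function.Bijective (P.map A f)) (X : K) :
    Function.Bijective (P.phi L hL A X) := by
  have hinv : W.IsInvertedBy (piFunctorU.{v, u, v'} P A) := by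
    intro X Y f hf
    rw [isIso_iff_bijective]
    exact (Equiv.ulift.symm.bijective.comp (hW f hf)).comp Equiv.ulift.bijective
  let F' : T ⥤ Type (max v v') := Localization.lift (piFunctorU.{v, u, v'} P A) hinv L
  let e : L ⋙ F' ≅ piFunctorU.{v, u, v'} P A := Localization.fac _ hinv L
  let τ : F' ⟶ coyonedaU.{v, v', u'} T (L.obj A) :=
    Localization.liftNatTrans L W (piFunctorU.{v, u, v'} P A)
      (L ⋙ coyonedaU.{v, v', u'} T (L.obj A)) F' _ (P.phiNat L hL A)
  have hτ (X : K) (x : P.Pi A X) :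
      (τ.app (L.obj X) (e.inv.app X ⟨x⟩)).down = P.phi L hL A X x := by
    have h1 : τ.app (L.obj X) = e.hom.app X ≫ (P.phiNat L hL A).app X ≫ 𝟙 _ :=
      Localization.liftNatTrans_app L W (piFunctorU.{v, u, v'} P A)
        (L ⋙ coyonedaU.{v, v', u'} T (L.obj A)) F' _ (P.phiNat L hL A) X
    have h2 : e.inv.app X ≫ τ.app (L.obj X) = (P.phiNat L hL A).app X := by
      rw [h1, comp_id, Iso.inv_hom_id_app_assoc]
    have h3 := ConcreteCategory.congr_hom h2 ⟨x⟩
    exact congrArg ULift.down h3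
  let u₀ : F'.obj (L.obj A) := e.inv.app A ⟨P.unit A⟩
  constructor
  · intro x x' hxx'
    have key (x : P.Pi A X) : F'.map (P.phi L hL A X x) u₀ = e.inv.app X ⟨x⟩ := by
      obtain ⟨k, y, rfl⟩ := cl_surj x
      let u₁ : F'.obj (L.obj (P.pw k A)) := e.inv.app (P.pw k A) ⟨P.cl k (𝟙 _)⟩
      have h1 : F'.map (L.map (P.tk k A)) u₁ = u₀ := by
        have := ConcreteCategory.congr_hom (e.inv.naturality (P.tk k A)) ⟨P.cl k (𝟙 _)⟩
        refine Eq.trans this.symm ?_
        change e.inv.app A ⟨P.map A (P.tk k A) (P.cl k (𝟙 _))⟩ = _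
        rw [map_cl, id_comp, cl_tk]
      have h2 : F'.map (L.map y) u₁ = e.inv.app X ⟨P.cl k y⟩ := by
        have := ConcreteCategory.congr_hom (e.inv.naturality y) ⟨P.cl k (𝟙 _)⟩
        refine Eq.trans this.symm ?_
        change e.inv.app X ⟨P.map A y (P.cl k (𝟙 _))⟩ = _
        rw [map_cl, id_comp]
      rw [← h1, ← h2, ← P.phi_cl L hL k y, F'.map_comp]
      rfl
    have h3 : e.inv.app X ⟨x⟩ = e.inv.app X ⟨x'⟩ := by rw [← key, ← key, hxx']
    have h4 := congrArg (fun z => (e.hom.app X z).down) h3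
    have h5 (z) : e.hom.app X (e.inv.app X z) = z :=
      ConcreteCategory.congr_hom (e.inv_hom_id_app X) z
    exact ((congrArg ULift.down (h5 ⟨x⟩)).symm.trans h4).trans (congrArg ULift.down (h5 ⟨x'⟩))
  · intro f
    refine ⟨(e.hom.app X (F'.map f u₀)).down, ?_⟩
    have h5 (z) : e.inv.app X (e.hom.app X z) = z :=
      ConcreteCategory.congr_hom (e.hom_inv_id_app X) z
    rw [← hτ]
    change (τ.app (L.obj X) (e.inv.app X (e.hom.app X (F'.map f u₀)))).down = f
    rw [h5]
    have h6 := ConcreteCategory.congr_hom (τ.naturality f) u₀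
    refine (congrArg ULift.down h6).trans ?_
    change (τ.app (L.obj A) u₀).down ≫ f = f
    rw [hτ, phi_unit, id_comp]

end yoneda

end Vale.Agent.P251.H.CoPt
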