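import Vale.Agent.P251.G.Homotopy
import Mathlib.Analysis.SpecialFunctions.Trigonometric.Basic

/-!
# P251, part H (block P5b): the rotation in `LC`

`rotIso : (ℝ ⊗ ℝ) ⊗ [0,1] ≅ (ℝ ⊗ [0,1]) ⊗ ℝ` sends `((r, t), θ)` to `((w, θ), u)` with
`w = r cos θ' - t sin θ'`, `u = r sin θ' + t cos θ'`, `θ' = θ π / 2`.
-/

open CategoryTheory MonoidalCategory Topology OnePoint

namespace Vale.Agent.P251.H

open Vale.Agent.P251.G Vale.Agent.P251.G.LC

/-- `cos (θ π / 2)` -/
noncomputable def rc (t : unitInterval) : ℝ := Real.cos (t * (Real.pi / 2))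

/-- `sin (θ π / 2)` -/
noncomputable def rs (t : unitInterval) : ℝ := Real.sin (t * (Real.pi / 2))

theorem continuous_rc : Continuous rc := by unfold rc; fun_prop

theorem continuous_rs : Continuous rs := by unfold rs; fun_prop

@[simp] theorem rc_zero : rc 0 = 1 := by simp [rc]

@[simp] theorem rs_zero : rs 0 = 0 := by simp [rs]

@[simp] theorem rc_one : rc 1 = 0 := by simp [rc]

@[simp] theorem rs_one : rs 1 = 1 := by simp [rs]

theorem rc_sq_add_rs_sq (t : unitInterval) : rc t * rc t + rs t * rs t = 1 := by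
  have := Real.cos_sq_add_sin_sq (t * (Real.pi / 2))
  rw [sq, sq] at this
  exact this

/-- the rotation of the plane, parametrised by the interval, as a homeomorphism -/
noncomputable def rotHomeo : (ℝ × ℝ) × unitInterval ≃ₜ (ℝ × unitInterval) × ℝ where
  toFun p := ((p.1.1 * rc p.2 - p.1.2 * rs p.2, p.2), p.1.1 * rs p.2 + p.1.2 * rc p.2)
  invFun q := ((q.1.1 * rc q.1.2 + q.2 * rs q.1.2, q.2 * rc q.1.2 - q.1.1 * rs q.1.2), q.1.2)
  left_inv := by
    rintro ⟨⟨r, t⟩, θ⟩
    have h := rc_sq_add_rs_sq θ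
    refine Prod.ext (Prod.ext ?_ ?_) rfl
    · change (r * rc θ - t * rs θ) * rc θ + (r * rs θ + t * rc θ) * rs θ = r
      linear_combination r * h
    · change (r * rs θ + t * rc θ) * rc θ - (r * rc θ - t * rs θ) * rs θ = t
      linear_combination t * h
  right_inv := by
    rintro ⟨⟨w, θ⟩, u⟩
    have h := rc_sq_add_rs_sq θ
    refine Prod.ext (Prod.ext ?_ rfl) ?_
    · change (w * rc θ + u * rs θ) * rc θ - (u * rc θ - w * rs θ) * rs θ = w
      linear_combination w * h
    · change (w * rc θ + u * rs θ) * rs θ + (u * rc θ - w * rs θ) * rc θ = u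
      linear_combination u * h
  continuous_toFun := by
    have h1 := continuous_rc
    have h2 := continuous_rs
    fun_prop
  continuous_invFun := by
    have h1 := continuous_rc
    have h2 := continuous_rs
    fun_prop

/-- The rotation as an isomorphism of `LC`. -/
noncomputable def rotIso : (RR ⊗ RR) ⊗ II ≅ (RR ⊗ II) ⊗ RR :=
  ofHomeo (X := LC.of ((ℝ × ℝ) × unitInterval)) (Y := LC.of ((ℝ × unitInterval) × ℝ)) rotHomeo

theorem app_rotIso_hom (r t : ℝ) (θ : unitInterval) :
    app rotIso.hom (smash (smash (r : OnePoint ℝ) (t : OnePoint ℝ)) (θ : OnePoint unitInterval)) =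
      smash (smash ((r * rc θ - t * rs θ : ℝ) : OnePoint ℝ) (θ : OnePoint unitInterval))
        ((r * rs θ + t * rc θ : ℝ) : OnePoint ℝ) := rfl

theorem app_rotIso_inv (w u : ℝ) (θ : unitInterval) :
    app rotIso.inv (smash (smash (w : OnePoint ℝ) (θ : OnePoint unitInterval))
      (u : OnePoint ℝ)) =
      smash (smash ((w * rc θ + u * rs θ : ℝ) : OnePoint ℝ)
        ((u * rc θ - w * rs θ : ℝ) : OnePoint ℝ)) (θ : OnePoint unitInterval) := rfl

/-- the reflection of the line -/
def flipRR : RR ⟶ RR := (ofHomeo (X := LC.of ℝ) (Y := LC.of ℝ) (Homeomorph.neg ℝ)).hom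

@[simp] theorem app_flipRR (x : ℝ) : app flipRR (x : OnePoint ℝ) = ((-x : ℝ) : OnePoint ℝ) := rfl

theorem flipRR_flipRR : flipRR ≫ flipRR = 𝟙 RR := by
  apply hom_ext; intro x
  rw [app_comp, app_flipRR, app_flipRR, neg_neg, app_id]

theorem incl_zero_rotIso : incl 0 (RR ⊗ RR) ≫ rotIso.hom = incl 0 RR ▷ RR := by
  apply tensor_ext; intro r t
  rw [app_comp, app_incl, app_whiskerRight_smash, app_incl]
  refine (app_rotIso_hom r t 0).trans ?_
  rw [rc_zero, rs_zero, mul_one, mul_zero, sub_zero, mul_zero, mul_one, zero_add]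

theorem incl_one_rotIso : incl 1 (RR ⊗ RR) ≫ rotIso.hom =
    (β_ RR RR).hom ≫ (flipRR ≫ incl 1 RR) ▷ RR := by
  apply tensor_ext; intro r t
  rw [app_comp, app_incl, app_comp, app_braiding_smash, app_whiskerRight_smash, app_comp,
    app_flipRR, app_incl]
  refine (app_rotIso_hom r t 1).trans ?_
  rw [rc_one, rs_one, mul_one, mul_zero, zero_sub, mul_zero, mul_one, add_zero]

/-- The projection of the interval to a point. -/
def prII : II ⟶ 𝟙_ LC := ofCompact (X := II) (Y := LC.of Unit) (fun _ => ()) continuous_const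

@[simp] theorem app_prII (θ : unitInterval) :
    app prII (θ : OnePoint unitInterval) = ((() : Unit) : OnePoint Unit) := rfl

/-- the family of embeddings `u ↦ w e^⊥ + u e` of the line in the plane -/
noncomputable def rotFam : (RR ⊗ II) ⊗ RR ⟶ RR ⊗ RR :=
  rotIso.inv ≫ (RR ⊗ RR) ◁ prII ≫ (ρ_ (RR ⊗ RR)).hom

theorem app_rotFam (w u : ℝ) (θ : unitInterval) :
    app rotFam (smash (smash (w : OnePoint ℝ) (θ : OnePoint unitInterval)) (u : OnePoint ℝ)) =
      smash ((w * rc θ + u * rs θ : ℝ) : OnePoint ℝ) ((u * rc θ - w * rs θ : ℝ) : OnePoint ℝ) :=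
  rfl

end Vale.Agent.P251.H
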