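import Vale.Agent.P251.T.Axioms

/-!
# P251, part H: the shift by `ℤ` defined by an invertible object of a monoidal category

`InvObj T`: an object `L` with `L ⊗ L' ≅ 𝟙_` and `L' ⊗ L ≅ 𝟙_`. We construct coherent powers
`P n` (`n : ℤ`) and the corresponding `HasShift T ℤ`, with `Y⟦n⟧ = Y ⊗ P n`.
-/

open CategoryTheory MonoidalCategory

universe v u

namespace Vale.Agent.P251.H

variable {T : Type u} [Category.{v} T] [MonoidalCategory T]

/-- an invertible object -/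
structure InvObj (T : Type u) [Category.{v} T] [MonoidalCategory T] where
  L : T
  L' : T
  unit : L ⊗ L' ≅ 𝟙_ T
  counit : L' ⊗ L ≅ 𝟙_ T

namespace InvObj

variable (I : InvObj T)

/-- `- ⊗ L` is an equivalence -/
def equiv : T ≌ T :=
  CategoryTheory.Equivalence.mk (tensorRight I.L) (tensorRight I.L')
    (NatIso.ofComponents
      (fun X => (ρ_ X).symm ≪≫ whiskerLeftIso X I.unit.symm ≪≫ (α_ X I.L I.L').symm)
      (by
        intro X Y f
        simp only [Functor.id_obj, Functor.comp_obj, Functor.id_map, Iso.trans_hom,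
          Iso.symm_hom, whiskerLeftIso_hom, Functor.comp_map, Category.assoc]
        change _ = _ ≫ _ ≫ _ ≫ (f ▷ I.L) ▷ I.L'
        rw [rightUnitor_inv_naturality_assoc, ← whisker_exchange_assoc]
        simp))
    (NatIso.ofComponents
      (fun X => α_ X I.L' I.L ≪≫ whiskerLeftIso X I.counit ≪≫ ρ_ X)
      (by
        intro X Y f
        simp only [Functor.id_obj, Functor.comp_obj, Functor.id_map, Iso.trans_hom,
          whiskerLeftIso_hom, Functor.comp_map, Category.assoc]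
        change (f ▷ I.L') ▷ I.L ≫ _ = _
        rw [← rightUnitor_naturality, whisker_exchange_assoc]
        simp))

instance : (tensorRight I.L).IsEquivalence :=
  inferInstanceAs (I.equiv.functor.IsEquivalence)

/-- descend a morphism along `- ⊗ L` -/
noncomputable def down {X Y : T} (f : X ⊗ I.L ⟶ Y ⊗ I.L) : X ⟶ Y :=
  (tensorRight I.L).preimage f

@[simp]
lemma down_whiskerRight {X Y : T} (f : X ⊗ I.L ⟶ Y ⊗ I.L) : I.down f ▷ I.L = f :=
  (tensorRight I.L).map_preimage f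

lemma whiskerRight_injective {X Y : T} {f g : X ⟶ Y} (h : f ▷ I.L = g ▷ I.L) : f = g :=
  (tensorRight I.L).map_injective h

/-- A family `(X n)` with isomorphisms `X n ⊗ L ≅ X (n+1)`. -/
structure Fam where
  obj : ℤ → T
  iso : ∀ n m : ℤ, n + 1 = m → (obj n ⊗ I.L ≅ obj m)

variable {I}

/-- compatible families of maps -/
def Fam.Compat {X Y : I.Fam} (f : ∀ n, X.obj n ⟶ Y.obj n) : Prop :=
  ∀ n m (h : n + 1 = m), (X.iso n m h).hom ≫ f m = f n ▷ I.L ≫ (Y.iso n m h).hom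

lemma Fam.Compat.ext {X Y : I.Fam} {f g : ∀ n, X.obj n ⟶ Y.obj n} (hf : Fam.Compat f)
    (hg : Fam.Compat g) (n₀ : ℤ) (h₀ : f n₀ = g n₀) (n : ℤ) : f n = g n := by
  refine Int.inductionOn' (motive := fun n => f n = g n) n n₀ h₀ ?_ ?_
  · intro k _ ih
    rw [← cancel_epi (X.iso k (k + 1) rfl).hom, hf, hg, ih]
  · intro k _ ih
    apply I.whiskerRight_injective
    rw [← cancel_mono (Y.iso (k - 1) k (by omega)).hom, ← hf, ← hg, ih]

lemma Fam.Compat.id (X : I.Fam) : Fam.Compat (fun n => 𝟙 (X.obj n)) := by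
  intro n m h
  simp

lemma Fam.Compat.comp {X Y Z : I.Fam} {f : ∀ n, X.obj n ⟶ Y.obj n}
    {g : ∀ n, Y.obj n ⟶ Z.obj n} (hf : Fam.Compat f) (hg : Fam.Compat g) :
    Fam.Compat (fun n => f n ≫ g n) := by
  intro n m h
  simp only [comp_whiskerRight, Category.assoc]
  rw [← hg, reassoc_of% hf n m h]

/-- extension of a map `X 0 ⟶ Y 0` in nonnegative degrees -/
noncomputable def Fam.liftPos {X Y : I.Fam} (f : X.obj 0 ⟶ Y.obj 0) :
    ∀ k : ℕ, X.obj k ⟶ Y.obj k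
  | 0 => f
  | k + 1 => (X.iso k (k + 1 : ℕ) (by simp)).inv ≫ Fam.liftPos f k ▷ I.L ≫
      (Y.iso k (k + 1 : ℕ) (by simp)).hom

/-- extension of a map `X 0 ⟶ Y 0` in nonpositive degrees -/
noncomputable def Fam.liftNeg {X Y : I.Fam} (f : X.obj 0 ⟶ Y.obj 0) :
    ∀ k : ℕ, X.obj (-(k : ℤ)) ⟶ Y.obj (-(k : ℤ))
  | 0 => f
  | k + 1 => I.down ((X.iso (-((k + 1 : ℕ) : ℤ)) (-(k : ℤ)) (by omega)).hom ≫
      Fam.liftNeg f k ≫ (Y.iso (-((k + 1 : ℕ) : ℤ)) (-(k : ℤ)) (by omega)).inv)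

/-- extension of a map `X 0 ⟶ Y 0` -/
noncomputable def Fam.lift {X Y : I.Fam} (f : X.obj 0 ⟶ Y.obj 0) :
    ∀ n : ℤ, X.obj n ⟶ Y.obj n
  | Int.ofNat k => Fam.liftPos f k
  | Int.negSucc k => Fam.liftNeg f (k + 1)

lemma Fam.lift_zero {X Y : I.Fam} (f : X.obj 0 ⟶ Y.obj 0) : Fam.lift f 0 = f := rfl

lemma Fam.lift_ofNat {X Y : I.Fam} (f : X.obj 0 ⟶ Y.obj 0) (k : ℕ) :
    Fam.lift f k = Fam.liftPos f k := rfl

lemma Fam.lift_neg {X Y : I.Fam} (f : X.obj 0 ⟶ Y.obj 0) (k : ℕ) :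
    Fam.lift f (-(k : ℤ)) = Fam.liftNeg f k := by
  cases k with
  | zero => rfl
  | succ k => rfl

lemma Fam.lift_compat {X Y : I.Fam} (f : X.obj 0 ⟶ Y.obj 0) : Fam.Compat (Fam.lift f) := by
  have key : ∀ n : ℤ, (X.iso n (n + 1) rfl).hom ≫ Fam.lift f (n + 1) =
      Fam.lift f n ▷ I.L ≫ (Y.iso n (n + 1) rfl).hom := by
    intro n
    rcases lt_or_ge n 0 with hn | hn
    · obtain ⟨k, rfl⟩ : ∃ k : ℕ, n = -((k + 1 : ℕ) : ℤ) := ⟨(-n - 1).toNat, by omega⟩
      have h1 := Fam.lift_neg f (k + 1)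
      have h2 : ∀ m : ℤ, m = -(k : ℤ) → ∀ (h : -((k + 1 : ℕ) : ℤ) + 1 = m),
          (X.iso (-((k + 1 : ℕ) : ℤ)) m h).hom ≫ Fam.lift f m =
          Fam.lift f (-((k + 1 : ℕ) : ℤ)) ▷ I.L ≫ (Y.iso (-((k + 1 : ℕ) : ℤ)) m h).hom := by
        rintro m rfl h
        rw [h1, Fam.lift_neg, Fam.liftNeg, down_whiskerRight]
        simp
      exact h2 _ (by omega) rfl
    · obtain ⟨k, rfl⟩ : ∃ k : ℕ, n = (k : ℤ) := ⟨n.toNat, by omega⟩
      have h2 : ∀ m : ℤ, m = ((k + 1 : ℕ) : ℤ) → ∀ (h : (k : ℤ) + 1 = m),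
          (X.iso k m h).hom ≫ Fam.lift f m =
          Fam.lift f k ▷ I.L ≫ (Y.iso k m h).hom := by
        rintro m rfl h
        rw [Fam.lift_ofNat, Fam.lift_ofNat, Fam.liftPos]
        simp
      exact h2 _ (by omega) rfl
  rintro n m rfl
  exact key n

/-- extension of an isomorphism `X 0 ≅ Y 0` -/
noncomputable def Fam.liftIso {X Y : I.Fam} (f : X.obj 0 ≅ Y.obj 0) (n : ℤ) :
    X.obj n ≅ Y.obj n where
  hom := Fam.lift f.hom n
  inv := Fam.lift f.inv n
  hom_inv_id := by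
    refine ((Fam.lift_compat f.hom).comp (Fam.lift_compat f.inv)).ext (Fam.Compat.id X) 0 ?_ n
    simp [Fam.lift_zero]
  inv_hom_id := by
    refine ((Fam.lift_compat f.inv).comp (Fam.lift_compat f.hom)).ext (Fam.Compat.id Y) 0 ?_ n
    simp [Fam.lift_zero]

lemma Fam.liftIso_compat {X Y : I.Fam} (f : X.obj 0 ≅ Y.obj 0) :
    Fam.Compat (fun n => (Fam.liftIso f n).hom) := Fam.lift_compat f.hom

lemma Fam.liftIso_zero {X Y : I.Fam} (f : X.obj 0 ≅ Y.obj 0) : (Fam.liftIso f 0).hom = f.hom := rfl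

/-- tensor a family with an object on the left -/
@[simps obj]
def Fam.tens (A : T) (X : I.Fam) : I.Fam where
  obj n := A ⊗ X.obj n
  iso n m h := α_ A (X.obj n) I.L ≪≫ whiskerLeftIso A (X.iso n m h)

/-- shift a family -/
@[simps obj]
def Fam.sh (a : ℤ) (X : I.Fam) : I.Fam where
  obj n := X.obj (a + n)
  iso n m h := X.iso (a + n) (a + m) (by omega)

lemma Fam.Compat.tens {X Y : I.Fam} {f : ∀ n, X.obj n ⟶ Y.obj n} (hf : Fam.Compat f) (A : T) :
    Fam.Compat (X := X.tens A) (Y := Y.tens A) (fun n => A ◁ f n) := by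
  intro n m h
  have := hf n m h
  simp only [Fam.tens, Iso.trans_hom, whiskerLeftIso_hom, Category.assoc]
  rw [← MonoidalCategory.whiskerLeft_comp, this]
  simp

lemma Fam.Compat.tensLeft {A B : T} (g : A ⟶ B) (X : I.Fam) :
    Fam.Compat (X := X.tens A) (Y := X.tens B) (fun n => g ▷ X.obj n) := by
  intro n m h
  simp [Fam.tens, whisker_exchange]

lemma Fam.Compat.sh {X Y : I.Fam} {f : ∀ n, X.obj n ⟶ Y.obj n} (hf : Fam.Compat f) (a : ℤ) :
    Fam.Compat (X := X.sh a) (Y := Y.sh a) (fun n => f (a + n)) := by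
  intro n m h
  exact hf _ _ _

lemma Fam.Compat.assoc (A B : T) (X : I.Fam) :
    Fam.Compat (X := X.tens (A ⊗ B)) (Y := (X.tens B).tens A)
      (fun n => (α_ A B (X.obj n)).hom) := by
  intro n m h
  simp [Fam.tens]

variable (I)

/-- negative powers -/
def negPow : ℕ → T
  | 0 => 𝟙_ T
  | k + 1 => negPow k ⊗ I.L'

/-- positive powers -/
def posPow : ℕ → T
  | 0 => 𝟙_ T
  | k + 1 => posPow k ⊗ I.L

/-- the powers of `L` -/
def pow : ℤ → T
  | Int.ofNat k => I.posPow k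
  | Int.negSucc k => I.negPow (k + 1)

/-- the structure isomorphisms of the powers of `L` -/
def powIso : ∀ n : ℤ, (I.pow n ⊗ I.L ≅ I.pow (n + 1))
  | Int.ofNat _ => Iso.refl _
  | Int.negSucc 0 => α_ _ _ _ ≪≫ whiskerLeftIso _ I.counit ≪≫ ρ_ _
  | Int.negSucc (k + 1) =>
    (α_ (I.negPow (k + 1)) I.L' I.L ≪≫ whiskerLeftIso _ I.counit ≪≫ ρ_ (I.negPow (k + 1)) : _)

/-- the family of the powers of `L` -/
def powFam : I.Fam where
  obj := I.pow
  iso n _ h := I.powIso n ≪≫ eqToIso (by rw [h])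

@[simp] lemma powFam_obj (n : ℤ) : I.powFam.obj n = I.pow n := rfl

lemma pow_zero : I.pow 0 = 𝟙_ T := rfl

/-- reindexing isomorphism -/
def cast {a b : ℤ} (h : a = b) : I.pow a ≅ I.pow b := eqToIso (by rw [h])

@[simp] lemma cast_refl {a : ℤ} (h : a = a) : I.cast h = Iso.refl _ := rfl

lemma castCompat {a b : ℤ} (h : a = b) :
    Fam.Compat (X := I.powFam.sh a) (Y := I.powFam.sh b)
      (fun n => (I.cast (show a + n = b + n by rw [h])).hom) := by
  subst h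
  exact Fam.Compat.id _

/-- `P a ⊗ P b ≅ P (a + b)` -/
noncomputable def mul (a b : ℤ) : I.pow a ⊗ I.pow b ≅ I.pow (a + b) :=
  Fam.liftIso (X := I.powFam.tens (I.pow a)) (Y := I.powFam.sh a)
    (ρ_ (I.pow a) ≪≫ I.cast (add_zero a).symm) b

lemma mul_compat (a : ℤ) : Fam.Compat (X := I.powFam.tens (I.pow a)) (Y := I.powFam.sh a)
    (fun b => (I.mul a b).hom) :=
  Fam.liftIso_compat _

lemma mul_zero_hom (a : ℤ) :
    (I.mul a 0).hom = (ρ_ (I.pow a)).hom ≫ (I.cast (add_zero a).symm).hom := rfl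

/-- cast along the associativity -/
lemma castAssocCompat (a b : ℤ) :
    Fam.Compat (X := I.powFam.sh (a + b)) (Y := (I.powFam.sh a).sh b)
      (fun n => (I.cast (show a + b + n = a + (b + n) by omega)).hom) := by
  have key : ∀ (x y x' y' : ℤ) (h1 : x + 1 = x') (h2 : y + 1 = y') (h : x = y)
      (h' : x' = y'), (I.powFam.iso x x' h1).hom ≫ (I.cast h').hom =
      (I.cast h).hom ▷ I.L ≫ (I.powFam.iso y y' h2).hom := by
    rintro x y x' y' h1 h2 rfl rfl
    simp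
  intro n m h
  exact key (a + b + n) (a + (b + n)) (a + b + m) (a + (b + m)) (by omega) (by omega)
    (by omega) (by omega)

lemma mul_assoc (a b c : ℤ) :
    (I.mul a b).hom ▷ I.pow c ≫ (I.mul (a + b) c).hom ≫ (I.cast (add_assoc a b c)).hom =
      (α_ _ _ _).hom ≫ I.pow a ◁ (I.mul b c).hom ≫ (I.mul a (b + c)).hom := by
  have h1 : Fam.Compat (X := I.powFam.tens (I.pow a ⊗ I.pow b)) (Y := (I.powFam.sh a).sh b)
      (fun c => (I.mul a b).hom ▷ I.pow c ≫ (I.mul (a + b) c).hom ≫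
        (I.cast (add_assoc a b c)).hom) :=
    (Fam.Compat.tensLeft (I.mul a b).hom I.powFam).comp
      ((I.mul_compat (a + b)).comp (I.castAssocCompat a b))
  have h2 : Fam.Compat (X := I.powFam.tens (I.pow a ⊗ I.pow b)) (Y := (I.powFam.sh a).sh b)
      (fun c => (α_ _ _ _).hom ≫ I.pow a ◁ (I.mul b c).hom ≫ (I.mul a (b + c)).hom) :=
    (Fam.Compat.assoc (I.pow a) (I.pow b) I.powFam).comp
      (((I.mul_compat b).tens (I.pow a)).comp ((I.mul_compat a).sh b))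
  refine h1.ext h2 0 ?_ c
  simp only [mul_zero_hom]
  have key : ∀ (x y : ℤ) (h : b = x) (h' : a + b = y) (h'' : y = a + x),
      (I.mul a b).hom ▷ I.pow 0 ≫ ((ρ_ (I.pow (a + b))).hom ≫ (I.cast h').hom) ≫ (I.cast h'').hom
      = (α_ (I.pow a) (I.pow b) (I.pow 0)).hom ≫ I.pow a ◁ ((ρ_ (I.pow b)).hom ≫ (I.cast h).hom) ≫
        (I.mul a x).hom := by
    rintro x y rfl rfl h''
    simp only [cast_refl, Iso.refl_hom, Category.comp_id, pow_zero]
    simp
  exact key _ _ _ _ _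

lemma zero_mul_hom (b : ℤ) :
    (I.mul 0 b).hom = (λ_ (I.pow b)).hom ≫ (I.cast (zero_add b).symm).hom := by
  have h2 : Fam.Compat (X := I.powFam.tens (I.pow 0)) (Y := I.powFam.sh 0)
      (fun b => (λ_ (I.pow b)).hom ≫ (I.cast (zero_add b).symm).hom) := by
    intro n m h
    have key : ∀ (x y : ℤ) (hx : n = x) (hy : m = y) (h' : x + 1 = y),
      (α_ (𝟙_ T) (I.pow n) I.L).hom ≫ 𝟙_ T ◁ (I.powFam.iso n m h).hom ≫
        (λ_ (I.pow m)).hom ≫ (I.cast hy).hom =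
      ((λ_ (I.pow n)).hom ≫ (I.cast hx).hom) ▷ I.L ≫ (I.powFam.iso x y h').hom := by
      rintro x y rfl rfl h'
      simp
    have := key (0 + n) (0 + m) (zero_add n).symm (zero_add m).symm (by omega)
    simp only [Fam.tens, Iso.trans_hom, whiskerLeftIso_hom, Category.assoc]
    exact this
  refine (I.mul_compat 0).ext h2 0 ?_ b
  rw [mul_zero_hom]
  change (ρ_ (𝟙_ T)).hom ≫ _ = (λ_ (𝟙_ T)).hom ≫ _
  rw [unitors_equal]

lemma cast_symm_inv {a b : ℤ} (h : a = b) : (I.cast h.symm).inv = (I.cast h).hom := by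
  subst h
  rfl

lemma zero_mul_inv (n : ℤ) :
    (I.mul 0 n).inv = ((I.cast (zero_add n)).hom ≫ (λ_ (I.pow n)).inv :
      I.pow (0 + n) ⟶ 𝟙_ T ⊗ I.pow n) := by
  have h : I.mul 0 n = (λ_ (I.pow n) ≪≫ I.cast (zero_add n).symm :
      𝟙_ T ⊗ I.pow n ≅ I.pow (0 + n)) := Iso.ext (I.zero_mul_hom n)
  have h2 := congrArg Iso.inv h
  rw [Iso.trans_inv, cast_symm_inv] at h2
  exact h2

lemma mul_zero_inv (n : ℤ) :
    (I.mul n 0).inv = ((I.cast (add_zero n)).hom ≫ (ρ_ (I.pow n)).inv :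
      I.pow (n + 0) ⟶ I.pow n ⊗ 𝟙_ T) := by
  have h : I.mul n 0 = (ρ_ (I.pow n) ≪≫ I.cast (add_zero n).symm :
      I.pow n ⊗ 𝟙_ T ≅ I.pow (n + 0)) := Iso.ext (I.mul_zero_hom n)
  have h2 := congrArg Iso.inv h
  rw [Iso.trans_inv, cast_symm_inv] at h2
  exact h2

/-- the shift functors `Y ⟦n⟧ = Y ⊗ P n` -/
noncomputable def shiftCore : ShiftMkCore T ℤ where
  F n := tensorRight (I.pow n)
  zero := NatIso.ofComponents (fun X => ρ_ X) (fun f => by
    change f ▷ 𝟙_ T ≫ (ρ_ _).hom = (ρ_ _).hom ≫ f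
    exact rightUnitor_naturality f)
  add n m := NatIso.ofComponents
    (fun X => whiskerLeftIso X (I.mul n m).symm ≪≫ (α_ X (I.pow n) (I.pow m)).symm) (by
      intro X Y f
      change f ▷ I.pow (n + m) ≫ (Y ◁ (I.mul n m).inv ≫ (α_ Y _ _).inv) =
        (X ◁ (I.mul n m).inv ≫ (α_ X _ _).inv) ≫ (f ▷ I.pow n) ▷ I.pow m
      rw [← whisker_exchange_assoc]
      simp)
  assoc_hom_app a b c X := by
    have e : (eqToHom (by rw [add_assoc]) :
        (tensorRight (I.pow (a + b + c))).obj X ⟶ (tensorRight (I.pow (a + (b + c)))).obj X) =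
        X ◁ (I.cast (add_assoc a b c)).hom := by
      have : ∀ (x y : ℤ) (h : x = y) (h' : (tensorRight (I.pow x)).obj X =
          (tensorRight (I.pow y)).obj X), eqToHom h' = X ◁ (I.cast h).hom := by
        rintro x y rfl h'
        simp
      exact this _ _ _ _
    rw [e]
    change (X ◁ (I.mul (a + b) c).inv ≫ (α_ X (I.pow (a + b)) (I.pow c)).inv) ≫
        (X ◁ (I.mul a b).inv ≫ (α_ X (I.pow a) (I.pow b)).inv) ▷ I.pow c =
      X ◁ (I.cast (add_assoc a b c)).hom ≫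
        (X ◁ (I.mul a (b + c)).inv ≫ (α_ X (I.pow a) (I.pow (b + c))).inv) ≫
        ((X ⊗ I.pow a) ◁ (I.mul b c).inv ≫ (α_ (X ⊗ I.pow a) (I.pow b) (I.pow c)).inv)
    have h := I.mul_assoc a b c
    have h' : (I.mul (a + b) c).inv ≫ (I.mul a b).inv ▷ I.pow c =
        (I.cast (add_assoc a b c)).hom ≫ (I.mul a (b + c)).inv ≫ I.pow a ◁ (I.mul b c).inv ≫
          (α_ _ _ _).inv := by
      rw [← cancel_epi (I.mul (a + b) c).hom, ← cancel_epi ((I.mul a b).hom ▷ I.pow c)]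
      rw [reassoc_of% h]
      simp
    have h1 : (α_ X (I.pow (a + b)) (I.pow c)).inv ≫
        (X ◁ (I.mul a b).inv) ▷ I.pow c = X ◁ ((I.mul a b).inv ▷ I.pow c) ≫
        (α_ X (I.pow a ⊗ I.pow b) (I.pow c)).inv := by simp
    simp only [comp_whiskerRight, Category.assoc]
    rw [reassoc_of% h1, ← MonoidalCategory.whiskerLeft_comp_assoc, h']
    simp
  zero_add_hom_app n X := by
    have e : (eqToHom (by dsimp; rw [zero_add]) :
        (tensorRight (I.pow (0 + n))).obj X ⟶ (tensorRight (I.pow n)).obj X) =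
        X ◁ (I.cast (zero_add n)).hom := by
      have : ∀ (x y : ℤ) (h : x = y) (h' : (tensorRight (I.pow x)).obj X =
          (tensorRight (I.pow y)).obj X), eqToHom h' = X ◁ (I.cast h).hom := by
        rintro x y rfl h'
        simp
      exact this _ _ _ _
    rw [e]
    change X ◁ (I.mul 0 n).inv ≫ (α_ X (𝟙_ T) (I.pow n)).inv =
      X ◁ (I.cast (zero_add n)).hom ≫ (ρ_ X).inv ▷ I.pow n
    exact (congrArg (fun t : I.pow (0 + n) ⟶ 𝟙_ T ⊗ I.pow n =>
      X ◁ t ≫ (α_ X (𝟙_ T) (I.pow n)).inv) (I.zero_mul_inv n)).trans (by simp)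
  add_zero_hom_app n X := by
    have e : (eqToHom (by dsimp; rw [add_zero]) :
        (tensorRight (I.pow (n + 0))).obj X ⟶ (tensorRight (I.pow n)).obj X) =
        X ◁ (I.cast (add_zero n)).hom := by
      have : ∀ (x y : ℤ) (h : x = y) (h' : (tensorRight (I.pow x)).obj X =
          (tensorRight (I.pow y)).obj X), eqToHom h' = X ◁ (I.cast h).hom := by
        rintro x y rfl h'
        simp
      exact this _ _ _ _
    rw [e]
    change X ◁ (I.mul n 0).inv ≫ (α_ X (I.pow n) (𝟙_ T)).inv =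
      X ◁ (I.cast (add_zero n)).hom ≫ (ρ_ (X ⊗ I.pow n)).inv
    exact (congrArg (fun t : I.pow (n + 0) ⟶ I.pow n ⊗ 𝟙_ T =>
      X ◁ t ≫ (α_ X (I.pow n) (𝟙_ T)).inv) (I.mul_zero_inv n)).trans (by simp)

/-- The shift by `ℤ` defined by the invertible object `L`: `Y⟦n⟧ = Y ⊗ P n` -/
@[instance_reducible]
noncomputable def hasShift : HasShift T ℤ := hasShiftMk T ℤ I.shiftCore

/-- `Y⟦1⟧ ≅ Y ⊗ L` -/
noncomputable def shiftOneIso (Y : T) : letI := I.hasShift; Y⟦(1 : ℤ)⟧ ≅ Y ⊗ I.L :=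
  whiskerLeftIso Y (λ_ I.L)

end InvObj

end Vale.Agent.P251.H
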