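import Vale.Agent.P251.H.Pi
import Vale.Agent.P251.H.StabInput

/-!
# P251, part H: stable maps between spaces

`K` is a symmetric monoidal category (the naive homotopy category of a `StabInput` category),
`j : D ⥤ K` a full braided functor (the spaces), `R` an object of `D`, and `L : K`,
`lam : L ⊗ j R ⟶ 𝟙` are such that `j (Y ⊗ R)` is the internal hom from `L` to `j Y`, and the two
maps `U ⊗ U ⟶ U` induced by `lam` agree (`U = L ⊗ j R`).  We show that a map `U^k ⊗ j X ⟶ j Y`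
becomes, after tensoring with `R^k`, induced by a map `X ⊗ R^k ⟶ Y ⊗ R^k` in `D`, and that two maps
`a b : Z ⟶ j Y` which agree after composition with `U^k ⊗ Z ⟶ Z` agree after tensoring with
`R^k`.
-/

open CategoryTheory MonoidalCategory Functor.LaxMonoidal Functor.OplaxMonoidal

namespace Vale.Agent.P251.H

universe v u v' u'

section CoPt

variable {K : Type u} [Category.{v} K] [MonoidalCategory K]

/-- The well-copointed endofunctor `U ⊗ -` with `l ⊗ - : U ⊗ - ⟶ 𝟭`. -/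
abbrev coPtOf (U : K) (l : U ⟶ 𝟙_ K) (rot : l ▷ U ≫ (λ_ U).hom = U ◁ l ≫ (ρ_ U).hom) :
    CoPt K where
  F :=
    { obj := fun A => U ⊗ A
      map := fun f => U ◁ f }
  t A := l ▷ A ≫ (λ_ A).hom
  nat {A B} f := by
    change U ◁ f ≫ l ▷ B ≫ (λ_ B).hom = (l ▷ A ≫ (λ_ A).hom) ≫ f
    rw [whisker_exchange_assoc, leftUnitor_naturality, Category.assoc]
  comm A := by
    change U ◁ (l ▷ A ≫ (λ_ A).hom) = l ▷ (U ⊗ A) ≫ (λ_ (U ⊗ A)).hom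
    have h := congrArg (fun f => (α_ U U A).inv ≫ f ▷ A) rot
    simp only [comp_whiskerRight] at h
    have e1 : (α_ U U A).inv ≫ (l ▷ U) ▷ A ≫ (λ_ U).hom ▷ A
        = l ▷ (U ⊗ A) ≫ (λ_ (U ⊗ A)).hom := by
      monoidal
    have e2 : (α_ U U A).inv ≫ (U ◁ l) ▷ A ≫ (ρ_ U).hom ▷ A
        = U ◁ (l ▷ A ≫ (λ_ A).hom) := by
      monoidal
    rw [← e1, ← e2, h]

end CoPt

/-- The spaces `j : D ⥤ K` in a symmetric monoidal category `K` with a desuspension `L` such that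
`j (R ⊗ Y)` is the internal hom from `L` to `j Y`. -/
structure SpaceIn (D : Type u') [Category.{v'} D] [MonoidalCategory D] [BraidedCategory D]
    (K : Type u) [Category.{v} K] [MonoidalCategory K] [SymmetricCategory K] where
  j : D ⥤ K
  [braided : j.Braided]
  R : D
  L : K
  lam : L ⊗ j.obj R ⟶ 𝟙_ K
  rot : lam ▷ (L ⊗ j.obj R) ≫ (λ_ (L ⊗ j.obj R)).hom =
    (L ⊗ j.obj R) ◁ lam ≫ (ρ_ (L ⊗ j.obj R)).hom
  ev_bij (X : K) (Y : D) : Function.Bijective (fun x : X ⟶ j.obj (R ⊗ Y) => L ◁ x ≫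
    L ◁ δ j R Y ≫ (α_ L (j.obj R) (j.obj Y)).inv ≫ lam ▷ j.obj Y ≫ (λ_ (j.obj Y)).hom)

namespace SpaceIn

variable {D : Type u'} [Category.{v'} D] [MonoidalCategory D] [BraidedCategory D]
    {K : Type u} [Category.{v} K] [MonoidalCategory K] [SymmetricCategory K]
    (P : SpaceIn D K)

attribute [instance] SpaceIn.braided

/-- the circle -/
abbrev S : K := P.j.obj P.R

/-- the well-copointed endofunctor `U ⊗ -`, `U = L ⊗ S` -/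
abbrev cp : CoPt K := coPtOf (P.L ⊗ P.S) P.lam P.rot

/-- the powers of `R` -/
@[reducible] def Rp : ℕ → D
  | 0 => 𝟙_ D
  | n + 1 => P.R ⊗ Rp n

/-- evaluation on the right -/
def rev (Y : D) : P.L ⊗ P.j.obj (Y ⊗ P.R) ⟶ P.j.obj Y :=
  P.L ◁ P.j.map (β_ Y P.R).hom ≫ P.L ◁ δ P.j P.R Y ≫ (α_ P.L P.S (P.j.obj Y)).inv ≫
    P.lam ▷ P.j.obj Y ≫ (λ_ (P.j.obj Y)).hom

theorem rev_bij (X : K) (Y : D) :
    Function.Bijective (fun x : X ⟶ P.j.obj (Y ⊗ P.R) => P.L ◁ x ≫ P.rev Y) := by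
  have h : (fun x : X ⟶ P.j.obj (Y ⊗ P.R) => P.L ◁ x ≫ P.rev Y) =
      (fun x : X ⟶ P.j.obj (P.R ⊗ Y) => P.L ◁ x ≫
        P.L ◁ δ P.j P.R Y ≫ (α_ P.L (P.j.obj P.R) (P.j.obj Y)).inv ≫ P.lam ▷ P.j.obj Y ≫
          (λ_ (P.j.obj Y)).hom) ∘ (fun x => x ≫ P.j.map (β_ Y P.R).hom) := by
    ext x
    simp [rev]
  rw [h]
  refine (P.ev_bij X Y).comp ⟨fun a b hab => ?_, fun b => ⟨b ≫ P.j.map (β_ Y P.R).inv, ?_⟩⟩
  · exact (cancel_mono (P.j.map (β_ Y P.R).hom)).1 hab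
  · change (b ≫ P.j.map (β_ Y P.R).inv) ≫ P.j.map (β_ Y P.R).hom = b
    rw [Category.assoc, ← Functor.map_comp, Iso.inv_hom_id, CategoryTheory.Functor.map_id,
      Category.comp_id]

/-- `L ⊗ (Z ⊗ S) ≅ U ⊗ Z` -/
def cc (Z : K) : P.L ⊗ (Z ⊗ P.S) ⟶ (P.L ⊗ P.S) ⊗ Z :=
  P.L ◁ (β_ Z P.S).hom ≫ (α_ P.L P.S Z).inv

theorem cc_naturality {Z Z' : K} (f : Z ⟶ Z') :
    P.L ◁ (f ▷ P.S) ≫ P.cc Z' = P.cc Z ≫ (P.L ⊗ P.S) ◁ f := by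
  rw [cc, cc, ← whiskerLeft_comp_assoc, BraidedCategory.braiding_naturality_left, Category.assoc,
    ← associator_inv_naturality_right, whiskerLeft_comp, Category.assoc]

/-- the structure map `U ⊗ Z ⟶ Z` -/
def tt (Z : K) : (P.L ⊗ P.S) ⊗ Z ⟶ Z := P.lam ▷ Z ≫ (λ_ Z).hom

theorem tt_comm (Z : K) : (P.L ⊗ P.S) ◁ P.tt Z = P.tt ((P.L ⊗ P.S) ⊗ Z) := P.cp.comm Z

theorem tk_succ' (k : ℕ) (Z : K) :
    P.cp.tk (k + 1) Z = P.tt (P.cp.pw k Z) ≫ P.cp.tk k Z := P.cp.tk_succ k Z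

theorem key₁ {Z : K} {Y : D} (a : Z ⟶ P.j.obj Y) :
    P.L ◁ (a ▷ P.S ≫ μ P.j Y P.R) ≫ P.rev Y = P.cc Z ≫ P.tt Z ≫ a := by
  have h1 : (a ▷ P.S ≫ μ P.j Y P.R) ≫ P.j.map (β_ Y P.R).hom =
      (β_ Z P.S).hom ≫ P.S ◁ a ≫ μ P.j P.R Y := by
    rw [Category.assoc, Functor.LaxBraided.braided, BraidedCategory.braiding_naturality_left_assoc]
  rw [rev, ← whiskerLeft_comp_assoc, h1, cc, tt]
  have h2 : P.L ◁ μ P.j P.R Y ≫ P.L ◁ δ P.j P.R Y = 𝟙 _ := by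
    rw [← whiskerLeft_comp, Functor.Monoidal.μ_δ, whiskerLeft_id]
  simp only [whiskerLeft_comp, Category.assoc, reassoc_of% h2]
  rw [associator_inv_naturality_right_assoc, whisker_exchange_assoc, leftUnitor_naturality]

theorem whisker_eq {Z : K} {Y : D} {a b : Z ⟶ P.j.obj Y}
    (h : P.tt Z ≫ a = P.tt Z ≫ b) : a ▷ P.S = b ▷ P.S := by
  have h1 : a ▷ P.S ≫ μ P.j Y P.R = b ▷ P.S ≫ μ P.j Y P.R := by
    apply (P.rev_bij _ _).1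
    change P.L ◁ _ ≫ _ = P.L ◁ _ ≫ _
    rw [key₁, key₁, h]
  exact (cancel_mono (μ P.j Y P.R)).1 h1

theorem exists_adj {Z : K} {Y : D} (f : (P.L ⊗ P.S) ⊗ Z ⟶ P.j.obj Y) :
    ∃ x : Z ⊗ P.S ⟶ P.j.obj (Y ⊗ P.R),
      f ▷ P.S ≫ μ P.j Y P.R = P.tt Z ▷ P.S ≫ x := by
  obtain ⟨x, hx⟩ := (P.rev_bij (Z ⊗ P.S) Y).2 (P.cc Z ≫ f)
  refine ⟨x, ?_⟩
  apply (P.rev_bij _ _).1
  change P.L ◁ _ ≫ _ = P.L ◁ _ ≫ _
  change P.L ◁ x ≫ _ = _ at hx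
  rw [key₁, whiskerLeft_comp, Category.assoc, hx]
  have h2 := P.cc_naturality (P.tt Z)
  rw [reassoc_of% h2, P.tt_comm]

/-- `U^k ⊗ (Z ⊗ S) ≅ (U^k ⊗ Z) ⊗ S` -/
def σ : (k : ℕ) → (Z : K) → (P.cp.pw k (Z ⊗ P.S) ≅ P.cp.pw k Z ⊗ P.S)
  | 0, _ => Iso.refl _
  | k + 1, Z => whiskerLeftIso (P.L ⊗ P.S) (σ k Z) ≪≫
      (α_ (P.L ⊗ P.S) (P.cp.pw k Z) P.S).symm

theorem σ_t (k : ℕ) (Z : K) :
    (P.σ (k + 1) Z).hom ≫ P.tt (P.cp.pw k Z) ▷ P.S =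
      P.tt (P.cp.pw k (Z ⊗ P.S)) ≫ (P.σ k Z).hom := by
  have e : (P.σ (k + 1) Z).hom = (P.L ⊗ P.S) ◁ (P.σ k Z).hom ≫
      (α_ (P.L ⊗ P.S) (P.cp.pw k Z) P.S).inv := rfl
  have h := P.cp.nat (P.σ k Z).hom
  change (P.L ⊗ P.S) ◁ (P.σ k Z).hom ≫ P.tt _ = P.tt _ ≫ _ at h
  rw [e, ← h, Category.assoc]
  simp [tt]

theorem σ_tk (k : ℕ) (Z : K) :
    (P.σ k Z).hom ≫ P.cp.tk k Z ▷ P.S = P.cp.tk k (Z ⊗ P.S) := by
  induction k with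
  | zero =>
    simp [σ]
  | succ k ih =>
    have h := P.σ_t k Z
    rw [tk_succ', tk_succ', ← ih, comp_whiskerRight, reassoc_of% h]

/-- Maps between spaces which agree stably. -/
theorem whisker_eq_of_tk (k : ℕ) : ∀ {Z : K} {Y : D} {a b : Z ⟶ P.j.obj Y},
    P.cp.tk k Z ≫ a = P.cp.tk k Z ≫ b →
      a ▷ P.j.obj (P.Rp k) = b ▷ P.j.obj (P.Rp k) := by
  induction k with
  | zero =>
    intro Z Y a b h
    rw [P.cp.tk_zero, Category.id_comp, Category.id_comp] at h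
    rw [h]
  | succ k ih =>
    intro Z Y a b h
    rw [tk_succ', Category.assoc, Category.assoc] at h
    have h1 := P.whisker_eq h
    rw [comp_whiskerRight, comp_whiskerRight] at h1
    have h2 : P.cp.tk k (Z ⊗ P.S) ≫ a ▷ P.S ≫ μ P.j Y P.R =
        P.cp.tk k (Z ⊗ P.S) ≫ b ▷ P.S ≫ μ P.j Y P.R := by
      rw [← σ_tk, Category.assoc, Category.assoc, reassoc_of% h1]
    have h3 := ih h2
    rw [comp_whiskerRight, comp_whiskerRight] at h3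
    have h4 : (a ▷ P.S) ▷ P.j.obj (P.Rp k) = (b ▷ P.S) ▷ P.j.obj (P.Rp k) :=
      (cancel_mono (μ P.j Y P.R ▷ P.j.obj (P.Rp k))).1 h3
    have h5 : ∀ f : Z ⟶ P.j.obj Y, f ▷ P.j.obj (P.Rp (k + 1)) =
        Z ◁ δ P.j P.R (P.Rp k) ≫ (α_ Z P.S (P.j.obj (P.Rp k))).inv ≫
          (f ▷ P.S) ▷ P.j.obj (P.Rp k) ≫ (α_ _ _ _).hom ≫ P.j.obj Y ◁ μ P.j P.R (P.Rp k) := by
      intro f
      have e : (α_ Z P.S (P.j.obj (P.Rp k))).inv ≫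
          (f ▷ P.S) ▷ P.j.obj (P.Rp k) ≫ (α_ _ _ _).hom = f ▷ (P.S ⊗ P.j.obj (P.Rp k)) := by simp
      rw [reassoc_of% e, ← whisker_exchange, ← whiskerLeft_comp_assoc, Functor.Monoidal.δ_μ,
        whiskerLeft_id, Category.id_comp]
    rw [h5, h5, h4]

/-- `A ⊗ j (R ⊗ W) ≅ (A ⊗ S) ⊗ j W` -/
def as (A : K) (W : D) : (A ⊗ P.S) ⊗ P.j.obj W ≅ A ⊗ P.j.obj (P.R ⊗ W) :=
  α_ A P.S (P.j.obj W) ≪≫ whiskerLeftIso A (Functor.Monoidal.μIso P.j P.R W)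

theorem as_nat {A B : K} (f : A ⟶ B) (W : D) :
    (P.as A W).hom ≫ f ▷ P.j.obj (P.R ⊗ W) = (f ▷ P.S) ▷ P.j.obj W ≫ (P.as B W).hom := by
  simp [as, whisker_exchange]

theorem as_μ (Y W : D) :
    (P.as (P.j.obj Y) W).hom ≫ μ P.j Y (P.R ⊗ W) =
      μ P.j Y P.R ▷ P.j.obj W ≫ μ P.j (Y ⊗ P.R) W ≫ P.j.map (α_ Y P.R W).hom := by
  rw [Functor.LaxMonoidal.associativity]
  simp [as]

/-- Maps `U^k ⊗ j X ⟶ j Y` are stably induced by maps of spaces. -/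
theorem exists_of_tk [P.j.Full] (k : ℕ) : ∀ {X Y : D} (f : P.cp.pw k (P.j.obj X) ⟶ P.j.obj Y),
    ∃ h : X ⊗ P.Rp k ⟶ Y ⊗ P.Rp k,
      f ▷ P.j.obj (P.Rp k) ≫ μ P.j Y (P.Rp k) =
        P.cp.tk k (P.j.obj X) ▷ P.j.obj (P.Rp k) ≫ μ P.j X (P.Rp k) ≫ P.j.map h := by
  induction k with
  | zero =>
    intro X Y f
    obtain ⟨f₀, rfl⟩ := P.j.map_surjective f
    refine ⟨f₀ ▷ _, ?_⟩
    rw [P.cp.tk_zero, id_whiskerRight, Category.id_comp, Functor.LaxMonoidal.μ_natural_left]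
  | succ k ih =>
    intro X Y f
    obtain ⟨x, hx⟩ := P.exists_adj (Z := P.cp.pw k (P.j.obj X)) f
    obtain ⟨h', hh'⟩ := ih (X := X ⊗ P.R) (Y := Y ⊗ P.R)
      (P.cp.pwMap k (δ P.j X P.R) ≫ (P.σ k (P.j.obj X)).hom ≫ x)
    refine ⟨(α_ X P.R (P.Rp k)).inv ≫ h' ≫ (α_ Y P.R (P.Rp k)).hom, ?_⟩
    have hx2 : x ▷ P.j.obj (P.Rp k) ≫ μ P.j (Y ⊗ P.R) (P.Rp k) =
        (P.cp.tk k (P.j.obj X) ▷ P.S ≫ μ P.j X P.R) ▷ P.j.obj (P.Rp k) ≫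
          μ P.j (X ⊗ P.R) (P.Rp k) ≫ P.j.map h' := by
      have e1 : P.cp.pwMap k (μ P.j X P.R) ≫ P.cp.pwMap k (δ P.j X P.R) = 𝟙 _ := by
        rw [← P.cp.pwMap_comp, Functor.Monoidal.μ_δ, P.cp.pwMap_id]
      have e2 : x = (P.σ k (P.j.obj X)).inv ≫ P.cp.pwMap k (μ P.j X P.R) ≫
          P.cp.pwMap k (δ P.j X P.R) ≫ (P.σ k (P.j.obj X)).hom ≫ x := by
        rw [reassoc_of% e1, Iso.inv_hom_id_assoc]
      have e3 : (P.σ k (P.j.obj X)).inv ≫ P.cp.pwMap k (μ P.j X P.R) ≫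
          P.cp.tk k (P.j.obj (X ⊗ P.R)) = P.cp.tk k (P.j.obj X) ▷ P.S ≫ μ P.j X P.R := by
        rw [P.cp.tk_nat, ← P.σ_tk, Category.assoc, Iso.inv_hom_id_assoc]
      rw [e2, ← e3]
      simp only [comp_whiskerRight, Category.assoc] at hh' ⊢
      rw [hh']
    rw [← cancel_epi (P.as (P.cp.pw (k + 1) (P.j.obj X)) (P.Rp k)).hom]
    have h1 := P.as_nat f (P.Rp k)
    have h2 := P.as_nat (P.cp.tk (k + 1) (P.j.obj X)) (P.Rp k)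
    have h3 := P.as_μ Y (P.Rp k)
    have h4 := P.as_μ X (P.Rp k)
    rw [reassoc_of% h1, h3, reassoc_of% h2, reassoc_of% h4, ← comp_whiskerRight_assoc, hx,
      comp_whiskerRight_assoc, reassoc_of% hx2, tk_succ']
    simp only [comp_whiskerRight, Category.assoc, Functor.map_comp]
    rw [← P.j.map_comp_assoc (α_ X P.R (P.Rp k)).hom, Iso.hom_inv_id,
      CategoryTheory.Functor.map_id, Category.id_comp]

end SpaceIn

end Vale.Agent.P251.H
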