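import Vale.Agent.P251.H.SpaceHom
import Vale.Agent.P251.H.Wst
import Vale.Agent.P251.G.Retract

/-!
# P251, part H: stable maps between spaces in a `StabInput` category

The instance `spIn M : SpaceIn LC (HM M)`, and the consequences for morphisms of `M`.
-/

open CategoryTheory MonoidalCategory Limits Functor.LaxMonoidal Functor.OplaxMonoidal

namespace Vale.Agent.P251.H

open Vale.Agent.P251.G Vale.Agent.P251.G.LC

universe v u

namespace StabInput

variable {M : Type u} [Category.{v} M] [MonoidalCategory M] [SymmetricCategory M]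
    [MonoidalClosed M] [HasZeroMorphisms M] [HasColimitsOfSize.{0, 0} M] [StabInput M]

/-- the inverse of the evaluation bijection on homotopies -/
theorem jev_mHtpy {X : M} {K : LC} {x y : X ⟶ (J M).obj (RR ⊗ K)}
    (h : MHtpy ((L : M) ◁ x ≫ jev (J M) L lam K) ((L : M) ◁ y ≫ jev (J M) L lam K)) :
    MHtpy x y := by
  obtain ⟨H, h0, h1⟩ := h
  obtain ⟨H', hH'⟩ := (ev_bij (X ⊗ I M) K).2 ((α_ (L : M) X (I M)).inv ≫ H)
  change (L : M) ◁ H' ≫ jev (J M) L lam K = _ at hH'
  have key : ∀ t : unitInterval, (L : M) ◁ (inc t X ≫ H') ≫ jev (J M) L lam K =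
      inc t ((L : M) ⊗ X) ≫ H := by
    intro t
    rw [MonoidalCategory.whiskerLeft_comp, Category.assoc, hH', ← inc_tensor, Category.assoc,
      Iso.hom_inv_id_assoc]
  refine ⟨H', (ev_bij X K).1 ?_, (ev_bij X K).1 ?_⟩
  · exact (key 0).trans h0
  · exact (key 1).trans h1

variable (M) in
/-- The spaces in the naive homotopy category. -/
@[reducible] def spIn : SpaceIn LC (HM M) where
  j := J M ⋙ HM.proj M
  R := RR
  L := (HM.proj M).obj (L : M)
  lam := (HM.proj M).map (lam : (L : M) ⊗ S M ⟶ 𝟙_ M)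
  rot := HM.sound rot
  ev_bij X K := by
    have hf : ∀ x : X.obj ⟶ (J M).obj (RR ⊗ K),
        (HM.proj M).obj (L : M) ◁ (HM.proj M).map x ≫
          (HM.proj M).obj (L : M) ◁ δ (J M ⋙ HM.proj M) RR K ≫
          (α_ ((HM.proj M).obj (L : M)) ((HM.proj M).obj ((J M).obj RR))
            ((HM.proj M).obj ((J M).obj K))).inv ≫
          (HM.proj M).map (lam : (L : M) ⊗ S M ⟶ 𝟙_ M) ▷ (HM.proj M).obj ((J M).obj K) ≫
          (λ_ ((HM.proj M).obj ((J M).obj K))).hom =
        (HM.proj M).map ((L : M) ◁ x ≫ jev (J M) L lam K) := by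
      intro x
      apply HM.sound
      refine MHtpy.of_eq ?_
      change (L : M) ◁ x ≫ (L : M) ◁ (δ (J M) RR K ≫ 𝟙 _) ≫ _ = _
      rw [Category.comp_id]
      rfl
    constructor
    · intro a b hab
      obtain ⟨a, rfl⟩ := HM.proj_map_surjective a
      obtain ⟨b, rfl⟩ := HM.proj_map_surjective b
      exact HM.sound (jev_mHtpy ((HM.proj_map_eq_iff _ _).mp
        ((hf a).symm.trans (hab.trans (hf b)))))
    · intro y
      obtain ⟨y, rfl⟩ := HM.proj_map_surjective y
      obtain ⟨x, hx⟩ := (ev_bij X.obj K).2 y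
      refine ⟨(HM.proj M).map x, ?_⟩
      exact (hf x).trans (congrArg (HM.proj M).map hx)

theorem spIn_cp : (spIn M).cp = (stab M).coPt := rfl

/-- the powers of the line are the spaces `ℝⁿ` -/
noncomputable def rpIso : (n : ℕ) → ((spIn M).Rp n ≅ Sph n)
  | 0 => LC.ofHomeo (X := LC.of Unit) (Y := Sph 0)
      { toFun := fun _ => default
        invFun := fun _ => ()
        left_inv := fun _ => rfl
        right_inv := fun _ => Subsingleton.elim _ _
        continuous_toFun := continuous_const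
        continuous_invFun := continuous_const }
  | n + 1 => whiskerLeftIso RR (rpIso n) ≪≫
      LC.ofHomeo (X := LC.of (ℝ × (Fin n → ℝ))) (Y := Sph (n + 1))
      { toFun := fun p => (Fin.cons p.1 p.2 : Fin (n + 1) → ℝ)
        invFun := fun x => (x 0, Fin.tail x)
        left_inv := fun p => rfl
        right_inv := fun x => Fin.cons_self_tail x
        continuous_toFun := by
          refine continuous_pi fun i => ?_
          refine Fin.cases ?_ (fun j => ?_) i
          · exact continuous_fst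
          · exact (continuous_apply j).comp continuous_snd
        continuous_invFun := (continuous_apply 0).prodMk
          (continuous_pi fun j => continuous_apply j.succ) }

theorem inc_μ_J (t : unitInterval) (X : LC) :
    inc t ((J M).obj X) ≫ μ (J M) X II = (J M).map (incl t X) := by
  rw [inc_def, Category.assoc, MonoidalCategory.whiskerLeft_comp, Category.assoc,
    Functor.LaxMonoidal.μ_natural_right, incl, Functor.map_comp,
    Functor.LaxMonoidal.right_unitality_inv_assoc]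

/-- the functor `J` reflects homotopies -/
theorem homotopic_of_mHtpy {X Y : LC} {f g : X ⟶ Y} (h : MHtpy ((J M).map f) ((J M).map g)) :
    LC.Homotopic f g := by
  obtain ⟨H, h0, h1⟩ := h
  obtain ⟨K, hK⟩ := (J M).map_surjective (δ (J M) X II ≫ H)
  have key : ∀ t : unitInterval, (J M).map (incl t X ≫ K) = inc t ((J M).obj X) ≫ H := by
    intro t
    rw [Functor.map_comp, hK, ← inc_μ_J, Category.assoc, Functor.Monoidal.μ_δ_assoc]
  exact ⟨K, (J M).map_injective ((key 0).trans h0), (J M).map_injective ((key 1).trans h1)⟩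

/-- Maps `U^k ⊗ J X ⟶ J Y` are stably induced by maps of spaces. -/
theorem exists_space_map (k : ℕ) {X Y : LC}
    (f : ((stab M).coPt.pw k ((HM.proj M).obj ((J M).obj X))).obj ⟶ (J M).obj Y)
    (t : ((stab M).coPt.pw k ((HM.proj M).obj ((J M).obj X))).obj ⟶ (J M).obj X)
    (ht : (HM.proj M).map t = (stab M).coPt.tk k ((HM.proj M).obj ((J M).obj X))) :
    ∃ h : X ⊗ Sph k ⟶ Y ⊗ Sph k,
      MHtpy (f ▷ (J M).obj (Sph k) ≫ μ (J M) Y (Sph k))
        (t ▷ (J M).obj (Sph k) ≫ μ (J M) X (Sph k) ≫ (J M).map h) := by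
  obtain ⟨h₀, hh⟩ := (spIn M).exists_of_tk k (X := X) (Y := Y) ((HM.proj M).map f)
  have e0 : (HM.proj M).map (f ▷ (J M).obj ((spIn M).Rp k) ≫ μ (J M) Y ((spIn M).Rp k)) =
      (HM.proj M).map (t ▷ (J M).obj ((spIn M).Rp k) ≫ μ (J M) X ((spIn M).Rp k) ≫
        (J M).map h₀) := by
    have e1 : ∀ Z : LC, μ (J M ⋙ HM.proj M) Z ((spIn M).Rp k) =
        (HM.proj M).map (μ (J M) Z ((spIn M).Rp k)) := by
      intro Z
      exact Category.id_comp ((HM.proj M).map (μ (J M) Z ((spIn M).Rp k)))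
    change (HM.proj M).map f ▷ _ ≫ μ (J M ⋙ HM.proj M) Y ((spIn M).Rp k) =
      (stab M).coPt.tk k _ ▷ _ ≫ μ (J M ⋙ HM.proj M) X ((spIn M).Rp k) ≫
        (J M ⋙ HM.proj M).map h₀ at hh
    rw [e1, e1] at hh
    have hh' : (HM.proj M).map (f ▷ (J M).obj ((spIn M).Rp k) ≫ μ (J M) Y ((spIn M).Rp k)) =
        (stab M).coPt.tk k ((HM.proj M).obj ((J M).obj X)) ▷
          (HM.proj M).obj ((J M).obj ((spIn M).Rp k)) ≫
        (HM.proj M).map (μ (J M) X ((spIn M).Rp k) ≫ (J M).map h₀) := hh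
    rw [← ht] at hh'
    exact hh'
  have e1 := (HM.proj_map_eq_iff _ _).mp e0
  refine ⟨X ◁ (rpIso k).inv ≫ h₀ ≫ Y ◁ (rpIso k).hom, ?_⟩
  have e2 : f ▷ (J M).obj (Sph k) ≫ μ (J M) Y (Sph k) =
      _ ◁ (J M).map (rpIso k).inv ≫
        (f ▷ (J M).obj ((spIn M).Rp k) ≫ μ (J M) Y ((spIn M).Rp k)) ≫
          (J M).map (Y ◁ (rpIso k).hom) := by
    rw [Category.assoc, ← μ_natural_right, whisker_exchange_assoc,
      ← MonoidalCategory.whiskerLeft_comp_assoc, ← Functor.map_comp, Iso.inv_hom_id,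
      CategoryTheory.Functor.map_id, MonoidalCategory.whiskerLeft_id, Category.id_comp]
  have e3 : t ▷ (J M).obj (Sph k) ≫ μ (J M) X (Sph k) ≫
        (J M).map (X ◁ (rpIso k).inv ≫ h₀ ≫ Y ◁ (rpIso k).hom) =
      _ ◁ (J M).map (rpIso k).inv ≫
        (t ▷ (J M).obj ((spIn M).Rp k) ≫ μ (J M) X ((spIn M).Rp k) ≫ (J M).map h₀) ≫
          (J M).map (Y ◁ (rpIso k).hom) := by
    rw [Functor.map_comp, Functor.map_comp, ← μ_natural_right_assoc,
      ← whisker_exchange_assoc]
    simp only [Category.assoc]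
  rw [e2, e3]
  exact MHtpy.comp_left _ (e1.comp_right _)

/-- Maps of spaces which agree stably become homotopic after tensoring with a sphere. -/
theorem homotopic_of_tk (k : ℕ) {X Y : LC} (a b : X ⟶ Y)
    (t : ((stab M).coPt.pw k ((HM.proj M).obj ((J M).obj X))).obj ⟶ (J M).obj X)
    (ht : (HM.proj M).map t = (stab M).coPt.tk k ((HM.proj M).obj ((J M).obj X)))
    (h : MHtpy (t ≫ (J M).map a) (t ≫ (J M).map b)) :
    LC.Homotopic (a ▷ Sph k) (b ▷ Sph k) := by
  have h1 := (spIn M).whisker_eq_of_tk k (Z := (HM.proj M).obj ((J M).obj X)) (Y := Y)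
    (a := (HM.proj M).map ((J M).map a)) (b := (HM.proj M).map ((J M).map b)) (by
      change (stab M).coPt.tk k _ ≫ _ = (stab M).coPt.tk k _ ≫ _
      rw [← ht]
      exact HM.sound h)
  have h2 : MHtpy ((J M).map a ▷ (J M).obj ((spIn M).Rp k))
      ((J M).map b ▷ (J M).obj ((spIn M).Rp k)) := (HM.proj_map_eq_iff _ _).mp h1
  have h3 : MHtpy ((J M).map (a ▷ (spIn M).Rp k)) ((J M).map (b ▷ (spIn M).Rp k)) := by
    have e : ∀ c : X ⟶ Y, (J M).map (c ▷ (spIn M).Rp k) =
        δ (J M) X ((spIn M).Rp k) ≫ ((J M).map c ▷ (J M).obj ((spIn M).Rp k)) ≫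
          μ (J M) Y ((spIn M).Rp k) := by
      intro c
      rw [μ_natural_left, Functor.Monoidal.δ_μ_assoc]
    rw [e, e]
    exact MHtpy.comp_left _ (h2.comp_right _)
  have h4 := homotopic_of_mHtpy h3
  have e : ∀ c : X ⟶ Y, c ▷ Sph k =
      X ◁ (rpIso (M := M) k).inv ≫ (c ▷ (spIn M).Rp k) ≫ Y ◁ (rpIso k).hom := by
    intro c
    rw [← whisker_exchange, ← MonoidalCategory.whiskerLeft_comp_assoc, Iso.inv_hom_id,
      MonoidalCategory.whiskerLeft_id, Category.id_comp]
  rw [e, e]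
  exact Homotopic.comp_left _ (h4.comp_right _)

end StabInput

end Vale.Agent.P251.H
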