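import Vale.Agent.P251.H.TriTr
import Mathlib.CategoryTheory.Preadditive.OfBiproducts
import Mathlib.CategoryTheory.Preadditive.Biproducts

/-!
# P251.H: the localization of a stable cofibration category is additive
-/

open CategoryTheory Limits Pretriangulated

universe v u v' u'

namespace Vale.Agent.P251.H

open ZeroObject

namespace CylStr

variable {C : Type u} [Category.{v} C] [HasZeroObject C] [HasZeroMorphisms C]
  [HasBinaryCoproducts C] (S : CylStr C)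
  {D : Type u'} [Category.{v'} D] (L : C ⥤ D) [L.IsLocalization S.W]

section zero

include S L

/-- `L 0` is a zero object. -/
lemma isZero_L : IsZero (L.obj (0 : C)) := by
  have := Localization.essSurj L S.W
  constructor
  · intro Y
    have i := L.objObjPreimageIso Y
    refine ⟨⟨⟨L.map 0 ≫ i.hom⟩, fun φ => ?_⟩⟩
    obtain ⟨Z, f, s, hs, h⟩ := S.exists_frac L (φ ≫ i.inv)
    have : IsIso (L.map s) := S.isIso_map L _ hs
    rw [(isZero_zero C).eq_of_src f (0 ≫ s), Functor.map_comp, cancel_mono] at h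
    rw [← h]
    simp
  · intro Y
    have i := L.objObjPreimageIso Y
    refine ⟨⟨⟨i.inv ≫ L.map 0⟩, fun φ => ?_⟩⟩
    obtain ⟨Z, f, s, hs, h⟩ := S.exists_frac L (i.hom ≫ φ)
    have : IsIso (L.map s) := S.isIso_map L _ hs
    have e1 : L.map s ≫ L.map (0 : Z ⟶ (0 : C)) = 𝟙 _ := by
      rw [← L.map_comp, (isZero_zero C).eq_of_tgt (s ≫ 0) (𝟙 _), L.map_id]
    have e2 := congrArg (· ≫ L.map (0 : Z ⟶ (0 : C))) h
    simp only [Category.assoc, e1, Category.comp_id, ← L.map_comp, comp_zero] at e2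
    change φ = i.inv ≫ L.map 0
    rw [← e2]
    simp

lemma hasZeroObject_D : HasZeroObject D := ⟨⟨_, S.isZero_L L⟩⟩

lemma isZero_of_W {X : C} (h : S.W (0 : X ⟶ (0 : C))) : IsZero (L.obj X) := by
  have := S.isIso_map L _ h
  exact (S.isZero_L L).of_iso (asIso (L.map (0 : X ⟶ (0 : C))))

lemma isZero_cone (X : C) : IsZero (L.obj (S.cone X)) := S.isZero_of_W L (S.W_cone X)

variable [HasZeroMorphisms D]

lemma L_map_zero (X Y : C) : L.map (0 : X ⟶ Y) = 0 := by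
  rw [← zero_comp (X := X) (f := (0 : (0 : C) ⟶ Y)), L.map_comp]
  exact (S.isZero_L L).eq_zero_of_tgt (L.map (0 : X ⟶ (0 : C))) ▸ zero_comp

end zero

section coproducts

lemma W_coprodMap {X Y X' Y' : C} (f : X ⟶ X') (g : Y ⟶ Y') (hf : S.W f) (hg : S.W g) :
    S.W (coprod.map f g) :=
  S.gluing (IsPushout.of_hasBinaryCoproduct (X := X) (Y := Y))
    (IsPushout.of_hasBinaryCoproduct (X := X') (Y := Y')) (S.cof_zero _) (S.cof_zero _)
    (𝟙 _) f g _ (by simp) (by simp) (by simp) (by simp) (S.W_id _) hf hg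

include S

lemma map_eq_of_coprod {X Y Z : C} (h h' : X ⨿ Y ⟶ Z)
    (h1 : L.map (coprod.inl ≫ h) = L.map (coprod.inl ≫ h'))
    (h2 : L.map (coprod.inr ≫ h) = L.map (coprod.inr ≫ h')) : L.map h = L.map h' := by
  obtain ⟨Z1, t1, ht1, c1, H1, e10, e11⟩ := S.exists_htpy L _ _ h1
  obtain ⟨Z2, t2, ht2, c2, H2, e20, e21⟩ := S.exists_htpy L (coprod.inr ≫ h ≫ t1)
    (coprod.inr ≫ h' ≫ t1) (by
      rw [← Category.assoc, ← Category.assoc, L.map_comp, L.map_comp _ t1, h2])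
  have i1 := S.isIso_map L _ ht1
  have i2 := S.isIso_map L _ ht2
  rw [← cancel_mono (L.map t1), ← cancel_mono (L.map t2), ← L.map_comp, ← L.map_comp,
    ← L.map_comp, ← L.map_comp]
  have k0 : (h ≫ t1) ≫ t2 = coprod.map c1.j₀ c2.j₀ ≫ coprod.desc (H1 ≫ t2) H2 := by
    ext
    · simp [reassoc_of% e10, coprod.inl_desc]
    · simp [e20, coprod.inr_desc]
  have k1 : (h' ≫ t1) ≫ t2 = coprod.map c1.j₁ c2.j₁ ≫ coprod.desc (H1 ≫ t2) H2 := by
    ext
    · simp [reassoc_of% e11, coprod.inl_desc]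
    · simp [e21, coprod.inr_desc]
  rw [k0, k1, L.map_comp, L.map_comp]
  congr 1
  have i3 := S.isIso_map L _ (S.W_coprodMap c1.pr c2.pr c1.W_pr c2.W_pr)
  rw [← cancel_mono (L.map (coprod.map c1.pr c2.pr)), ← L.map_comp, ← L.map_comp]
  simp

lemma coprod_hom_ext {X Y : C} {Z : D} {φ φ' : L.obj (X ⨿ Y) ⟶ Z}
    (h1 : L.map coprod.inl ≫ φ = L.map coprod.inl ≫ φ')
    (h2 : L.map coprod.inr ≫ φ = L.map coprod.inr ≫ φ') : φ = φ' := by
  have := Localization.essSurj L S.W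
  let i := L.objObjPreimageIso Z
  rw [← cancel_mono i.inv]
  obtain ⟨Z1, f, s, hs, hsc, hf⟩ := S.exists_frac_cof L (φ ≫ i.inv)
  obtain ⟨Z2, g, t, ht, htc, hg⟩ := S.exists_frac_cof L (φ' ≫ i.inv)
  have : HasPushout s t := S.hasPushout _ _ hsc
  have sq : IsPushout s t (pushout.inl s t) (pushout.inr s t) := IsPushout.of_hasPushout _ _
  have hu : S.W (pushout.inl s t) := S.W_of_isPushout sq.flip htc ht
  have i1 := S.isIso_map L _ (S.W_comp _ _ hs hu)
  rw [← cancel_mono (L.map (s ≫ pushout.inl s t))]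
  conv_rhs => rw [sq.w]
  rw [L.map_comp, L.map_comp]
  simp only [Category.assoc]
  rw [reassoc_of% hf, reassoc_of% hg, ← L.map_comp, ← L.map_comp]
  apply S.map_eq_of_coprod L
  · rw [L.map_comp, L.map_comp _ (g ≫ _), L.map_comp, L.map_comp, ← hf, ← hg]
    simp only [Category.assoc]
    rw [reassoc_of% h1, ← L.map_comp, ← L.map_comp, sq.w]
  · rw [L.map_comp, L.map_comp _ (g ≫ _), L.map_comp, L.map_comp, ← hf, ← hg]
    simp only [Category.assoc]
    rw [reassoc_of% h2, ← L.map_comp, ← L.map_comp, sq.w]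

lemma coprod_exists {X Y : C} {Z : D} (φ : L.obj X ⟶ Z) (ψ : L.obj Y ⟶ Z) :
    ∃ χ : L.obj (X ⨿ Y) ⟶ Z, L.map coprod.inl ≫ χ = φ ∧ L.map coprod.inr ≫ χ = ψ := by
  have := Localization.essSurj L S.W
  let i := L.objObjPreimageIso Z
  obtain ⟨Z1, f, s, hs, hsc, hf⟩ := S.exists_frac_cof L (φ ≫ i.inv)
  obtain ⟨Z2, g, t, ht, htc, hg⟩ := S.exists_frac_cof L (ψ ≫ i.inv)
  have : HasPushout s t := S.hasPushout _ _ hsc
  have sq : IsPushout s t (pushout.inl s t) (pushout.inr s t) := IsPushout.of_hasPushout _ _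
  have hu : S.W (pushout.inl s t) := S.W_of_isPushout sq.flip htc ht
  have i1 := S.isIso_map L _ (S.W_comp _ _ hs hu)
  refine ⟨L.map (coprod.desc (f ≫ pushout.inl s t) (g ≫ pushout.inr s t)) ≫
    inv (L.map (s ≫ pushout.inl s t)) ≫ i.hom, ?_, ?_⟩
  · rw [← cancel_mono i.inv, ← cancel_mono (L.map (s ≫ pushout.inl s t))]
    simp only [Category.assoc, Iso.hom_inv_id, Category.comp_id, IsIso.inv_hom_id]
    rw [← L.map_comp, coprod.inl_desc, L.map_comp, L.map_comp, reassoc_of% hf]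
  · rw [← cancel_mono i.inv, ← cancel_mono (L.map (s ≫ pushout.inl s t))]
    simp only [Category.assoc, Iso.hom_inv_id, Category.comp_id, IsIso.inv_hom_id]
    rw [← L.map_comp, coprod.inr_desc, L.map_comp, sq.w, L.map_comp, reassoc_of% hg]

/-- maps out of `L (X ⨿ Y)` -/
noncomputable def cdesc {X Y : C} {Z : D} (φ : L.obj X ⟶ Z) (ψ : L.obj Y ⟶ Z) :
    L.obj (X ⨿ Y) ⟶ Z := (S.coprod_exists L φ ψ).choose

@[reassoc (attr := simp)]
lemma inl_cdesc {X Y : C} {Z : D} (φ : L.obj X ⟶ Z) (ψ : L.obj Y ⟶ Z) :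
    L.map coprod.inl ≫ S.cdesc L φ ψ = φ := (S.coprod_exists L φ ψ).choose_spec.1

@[reassoc (attr := simp)]
lemma inr_cdesc {X Y : C} {Z : D} (φ : L.obj X ⟶ Z) (ψ : L.obj Y ⟶ Z) :
    L.map coprod.inr ≫ S.cdesc L φ ψ = ψ := (S.coprod_exists L φ ψ).choose_spec.2

@[reassoc]
lemma cdesc_comp {X Y : C} {Z Z' : D} (φ : L.obj X ⟶ Z) (ψ : L.obj Y ⟶ Z) (z : Z ⟶ Z') :
    S.cdesc L φ ψ ≫ z = S.cdesc L (φ ≫ z) (ψ ≫ z) :=
  S.coprod_hom_ext L (by simp) (by simp)

lemma map_desc {X Y Z : C} (f : X ⟶ Z) (g : Y ⟶ Z) :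
    L.map (coprod.desc f g) = S.cdesc L (L.map f) (L.map g) :=
  S.coprod_hom_ext L (by rw [inl_cdesc, ← L.map_comp, coprod.inl_desc])
    (by rw [inr_cdesc, ← L.map_comp, coprod.inr_desc])

end coproducts

end CylStr

end Vale.Agent.P251.H
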