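import Vale.Agent.P251.H.TriAdd

/-!
# P251.H: exactness, division maps and biproducts in the localization of a stable
cofibration category
-/

set_option linter.unusedSectionVars false

open CategoryTheory Limits Pretriangulated

universe v u v' u'

namespace Vale.Agent.P251.H

open ZeroObject

namespace CylStr

variable {C : Type u} [Category.{v} C] [HasZeroObject C] [HasZeroMorphisms C]
  [HasBinaryCoproducts C] (S : CylStr C)
  {D : Type u'} [Category.{v'} D] (L : C ⥤ D) [L.IsLocalization S.W]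
  [HasShift D ℤ] (e : S.Susp ⋙ L ≅ L ⋙ shiftFunctor D (1 : ℤ))

lemma isQuot_id (Z : C) : IsQuot (0 : (0 : C) ⟶ Z) (𝟙 Z) :=
  IsQuot.mk' (by simp) (fun k k' h => by simpa using h) (fun h _ => ⟨h, by simp⟩)

lemma W_δι (X : C) : S.W (S.δ (S.ι X)) :=
  S.gluing (S.mcone_isPushout (S.ι X)) (S.isQuot_κ X) (S.cof_ι X) (S.cof_ι X) (𝟙 X)
    (𝟙 (S.cone X)) (0 : S.cone X ⟶ (0 : C)) _ (by simp) (by simp) (by simp) (by simp) (S.W_id _)
    (S.W_id _) (S.W_cone X)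

/-- the connecting map of `X ⟶ cone X ⟶ Susp X` -/
noncomputable def ν (X : C) : L.obj (S.Susp.obj X) ⟶ (L.obj X)⟦(1 : ℤ)⟧ :=
  S.dq L e (S.ι X) (S.κ X) (S.cof_ι X) (S.isQuot_κ X)

instance isIso_ν (X : C) : IsIso (S.ν L e X) := by
  have i1 := S.isIso_map L _ (S.W_ρ (S.cof_ι X) (S.isQuot_κ X))
  have i2 := S.isIso_map L _ (S.W_δι X)
  unfold ν dq
  infer_instance

/-- The connecting map of `B ⟶ mcone j ⟶ Susp A`. -/
lemma dq_inY {A B : C} (j : A ⟶ B) :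
    S.dq L e (S.inY j) (S.δ j) (S.cof_inY j) (S.isQuot_δ j) = S.ν L e A ≫ (L.map j)⟦(1 : ℤ)⟧' := by
  have := S.dq_nat L e (S.cof_ι A) (S.isQuot_κ A) (S.cof_inY j) (S.isQuot_δ j) j (S.inC j) (𝟙 _)
    (S.ι_inC j) (by simp)
  rw [ν, this]
  simp

/-- Completion of morphisms, for cofibrations with quotients. -/
lemma complete_triQ {A B Q A' B' Q' : C} {j : A ⟶ B} {q : B ⟶ Q} {j' : A' ⟶ B'} {q' : B' ⟶ Q'}
    (hj : S.cof j) (hq : IsQuot j q) (hj' : S.cof j') (hq' : IsQuot j' q')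
    (a : L.obj A ⟶ L.obj A') (b : L.obj B ⟶ L.obj B') (h : L.map j ≫ b = a ≫ L.map j') :
    ∃ c : L.obj Q ⟶ L.obj Q', L.map q ≫ c = b ≫ L.map q' ∧
      S.dq L e j q hj hq ≫ a⟦(1 : ℤ)⟧' = c ≫ S.dq L e j' q' hj' hq' :=
  S.complete_dist L e _ _ (S.triQ_mem L e j q hj hq) (S.triQ_mem L e j' q' hj' hq') a b h

section

variable [HasZeroMorphisms D]

include e in
/-- Exactness of `Hom (-, Z)` on a cofibre sequence. -/
lemma exact_right {A B Q : C} {j : A ⟶ B} {q : B ⟶ Q} (hj : S.cof j) (hq : IsQuot j q) {Z : D}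
    (φ : L.obj B ⟶ Z) (h : L.map j ≫ φ = 0) : ∃ ψ : L.obj Q ⟶ Z, φ = L.map q ≫ ψ := by
  have := Localization.essSurj L S.W
  let i := L.objObjPreimageIso Z
  obtain ⟨c, hc, -⟩ := S.complete_triQ L e hj hq (S.cof_zero _) (isQuot_id (L.objPreimage Z))
    (0 : L.obj A ⟶ L.obj (0 : C)) (φ ≫ i.inv) (by
      rw [reassoc_of% h, zero_comp, zero_comp])
  refine ⟨c ≫ i.hom, ?_⟩
  rw [reassoc_of% hc]
  simp

include e in
/-- Exactness of `Hom (Z, -)` on a cofibre sequence. -/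
lemma exact_left {A B Q : C} {j : A ⟶ B} {q : B ⟶ Q} (hj : S.cof j) (hq : IsQuot j q) {Z : D}
    (φ : Z ⟶ L.obj B) (h : φ ≫ L.map q = 0) : ∃ ψ : Z ⟶ L.obj A, φ = ψ ≫ L.map j := by
  have := Localization.essSurj L S.W
  let V := L.objPreimage Z
  let i : L.obj V ≅ Z := L.objObjPreimageIso Z
  have iρ := S.isIso_map L _ (S.W_ρ hj hq)
  have h1 : i.hom ≫ φ ≫ L.map (S.inY j) = 0 := by
    rw [← cancel_mono (L.map (S.ρ j q hq.zero)), Category.assoc, Category.assoc, ← L.map_comp,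
      inY_ρ, h, comp_zero, zero_comp]
  obtain ⟨c, -, hc⟩ := S.complete_triQ L e (S.cof_ι V) (S.isQuot_κ V) (S.cof_inY j)
    (S.isQuot_δ j) (i.hom ≫ φ) (0 : L.obj (S.cone V) ⟶ L.obj (S.mcone j)) (by
      rw [comp_zero, Category.assoc, h1])
  change S.ν L e V ≫ _ = _ at hc
  rw [dq_inY] at hc
  obtain ⟨ψ, hψ⟩ := (shiftFunctor D (1 : ℤ)).map_surjective
    (inv (S.ν L e V) ≫ c ≫ S.ν L e A)
  refine ⟨i.inv ≫ ψ, ?_⟩
  rw [← cancel_epi i.hom]
  simp only [Category.assoc, Iso.hom_inv_id_assoc]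
  apply (shiftFunctor D (1 : ℤ)).map_injective
  rw [← cancel_epi (S.ν L e V), hc, Functor.map_comp, hψ]
  simp

end

section division

/-- the map collapsing `X` in the double cone of `X` -/
noncomputable def pinch (X : C) : S.mcone (S.ι X) ⟶ S.Susp.obj X ⨿ S.Susp.obj X :=
  S.mconeDesc (S.ι X) (S.κ X ≫ coprod.inr) (S.κ X ≫ coprod.inl) (by simp)

@[reassoc (attr := simp)]
lemma inC_pinch (X : C) : S.inC (S.ι X) ≫ S.pinch X = S.κ X ≫ coprod.inr :=
  S.inC_mconeDesc _ _ _ _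

@[reassoc (attr := simp)]
lemma inY_pinch (X : C) : S.inY (S.ι X) ≫ S.pinch X = S.κ X ≫ coprod.inl :=
  S.inY_mconeDesc _ _ _ _

/-- the inclusion of `X` in the double cone of `X` -/
noncomputable def jU (X : C) : X ⟶ S.mcone (S.ι X) := S.ι X ≫ S.inY (S.ι X)

lemma cof_jU (X : C) : S.cof (S.jU X) := S.cof_comp _ _ (S.cof_ι X) (S.cof_inY _)

lemma isQuot_pinch (X : C) : IsQuot (S.jU X) (S.pinch X) := by
  refine IsQuot.mk' (by simp [jU]) (fun k k' h => ?_) (fun h hh => ?_)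
  · ext
    · apply (S.isQuot_κ X).ext
      simpa using congrArg (S.inY (S.ι X) ≫ ·) h
    · apply (S.isQuot_κ X).ext
      simpa using congrArg (S.inC (S.ι X) ≫ ·) h
  · have h1 : S.ι X ≫ S.inY (S.ι X) ≫ h = 0 := by simpa [jU] using hh
    have h2 : S.ι X ≫ S.inC (S.ι X) ≫ h = 0 := by rw [ι_inC_assoc, h1]
    refine ⟨coprod.desc ((S.isQuot_κ X).desc (S.inY (S.ι X) ≫ h) 0 (by simpa using h1))
      ((S.isQuot_κ X).desc (S.inC (S.ι X) ≫ h) 0 (by simpa using h2)), mcone_hom_ext ?_ ?_⟩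
    · rw [inC_pinch_assoc, coprod.inr_desc, (S.isQuot_κ X).inl_desc]
    · rw [inY_pinch_assoc, coprod.inl_desc, (S.isQuot_κ X).inl_desc]

lemma pinch_desc_left (X : C) :
    S.pinch X ≫ coprod.desc (𝟙 _) 0 = S.ρ (S.ι X) (S.κ X) (S.ι_κ X) :=
  mcone_hom_ext (by simp [coprod.inr_desc]) (by simp [coprod.inl_desc])

lemma pinch_desc_right (X : C) : S.pinch X ≫ coprod.desc 0 (𝟙 _) = S.δ (S.ι X) :=
  mcone_hom_ext (by simp [coprod.inr_desc]) (by simp [coprod.inl_desc])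

lemma pinch_fold (X : C) :
    S.pinch X ≫ coprod.desc (𝟙 _) (𝟙 _) = S.mconeDesc (S.ι X) (𝟙 _) (𝟙 _) rfl ≫ S.κ X :=
  mcone_hom_ext (by simp [coprod.inr_desc]) (by simp [coprod.inl_desc])

omit [HasShift D ℤ] in
lemma isIso_c2 (X : C) : IsIso (L.map (S.ρ (S.ι X) (S.κ X) (S.ι_κ X))) :=
  S.isIso_map L _ (S.W_ρ (S.cof_ι X) (S.isQuot_κ X))

/-- the division co-operation `L (Susp X) ⟶ L (Susp X ⨿ Susp X)` -/
noncomputable def kap (X : C) :
    L.obj (S.Susp.obj X) ⟶ L.obj (S.Susp.obj X ⨿ S.Susp.obj X) :=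
  haveI := S.isIso_c2 L X
  inv (L.map (S.ρ (S.ι X) (S.κ X) (S.ι_κ X))) ≫ L.map (S.pinch X)

/-- the automorphism of `L (Susp X)` which is `-1` -/
noncomputable def ν' (X : C) : L.obj (S.Susp.obj X) ⟶ L.obj (S.Susp.obj X) :=
  haveI := S.isIso_c2 L X
  inv (L.map (S.ρ (S.ι X) (S.κ X) (S.ι_κ X))) ≫ L.map (S.δ (S.ι X))

instance isIso_ν' (X : C) : IsIso (S.ν' L X) := by
  have i1 := S.isIso_c2 L X
  have i2 := S.isIso_map L _ (S.W_δι X)
  unfold ν'
  infer_instance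

lemma ν_eq (X : C) : S.ν L e X = S.ν' L X ≫ (S.eh L e X).hom := by
  simp [ν, dq, ν']

/-- division of morphisms out of a suspension -/
noncomputable def dv {X : C} {Z : D} (a b : L.obj (S.Susp.obj X) ⟶ Z) :
    L.obj (S.Susp.obj X) ⟶ Z := S.kap L X ≫ S.cdesc L a b

@[reassoc]
lemma dv_comp {X : C} {Z Z' : D} (a b : L.obj (S.Susp.obj X) ⟶ Z) (z : Z ⟶ Z') :
    S.dv L a b ≫ z = S.dv L (a ≫ z) (b ≫ z) := by
  rw [dv, dv, Category.assoc, cdesc_comp]

lemma kap_left (X : C) : S.kap L X ≫ L.map (coprod.desc (𝟙 _) 0) = 𝟙 _ := by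
  have i1 := S.isIso_c2 L X
  rw [kap, Category.assoc, ← L.map_comp, pinch_desc_left, IsIso.inv_hom_id]

lemma kap_right (X : C) : S.kap L X ≫ L.map (coprod.desc 0 (𝟙 _)) = S.ν' L X := by
  have i1 := S.isIso_c2 L X
  rw [kap, Category.assoc, ← L.map_comp, pinch_desc_right, ν']

variable [HasZeroMorphisms D]

lemma kap_fold (X : C) : S.kap L X ≫ L.map (coprod.desc (𝟙 _) (𝟙 _)) = 0 := by
  have i1 := S.isIso_c2 L X
  rw [kap, Category.assoc, ← L.map_comp, pinch_fold, L.map_comp,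
    (S.isZero_cone L X).eq_zero_of_tgt (L.map (S.mconeDesc (S.ι X) (𝟙 _) (𝟙 _) rfl)), zero_comp,
    comp_zero]

lemma dv_zero {X : C} {Z : D} (a : L.obj (S.Susp.obj X) ⟶ Z) : S.dv L a 0 = a := by
  have : S.cdesc L a 0 =
      L.map (coprod.desc (𝟙 _) (0 : S.Susp.obj X ⟶ S.Susp.obj X)) ≫ a := by
    rw [S.map_desc L, cdesc_comp, L.map_id, Category.id_comp, S.L_map_zero L, zero_comp]
  rw [dv, this, ← Category.assoc, kap_left, Category.id_comp]

lemma zero_dv {X : C} {Z : D} (a : L.obj (S.Susp.obj X) ⟶ Z) : S.dv L 0 a = S.ν' L X ≫ a := by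
  have : S.cdesc L 0 a =
      L.map (coprod.desc (0 : S.Susp.obj X ⟶ S.Susp.obj X) (𝟙 _)) ≫ a := by
    rw [S.map_desc L, cdesc_comp, L.map_id, Category.id_comp, S.L_map_zero L, zero_comp]
  rw [dv, this, ← Category.assoc, kap_right]

lemma dv_self {X : C} {Z : D} (a : L.obj (S.Susp.obj X) ⟶ Z) : S.dv L a a = 0 := by
  have : S.cdesc L a a = L.map (coprod.desc (𝟙 _) (𝟙 _)) ≫ a := by
    rw [S.map_desc L, cdesc_comp, L.map_id, Category.id_comp]
  rw [dv, this, ← Category.assoc, kap_fold, zero_comp]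

include e in
lemma eq_of_dv_eq_zero {X : C} {Z : D} (a b : L.obj (S.Susp.obj X) ⟶ Z) (h : S.dv L a b = 0) :
    a = b := by
  have i1 := S.isIso_c2 L X
  have i2 := S.isIso_map L _ (S.W_ρ (S.cof_jU X) (S.isQuot_pinch X))
  have h1 : L.map (S.pinch X) ≫ S.cdesc L a b = 0 := by
    rw [dv, kap, Category.assoc] at h
    simpa using congrArg (L.map (S.ρ (S.ι X) (S.κ X) (S.ι_κ X)) ≫ ·) h
  obtain ⟨ψ, hψ⟩ := S.exact_right L e (S.cof_inY (S.jU X)) (S.isQuot_δ (S.jU X))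
    (L.map (S.ρ (S.jU X) (S.pinch X) (S.isQuot_pinch X).zero) ≫ S.cdesc L a b) (by
      rw [← L.map_comp_assoc, inY_ρ, h1])
  have h2 : S.cdesc L a b = S.dq L e (S.jU X) (S.pinch X) (S.cof_jU X) (S.isQuot_pinch X) ≫
      (S.eh L e X).inv ≫ ψ := by
    rw [← cancel_epi (L.map (S.ρ (S.jU X) (S.pinch X) (S.isQuot_pinch X).zero)), ρ_dq_assoc, hψ]
    simp
  have ka := S.dq_nat L e (S.cof_ι X) (S.isQuot_κ X) (S.cof_jU X) (S.isQuot_pinch X)
    (𝟙 X) (S.inY (S.ι X)) coprod.inl (by simp [jU]) (by simp)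
  have kb := S.dq_nat L e (S.cof_ι X) (S.isQuot_κ X) (S.cof_jU X) (S.isQuot_pinch X)
    (𝟙 X) (S.inC (S.ι X)) coprod.inr (by simp [jU, ι_inC]) (by simp)
  calc a = L.map coprod.inl ≫ S.cdesc L a b := by simp
    _ = (L.map coprod.inl ≫ S.dq L e (S.jU X) (S.pinch X) (S.cof_jU X) (S.isQuot_pinch X)) ≫
        (S.eh L e X).inv ≫ ψ := by rw [h2, Category.assoc]
    _ = (L.map coprod.inr ≫ S.dq L e (S.jU X) (S.pinch X) (S.cof_jU X) (S.isQuot_pinch X)) ≫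
        (S.eh L e X).inv ≫ ψ := by rw [← ka, ← kb]
    _ = b := by rw [Category.assoc, ← h2, inr_cdesc]

end division

section biproducts

lemma isQuot_inl (X Y : C) :
    IsQuot (coprod.inl : X ⟶ X ⨿ Y) (coprod.desc (0 : X ⟶ Y) (𝟙 Y)) := by
  refine IsQuot.mk' (by simp [coprod.inl_desc]) (fun k k' h => ?_) (fun h hh => ?_)
  · have := congrArg (coprod.inr ≫ ·) h
    simpa only [← Category.assoc, coprod.inr_desc, Category.id_comp] using this
  · refine ⟨coprod.inr ≫ h, ?_⟩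
    ext
    · simp [coprod.inl_desc, hh]
    · simp [coprod.inr_desc]

include e in
lemma exists_susp (W : D) : ∃ V : C, Nonempty (W ≅ L.obj (S.Susp.obj V)) := by
  have := Localization.essSurj L S.W
  exact ⟨L.objPreimage (W⟦(-1 : ℤ)⟧), ⟨(shiftNegShift W (1 : ℤ)).symm ≪≫
    (shiftFunctor D (1 : ℤ)).mapIso (L.objObjPreimageIso (W⟦(-1 : ℤ)⟧)).symm ≪≫
    (S.eh L e _).symm⟩⟩

variable [HasZeroMorphisms D]

include e in
lemma prod_hom_ext {X Y : C} {W : D} {φ φ' : W ⟶ L.obj (X ⨿ Y)}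
    (h1 : φ ≫ L.map (coprod.desc (𝟙 X) 0) = φ' ≫ L.map (coprod.desc (𝟙 X) 0))
    (h2 : φ ≫ L.map (coprod.desc 0 (𝟙 Y)) = φ' ≫ L.map (coprod.desc 0 (𝟙 Y))) : φ = φ' := by
  obtain ⟨V, ⟨i⟩⟩ := S.exists_susp L e W
  rw [← cancel_epi i.inv]
  apply S.eq_of_dv_eq_zero L e
  obtain ⟨χ, hχ⟩ := S.exact_left L e (S.cof_inl X Y) (isQuot_inl X Y)
    (S.dv L (i.inv ≫ φ) (i.inv ≫ φ')) (by
      rw [dv_comp, Category.assoc, Category.assoc, h2, dv_self])
  have h3 : χ = 0 := by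
    have : χ = S.dv L (i.inv ≫ φ) (i.inv ≫ φ') ≫ L.map (coprod.desc (𝟙 X) 0) := by
      rw [hχ, Category.assoc, ← L.map_comp, coprod.inl_desc, L.map_id, Category.comp_id]
    rw [this, dv_comp, Category.assoc, Category.assoc, h1, dv_self]
  rw [hχ, h3, zero_comp]

include e in
lemma prod_exists {X Y : C} {W : D} (a : W ⟶ L.obj X) (b : W ⟶ L.obj Y) :
    ∃ φ : W ⟶ L.obj (X ⨿ Y), φ ≫ L.map (coprod.desc (𝟙 X) 0) = a ∧
      φ ≫ L.map (coprod.desc 0 (𝟙 Y)) = b := by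
  obtain ⟨V, ⟨i⟩⟩ := S.exists_susp L e W
  refine ⟨i.hom ≫ S.dv L (i.inv ≫ a ≫ L.map coprod.inl)
    (inv (S.ν' L V) ≫ i.inv ≫ b ≫ L.map coprod.inr), ?_, ?_⟩
  · rw [Category.assoc, dv_comp]
    simp only [Category.assoc, ← L.map_comp, coprod.inl_desc, coprod.inr_desc, L.map_id,
      Category.comp_id, S.L_map_zero L, comp_zero, dv_zero, Iso.hom_inv_id_assoc]
  · rw [Category.assoc, dv_comp]
    simp only [Category.assoc, ← L.map_comp, coprod.inl_desc, coprod.inr_desc, L.map_id,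
      Category.comp_id, S.L_map_zero L, comp_zero, zero_dv, Iso.hom_inv_id_assoc,
      IsIso.hom_inv_id_assoc]

/-- A constructor for binary biproducts. -/
lemma hasBinaryBiproduct_of {D : Type u'} [Category.{v'} D] [HasZeroMorphisms D] {A B P : D}
    (fst : P ⟶ A) (snd : P ⟶ B) (inl : A ⟶ P) (inr : B ⟶ P)
    (h1 : inl ≫ fst = 𝟙 A) (h2 : inl ≫ snd = 0) (h3 : inr ≫ fst = 0) (h4 : inr ≫ snd = 𝟙 B)
    (pe : ∀ {W : D} (a : W ⟶ A) (b : W ⟶ B), ∃ φ : W ⟶ P, φ ≫ fst = a ∧ φ ≫ snd = b)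
    (pu : ∀ {W : D} (φ φ' : W ⟶ P), φ ≫ fst = φ' ≫ fst → φ ≫ snd = φ' ≫ snd → φ = φ')
    (ce : ∀ {W : D} (a : A ⟶ W) (b : B ⟶ W), ∃ φ : P ⟶ W, inl ≫ φ = a ∧ inr ≫ φ = b)
    (cu : ∀ {W : D} (φ φ' : P ⟶ W), inl ≫ φ = inl ≫ φ' → inr ≫ φ = inr ≫ φ' → φ = φ') :
    HasBinaryBiproduct A B :=
  HasBinaryBiproduct.mk ⟨⟨P, fst, snd, inl, inr, h1, h2, h3, h4⟩,
    ⟨BinaryFan.isLimitMk (fun s => (pe s.fst s.snd).choose)
        (fun s => (pe s.fst s.snd).choose_spec.1) (fun s => (pe s.fst s.snd).choose_spec.2)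
        (fun s _ h1 h2 => pu _ _ (h1.trans (pe s.fst s.snd).choose_spec.1.symm)
          (h2.trans (pe s.fst s.snd).choose_spec.2.symm)),
      BinaryCofan.isColimitMk (fun s => (ce s.inl s.inr).choose)
        (fun s => (ce s.inl s.inr).choose_spec.1) (fun s => (ce s.inl s.inr).choose_spec.2)
        (fun s _ h1 h2 => cu _ _ (h1.trans (ce s.inl s.inr).choose_spec.1.symm)
          (h2.trans (ce s.inl s.inr).choose_spec.2.symm))⟩⟩

include e in
lemma hasBinaryBiproducts_D : HasBinaryBiproducts D where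
  has_binary_biproduct A B := by
    have := Localization.essSurj L S.W
    let X := L.objPreimage A
    let Y := L.objPreimage B
    let i : L.obj X ≅ A := L.objObjPreimageIso A
    let j : L.obj Y ≅ B := L.objObjPreimageIso B
    refine hasBinaryBiproduct_of (P := L.obj (X ⨿ Y)) (L.map (coprod.desc (𝟙 X) 0) ≫ i.hom)
      (L.map (coprod.desc 0 (𝟙 Y)) ≫ j.hom) (i.inv ≫ L.map coprod.inl)
      (j.inv ≫ L.map coprod.inr) ?_ ?_ ?_ ?_ ?_ ?_ ?_ ?_
    · rw [Category.assoc, ← L.map_comp_assoc, coprod.inl_desc]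
      simp
    · rw [Category.assoc, ← L.map_comp_assoc, coprod.inl_desc, S.L_map_zero L]
      simp
    · rw [Category.assoc, ← L.map_comp_assoc, coprod.inr_desc, S.L_map_zero L]
      simp
    · rw [Category.assoc, ← L.map_comp_assoc, coprod.inr_desc]
      simp
    · intro W a b
      obtain ⟨φ, h1, h2⟩ := S.prod_exists L e (a ≫ i.inv) (b ≫ j.inv)
      exact ⟨φ, by rw [reassoc_of% h1]; simp, by rw [reassoc_of% h2]; simp⟩
    · intro W φ φ' h1 h2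
      apply S.prod_hom_ext L e
      · rw [← cancel_mono i.hom, Category.assoc, Category.assoc, h1]
      · rw [← cancel_mono j.hom, Category.assoc, Category.assoc, h2]
    · intro W a b
      exact ⟨S.cdesc L (i.hom ≫ a) (j.hom ≫ b), by simp, by simp⟩
    · intro W φ φ' h1 h2
      apply S.coprod_hom_ext L
      · rw [← cancel_epi i.inv, ← Category.assoc, ← Category.assoc, h1]
      · rw [← cancel_epi j.inv, ← Category.assoc, ← Category.assoc, h2]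

end biproducts

end CylStr

end Vale.Agent.P251.H
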