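import Vale.Agent.P251.H.TriFrac
import Mathlib.CategoryTheory.Triangulated.Pretriangulated

/-!
# P251.H: cones, mapping cones, cofibre sequences in a cofibration category with cylinders
-/

open CategoryTheory Limits

universe v u v' u'

namespace Vale.Agent.P251.H

open ZeroObject

namespace CylStr

variable {C : Type u} [Category.{v} C] [HasZeroObject C] [HasZeroMorphisms C]
  [HasBinaryCoproducts C] (S : CylStr C)

section cone

/-- The cone of `X`: `Cyl X` with the end `i₁` collapsed. -/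
noncomputable def cone (X : C) : C := S.MC (0 : X ⟶ (0 : C))

/-- the quotient map `Cyl X ⟶ cone X` -/
noncomputable def cq (X : C) : S.Cyl.obj X ⟶ S.cone X := S.mcInl (0 : X ⟶ (0 : C))

/-- the inclusion `X ⟶ cone X` -/
noncomputable def ι (X : C) : X ⟶ S.cone X := S.mcFront (0 : X ⟶ (0 : C))

lemma cof_ι (X : C) : S.cof (S.ι X) := S.cof_mcFront _

lemma W_cone (X : C) : S.W (0 : S.cone X ⟶ (0 : C)) := by
  have := S.W_mcRet (0 : X ⟶ (0 : C))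
  rwa [(isZero_zero C).eq_of_tgt (S.mcRet (0 : X ⟶ (0 : C))) 0] at this

@[reassoc (attr := simp)]
lemma i₀_cq (X : C) : S.i₀ X ≫ S.cq X = S.ι X := rfl

@[reassoc (attr := simp)]
lemma i₁_cq (X : C) : S.i₁ X ≫ S.cq X = 0 := by
  have := (S.mc_isPushout (0 : X ⟶ (0 : C))).w
  rw [zero_comp] at this
  exact this

variable {S} in
lemma cone_hom_ext {X Z : C} {k k' : S.cone X ⟶ Z} (h : S.cq X ≫ k = S.cq X ≫ k') : k = k' :=
  (S.mc_isPushout (0 : X ⟶ (0 : C))).hom_ext h ((isZero_zero C).eq_of_src _ _)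

/-- maps out of the cone -/
noncomputable def coneDesc {X Z : C} (h : S.Cyl.obj X ⟶ Z) (h1 : S.i₁ X ≫ h = 0) :
    S.cone X ⟶ Z :=
  (S.mc_isPushout (0 : X ⟶ (0 : C))).desc h 0 (by simpa using h1)

@[reassoc (attr := simp)]
lemma cq_coneDesc {X Z : C} (h : S.Cyl.obj X ⟶ Z) (h1 : S.i₁ X ≫ h = 0) :
    S.cq X ≫ S.coneDesc h h1 = h := (S.mc_isPushout (0 : X ⟶ (0 : C))).inl_desc _ _ _

/-- functoriality of the cone -/
noncomputable def coneMap {X Y : C} (f : X ⟶ Y) : S.cone X ⟶ S.cone Y :=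
  S.coneDesc (S.Cyl.map f ≫ S.cq Y) (by rw [S.i₁_nat_assoc, i₁_cq, comp_zero])

@[reassoc (attr := simp)]
lemma cq_coneMap {X Y : C} (f : X ⟶ Y) : S.cq X ≫ S.coneMap f = S.Cyl.map f ≫ S.cq Y :=
  S.cq_coneDesc _ _

@[reassoc (attr := simp)]
lemma ι_coneMap {X Y : C} (f : X ⟶ Y) : S.ι X ≫ S.coneMap f = f ≫ S.ι Y := by
  rw [← i₀_cq, Category.assoc, cq_coneMap, S.i₀_nat_assoc, i₀_cq]

@[simp]
lemma coneMap_id (X : C) : S.coneMap (𝟙 X) = 𝟙 _ := cone_hom_ext (by simp)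

@[simp]
lemma coneMap_comp {X Y Z : C} (f : X ⟶ Y) (g : Y ⟶ Z) :
    S.coneMap (f ≫ g) = S.coneMap f ≫ S.coneMap g := cone_hom_ext (by simp)

/-- the quotient map `cone X ⟶ Susp X` -/
noncomputable def κ (X : C) : S.cone X ⟶ S.Susp.obj X := S.coneDesc (S.π X) (S.i₁_π X)

@[reassoc (attr := simp)]
lemma cq_κ (X : C) : S.cq X ≫ S.κ X = S.π X := S.cq_coneDesc _ _

@[reassoc (attr := simp)]
lemma ι_κ (X : C) : S.ι X ≫ S.κ X = 0 := by
  rw [← i₀_cq, Category.assoc, cq_κ, S.i₀_π]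

@[reassoc (attr := simp)]
lemma coneMap_κ {X Y : C} (f : X ⟶ Y) : S.coneMap f ≫ S.κ Y = S.κ X ≫ S.Susp.map f :=
  cone_hom_ext (by simp [S.π_nat])

/-- `q : B ⟶ Q` is the quotient of `j : A ⟶ B`. -/
abbrev IsQuot {A B Q : C} (j : A ⟶ B) (q : B ⟶ Q) : Prop :=
  IsPushout j (0 : A ⟶ (0 : C)) q (0 : (0 : C) ⟶ Q)

variable {S} in
lemma IsQuot.mk' {A B Q : C} {j : A ⟶ B} {q : B ⟶ Q} (w : j ≫ q = 0)
    (ext : ∀ {Z : C} (k k' : Q ⟶ Z), q ≫ k = q ≫ k' → k = k')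
    (desc : ∀ {Z : C} (h : B ⟶ Z), j ≫ h = 0 → ∃ k : Q ⟶ Z, q ≫ k = h) : IsQuot j q := by
  refine IsPushout.mk' (by simpa using w) (fun T φ φ' h _ => ext _ _ h) (fun T a b hab => ?_)
  obtain ⟨k, hk⟩ := desc a (by simpa using hab)
  exact ⟨k, hk, (isZero_zero C).eq_of_src _ _⟩

lemma IsQuot.ext {A B Q : C} {j : A ⟶ B} {q : B ⟶ Q} (h : IsQuot j q) {Z : C} {k k' : Q ⟶ Z}
    (hk : q ≫ k = q ≫ k') : k = k' := h.hom_ext hk ((isZero_zero C).eq_of_src _ _)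

lemma IsQuot.zero {A B Q : C} {j : A ⟶ B} {q : B ⟶ Q} (h : IsQuot j q) : j ≫ q = 0 := by
  simpa using h.w

/-- `Susp X` is the quotient `cone X / X`. -/
lemma isQuot_κ (X : C) : IsQuot (S.ι X) (S.κ X) := by
  refine IsQuot.mk' (S.ι_κ X) (fun k k' h => S.π_ext _ _ ?_) (fun h hh => ?_)
  · rw [← S.cq_κ, Category.assoc, h, Category.assoc]
  · obtain ⟨k, hk⟩ := S.π_desc (S.cq X ≫ h) (by rw [i₀_cq_assoc, hh])
      (by rw [i₁_cq_assoc, zero_comp])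
    exact ⟨k, cone_hom_ext (by rw [cq_κ_assoc, hk])⟩

end cone

section mappingCone

variable {X Y : C} (f : X ⟶ Y)

instance hasPushout_ι : HasPushout (S.ι X) f := S.hasPushout _ _ (S.cof_ι X)

/-- The mapping cone `cone X ∪_X Y`. -/
noncomputable def mcone : C := pushout (S.ι X) f

/-- `cone X ⟶ mcone f` -/
noncomputable def inC : S.cone X ⟶ S.mcone f := pushout.inl _ _

/-- `Y ⟶ mcone f` -/
noncomputable def inY : Y ⟶ S.mcone f := pushout.inr _ _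

lemma mcone_isPushout : IsPushout (S.ι X) f (S.inC f) (S.inY f) := IsPushout.of_hasPushout _ _

@[reassoc]
lemma ι_inC : S.ι X ≫ S.inC f = f ≫ S.inY f := (S.mcone_isPushout f).w

variable {f S} in
lemma mcone_hom_ext {Z : C} {k k' : S.mcone f ⟶ Z} (h1 : S.inC f ≫ k = S.inC f ≫ k')
    (h2 : S.inY f ≫ k = S.inY f ≫ k') : k = k' := (S.mcone_isPushout f).hom_ext h1 h2

/-- maps out of the mapping cone -/
noncomputable def mconeDesc {Z : C} (a : S.cone X ⟶ Z) (b : Y ⟶ Z) (h : S.ι X ≫ a = f ≫ b) :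
    S.mcone f ⟶ Z := (S.mcone_isPushout f).desc a b h

@[reassoc (attr := simp)]
lemma inC_mconeDesc {Z : C} (a : S.cone X ⟶ Z) (b : Y ⟶ Z) (h : S.ι X ≫ a = f ≫ b) :
    S.inC f ≫ S.mconeDesc f a b h = a := (S.mcone_isPushout f).inl_desc _ _ _

@[reassoc (attr := simp)]
lemma inY_mconeDesc {Z : C} (a : S.cone X ⟶ Z) (b : Y ⟶ Z) (h : S.ι X ≫ a = f ≫ b) :
    S.inY f ≫ S.mconeDesc f a b h = b := (S.mcone_isPushout f).inr_desc _ _ _

/-- the connecting map `mcone f ⟶ Susp X` -/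
noncomputable def δ : S.mcone f ⟶ S.Susp.obj X := S.mconeDesc f (S.κ X) 0 (by simp)

@[reassoc (attr := simp)]
lemma inC_δ : S.inC f ≫ S.δ f = S.κ X := S.inC_mconeDesc _ _ _ _

@[reassoc (attr := simp)]
lemma inY_δ : S.inY f ≫ S.δ f = 0 := S.inY_mconeDesc _ _ _ _

lemma cof_inY : S.cof (S.inY f) := S.cof_of_isPushout (S.mcone_isPushout f) (S.cof_ι X)

/-- `Susp X` is the quotient of `mcone f` by `Y`. -/
lemma isQuot_δ : IsQuot (S.inY f) (S.δ f) := by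
  refine IsPushout.of_top (h₁₁ := S.ι X) (v₁₁ := f) (v₁₂ := S.inC f) ?_ (by simp)
    (S.mcone_isPushout f)
  rw [comp_zero, inC_δ]
  exact S.isQuot_κ X

variable {X' Y' : C} (f' : X' ⟶ Y') (a : X ⟶ X') (b : Y ⟶ Y') (h : f ≫ b = a ≫ f')

/-- functoriality of the mapping cone -/
noncomputable def mconeMap : S.mcone f ⟶ S.mcone f' :=
  S.mconeDesc f (S.coneMap a ≫ S.inC f') (b ≫ S.inY f')
    (by rw [ι_coneMap_assoc, ι_inC, reassoc_of% h])

@[reassoc (attr := simp)]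
lemma inC_mconeMap : S.inC f ≫ S.mconeMap f f' a b h = S.coneMap a ≫ S.inC f' :=
  S.inC_mconeDesc _ _ _ _

@[reassoc (attr := simp)]
lemma inY_mconeMap : S.inY f ≫ S.mconeMap f f' a b h = b ≫ S.inY f' :=
  S.inY_mconeDesc _ _ _ _

@[reassoc (attr := simp)]
lemma mconeMap_δ : S.mconeMap f f' a b h ≫ S.δ f' = S.δ f ≫ S.Susp.map a :=
  mcone_hom_ext (by simp) (by simp)

lemma W_coneMap : S.W (S.coneMap a) :=
  S.W_of_postcomp _ (0 : S.cone X' ⟶ (0 : C)) (S.W_cone X') (by simpa using S.W_cone X)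

lemma W_mconeMap (ha : S.W a) (hb : S.W b) : S.W (S.mconeMap f f' a b h) :=
  S.gluing (S.mcone_isPushout f) (S.mcone_isPushout f') (S.cof_ι X) (S.cof_ι X') a (S.coneMap a) b
    _ (by simp) h (by simp) (by simp) ha (S.W_coneMap a) hb

lemma W_suspMap (ha : S.W a) : S.W (S.Susp.map a) :=
  S.gluing (S.isQuot_κ X) (S.isQuot_κ X') (S.cof_ι X) (S.cof_ι X') a (S.coneMap a) (𝟙 _)
    _ (by simp) (by simp) (by simp) (by simp) ha (S.W_coneMap a) (S.W_id _)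

end mappingCone

section quotient

variable {A B Q : C} {j : A ⟶ B} {q : B ⟶ Q}

/-- comparison of the mapping cone of `j` with the quotient of `j` -/
noncomputable def ρ (j : A ⟶ B) (q : B ⟶ Q) (h : j ≫ q = 0) : S.mcone j ⟶ Q :=
  S.mconeDesc j 0 q (by simpa using h.symm)

@[reassoc (attr := simp)]
lemma inC_ρ (h : j ≫ q = 0) : S.inC j ≫ S.ρ j q h = 0 := S.inC_mconeDesc _ _ _ _

@[reassoc (attr := simp)]
lemma inY_ρ (h : j ≫ q = 0) : S.inY j ≫ S.ρ j q h = q := S.inY_mconeDesc _ _ _ _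

lemma W_ρ (hj : S.cof j) (hq : IsQuot j q) : S.W (S.ρ j q hq.zero) :=
  S.gluing (S.mcone_isPushout j).flip hq hj hj (𝟙 A) (𝟙 B) (0 : S.cone A ⟶ (0 : C))
    _ (by simp) (by simp) (by simp) (by simp) (S.W_id _) (S.W_id _) (S.W_cone A)

lemma ρ_nat {A' B' Q' : C} {j' : A' ⟶ B'} {q' : B' ⟶ Q'} (h : j ≫ q = 0) (h' : j' ≫ q' = 0)
    (a : A ⟶ A') (b : B ⟶ B') (c : Q ⟶ Q') (hab : j ≫ b = a ≫ j') (hbc : q ≫ c = b ≫ q') :
    S.mconeMap j j' a b hab ≫ S.ρ j' q' h' = S.ρ j q h ≫ c :=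
  mcone_hom_ext (by simp) (by simp [hbc])

end quotient

end CylStr

end Vale.Agent.P251.H
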