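import Mathlib.CategoryTheory.Localization.CalculusOfFractions
import Mathlib.CategoryTheory.Localization.OfQuotient
import Mathlib.CategoryTheory.Localization.Quotient
import Mathlib.CategoryTheory.Limits.Shapes.Pullback.IsPullback.Basic
import Mathlib.CategoryTheory.Limits.Shapes.ZeroMorphisms

/-!
# P251.H: pointed cofibration categories with functorial cylinders

`CylStr C`: a pointed category `C` with cofibrations, weak equivalences and a functorial cylinder.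
This is the model-independent input of the theorem that a stable homotopy category is triangulated
(files `Tri*.lean`).
-/

open CategoryTheory Limits

universe v u

namespace Vale.Agent.P251.H

variable (C : Type u) [Category.{v} C] [HasZeroObject C] [HasZeroMorphisms C]
  [HasBinaryCoproducts C]

open ZeroObject

/-- A pointed cofibration category with a functorial cylinder and a functorial suspension:
cofibrations `cof`, weak equivalences `W`, cylinder functor `Cyl` with `i₀ i₁ : X ⟶ Cyl X` and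
`p : Cyl X ⟶ X`, suspension `Susp X = Cyl X / (X ⨿ X)`. All objects are cofibrant. -/
structure CylStr where
  /-- cofibrations -/
  cof : MorphismProperty C
  /-- weak equivalences -/
  W : MorphismProperty C
  cof_of_isIso : ∀ {X Y : C} (f : X ⟶ Y) [IsIso f], cof f
  cof_comp : ∀ {X Y Z : C} (f : X ⟶ Y) (g : Y ⟶ Z), cof f → cof g → cof (f ≫ g)
  cof_zero : ∀ (X : C), cof (0 : (0 : C) ⟶ X)
  hasPushout : ∀ {A B X : C} (i : A ⟶ B) (f : A ⟶ X), cof i → HasPushout i f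
  /-- cofibrations are stable under cobase change -/
  cof_of_isPushout : ∀ {A B X P : C} {i : A ⟶ B} {f : A ⟶ X} {g : B ⟶ P} {j : X ⟶ P},
    IsPushout i f g j → cof i → cof j
  W_of_isIso : ∀ {X Y : C} (f : X ⟶ Y) [IsIso f], W f
  W_comp : ∀ {X Y Z : C} (f : X ⟶ Y) (g : Y ⟶ Z), W f → W g → W (f ≫ g)
  W_of_postcomp : ∀ {X Y Z : C} (f : X ⟶ Y) (g : Y ⟶ Z), W g → W (f ≫ g) → W f
  W_of_precomp : ∀ {X Y Z : C} (f : X ⟶ Y) (g : Y ⟶ Z), W f → W (f ≫ g) → W g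
  /-- gluing lemma -/
  gluing : ∀ {A B X P A' B' X' P' : C} {i : A ⟶ B} {f : A ⟶ X} {g : B ⟶ P} {j : X ⟶ P}
    {i' : A' ⟶ B'} {f' : A' ⟶ X'} {g' : B' ⟶ P'} {j' : X' ⟶ P'},
    IsPushout i f g j → IsPushout i' f' g' j' → cof i → cof i' →
    ∀ (a : A ⟶ A') (b : B ⟶ B') (x : X ⟶ X') (q : P ⟶ P'),
    i ≫ b = a ≫ i' → f ≫ x = a ≫ f' → g ≫ q = b ≫ g' → j ≫ q = x ≫ j' →
    W a → W b → W x → W q
  /-- the cylinder -/
  Cyl : C ⥤ C
  /-- first end -/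
  i₀ : ∀ X : C, X ⟶ Cyl.obj X
  /-- second end -/
  i₁ : ∀ X : C, X ⟶ Cyl.obj X
  /-- projection -/
  p : ∀ X : C, Cyl.obj X ⟶ X
  i₀_nat : ∀ {X Y : C} (f : X ⟶ Y), i₀ X ≫ Cyl.map f = f ≫ i₀ Y
  i₁_nat : ∀ {X Y : C} (f : X ⟶ Y), i₁ X ≫ Cyl.map f = f ≫ i₁ Y
  p_nat : ∀ {X Y : C} (f : X ⟶ Y), Cyl.map f ≫ p Y = p X ≫ f
  i₀_p : ∀ X : C, i₀ X ≫ p X = 𝟙 X
  i₁_p : ∀ X : C, i₁ X ≫ p X = 𝟙 X
  W_p : ∀ X : C, W (p X)
  cof_cyl : ∀ X : C, cof (coprod.desc (i₀ X) (i₁ X))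
  /-- the suspension -/
  Susp : C ⥤ C
  /-- the quotient map `Cyl X ⟶ Susp X = Cyl X / (X ⨿ X)` -/
  π : ∀ X : C, Cyl.obj X ⟶ Susp.obj X
  π_nat : ∀ {X Y : C} (f : X ⟶ Y), Cyl.map f ≫ π Y = π X ≫ Susp.map f
  i₀_π : ∀ X : C, i₀ X ≫ π X = 0
  i₁_π : ∀ X : C, i₁ X ≫ π X = 0
  π_desc : ∀ {X Z : C} (h : Cyl.obj X ⟶ Z), i₀ X ≫ h = 0 → i₁ X ≫ h = 0 →
    ∃ k : Susp.obj X ⟶ Z, π X ≫ k = h
  π_ext : ∀ {X Z : C} (k k' : Susp.obj X ⟶ Z), π X ≫ k = π X ≫ k' → k = k'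

end Vale.Agent.P251.H
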