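import Vale.Agent.P251.H.TriDefs
import Mathlib.CategoryTheory.Limits.Shapes.Pullback.IsPullback.BicartesianSq

/-!
# P251.H: calculus of fractions up to homotopy for a cofibration category with cylinders
-/

open CategoryTheory Limits

universe v u v' u'

namespace Vale.Agent.P251.H

open ZeroObject

namespace CylStr

variable {C : Type u} [Category.{v} C] [HasZeroObject C] [HasZeroMorphisms C]
  [HasBinaryCoproducts C] (S : CylStr C)

section basic

lemma W_id (X : C) : S.W (𝟙 X) := S.W_of_isIso _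

lemma cof_id (X : C) : S.cof (𝟙 X) := S.cof_of_isIso _

/-- Acyclic cofibrations are stable under cobase change. -/
lemma W_of_isPushout {A B X P : C} {i : A ⟶ B} {f : A ⟶ X} {g : B ⟶ P} {j : X ⟶ P}
    (sq : IsPushout i f g j) (hi : S.cof i) (hw : S.W i) : S.W j :=
  S.gluing (IsPushout.id_horiz f) sq (S.cof_id _) hi (𝟙 A) i (𝟙 X) j (by simp) (by simp)
    (by simpa using sq.w.symm) (by simp) (S.W_id _) hw (S.W_id _)

/-- Weak equivalences are stable under cobase change along cofibrations. -/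
lemma W_of_isPushout' {A B X P : C} {i : A ⟶ B} {f : A ⟶ X} {g : B ⟶ P} {j : X ⟶ P}
    (sq : IsPushout i f g j) (hi : S.cof i) (hw : S.W f) : S.W g :=
  S.gluing (IsPushout.id_vert i) sq hi hi (𝟙 A) (𝟙 B) f g (by simp) (by simp)
    (by simp) (by simpa using sq.w) (S.W_id _) (S.W_id _) hw

lemma cof_inl (X Y : C) : S.cof (coprod.inl : X ⟶ X ⨿ Y) := by
  have := IsPushout.of_hasBinaryCoproduct (X := X) (Y := Y)
  exact S.cof_of_isPushout this.flip (S.cof_zero _)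

lemma cof_inr (X Y : C) : S.cof (coprod.inr : Y ⟶ X ⨿ Y) := by
  have := IsPushout.of_hasBinaryCoproduct (X := X) (Y := Y)
  exact S.cof_of_isPushout this (S.cof_zero _)

attribute [reassoc (attr := simp)] i₀_p i₁_p i₀_π i₁_π
attribute [reassoc] i₀_nat i₁_nat p_nat π_nat

lemma cof_i₀ (X : C) : S.cof (S.i₀ X) := by
  have := S.cof_comp _ _ (S.cof_inl X X) (S.cof_cyl X)
  rwa [coprod.inl_desc] at this

lemma cof_i₁ (X : C) : S.cof (S.i₁ X) := by
  have := S.cof_comp _ _ (S.cof_inr X X) (S.cof_cyl X)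
  rwa [coprod.inr_desc] at this

lemma W_i₀ (X : C) : S.W (S.i₀ X) :=
  S.W_of_postcomp _ (S.p X) (S.W_p X) (by simpa using S.W_id X)

lemma W_i₁ (X : C) : S.W (S.i₁ X) :=
  S.W_of_postcomp _ (S.p X) (S.W_p X) (by simpa using S.W_id X)

end basic

section mappingCylinder

variable {X Y : C} (s : X ⟶ Y)

instance hasPushout_i₁ : HasPushout (S.i₁ X) s := S.hasPushout _ _ (S.cof_i₁ X)

/-- The mapping cylinder `Cyl X ∪_X Y`, glued along `i₁`. -/
noncomputable def MC : C := pushout (S.i₁ X) s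

/-- `Cyl X ⟶ MC s` -/
noncomputable def mcInl : S.Cyl.obj X ⟶ S.MC s := pushout.inl _ _

/-- `Y ⟶ MC s` -/
noncomputable def mcBack : Y ⟶ S.MC s := pushout.inr _ _

lemma mc_isPushout : IsPushout (S.i₁ X) s (S.mcInl s) (S.mcBack s) :=
  IsPushout.of_hasPushout _ _

/-- `X ⟶ MC s`, the front inclusion -/
noncomputable def mcFront : X ⟶ S.MC s := S.i₀ X ≫ S.mcInl s

/-- the retraction `MC s ⟶ Y` -/
noncomputable def mcRet : S.MC s ⟶ Y :=
  (S.mc_isPushout s).desc (S.p X ≫ s) (𝟙 Y) (by simp)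

@[reassoc (attr := simp)]
lemma mcInl_ret : S.mcInl s ≫ S.mcRet s = S.p X ≫ s := (S.mc_isPushout s).inl_desc _ _ _

@[reassoc (attr := simp)]
lemma mcBack_ret : S.mcBack s ≫ S.mcRet s = 𝟙 Y := (S.mc_isPushout s).inr_desc _ _ _

@[reassoc (attr := simp)]
lemma mcFront_ret : S.mcFront s ≫ S.mcRet s = s := by simp [mcFront]

lemma cof_mcBack : S.cof (S.mcBack s) := S.cof_of_isPushout (S.mc_isPushout s) (S.cof_i₁ X)

lemma W_mcBack : S.W (S.mcBack s) := S.W_of_isPushout (S.mc_isPushout s) (S.cof_i₁ X) (S.W_i₁ X)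

lemma W_mcRet : S.W (S.mcRet s) :=
  S.W_of_precomp _ _ (S.W_mcBack s) (by simpa using S.W_id Y)

/-- `X ⨿ Y ⟶ MC s` is a cobase change of `X ⨿ X ⟶ Cyl X`. -/
lemma mc_isPushout' :
    IsPushout (coprod.desc (S.i₀ X) (S.i₁ X)) (coprod.map (𝟙 X) s) (S.mcInl s)
      (coprod.desc (S.mcFront s) (S.mcBack s)) := by
  refine IsPushout.mk' ?_ ?_ ?_
  · ext
    · simp [mcFront, coprod.inl_desc]
    · simpa [coprod.inr_desc] using (S.mc_isPushout s).w
  · intro T φ φ' h1 h2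
    refine (S.mc_isPushout s).hom_ext h1 ?_
    have := congrArg (coprod.inr ≫ ·) h2
    simpa [coprod.inr_desc] using this
  · intro T a b hab
    have h1 := congrArg (coprod.inl ≫ ·) hab
    have h2 := congrArg (coprod.inr ≫ ·) hab
    simp only [coprod.desc_comp, coprod.inl_desc, coprod.inr_desc, coprod.inl_map_assoc,
      coprod.inr_map_assoc, Category.id_comp] at h1 h2
    refine ⟨(S.mc_isPushout s).desc a (coprod.inr ≫ b) h2, by simp, ?_⟩
    ext
    · rw [coprod.inl_desc_assoc, mcFront, Category.assoc, (S.mc_isPushout s).inl_desc, h1]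
    · simp only [coprod.inr_desc_assoc]
      exact (S.mc_isPushout s).inr_desc _ _ _

lemma cof_mc : S.cof (coprod.desc (S.mcFront s) (S.mcBack s)) :=
  S.cof_of_isPushout (S.mc_isPushout' s) (S.cof_cyl X)

lemma cof_mcFront : S.cof (S.mcFront s) := by
  have := S.cof_comp _ _ (S.cof_inl X Y) (S.cof_mc s)
  rwa [coprod.inl_desc] at this

lemma W_mcFront (hs : S.W s) : S.W (S.mcFront s) :=
  S.W_of_postcomp _ (S.mcRet s) (S.W_mcRet s) (by simpa using hs)

end mappingCylinder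

section homotopy

/-- A (general) cylinder object of `X`. -/
structure GCyl (X : C) where
  /-- the object -/
  Z : C
  /-- first end -/
  j₀ : X ⟶ Z
  /-- second end -/
  j₁ : X ⟶ Z
  /-- projection -/
  pr : Z ⟶ X
  cof₀ : S.cof j₀
  cof₁ : S.cof j₁
  W_pr : S.W pr
  j₀_pr : j₀ ≫ pr = 𝟙 X
  j₁_pr : j₁ ≫ pr = 𝟙 X

attribute [reassoc (attr := simp)] GCyl.j₀_pr GCyl.j₁_pr

variable {S} in
lemma GCyl.W₀ {X : C} (c : S.GCyl X) : S.W c.j₀ :=
  S.W_of_postcomp _ c.pr c.W_pr (by simpa using S.W_id X)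

variable {S} in
lemma GCyl.W₁ {X : C} (c : S.GCyl X) : S.W c.j₁ :=
  S.W_of_postcomp _ c.pr c.W_pr (by simpa using S.W_id X)

/-- homotopy through a general cylinder -/
def Htpy {X Y : C} (f g : X ⟶ Y) : Prop :=
  ∃ (c : S.GCyl X) (H : c.Z ⟶ Y), c.j₀ ≫ H = f ∧ c.j₁ ≫ H = g

/-- elementary homotopy -/
def ElHtpy : HomRel C := fun X _ f g => ∃ H, S.i₀ X ≫ H = f ∧ S.i₁ X ≫ H = g

/-- the standard cylinder -/
def stdCyl (X : C) : S.GCyl X where
  Z := S.Cyl.obj X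
  j₀ := S.i₀ X
  j₁ := S.i₁ X
  pr := S.p X
  cof₀ := S.cof_i₀ X
  cof₁ := S.cof_i₁ X
  W_pr := S.W_p X
  j₀_pr := S.i₀_p X
  j₁_pr := S.i₁_p X

variable {S}

lemma Htpy.refl {X Y : C} (f : X ⟶ Y) : S.Htpy f f :=
  ⟨S.stdCyl X, S.p X ≫ f, by simp [stdCyl], by simp [stdCyl]⟩

lemma Htpy.symm {X Y : C} {f g : X ⟶ Y} (h : S.Htpy f g) : S.Htpy g f := by
  obtain ⟨c, H, h0, h1⟩ := h
  exact ⟨⟨c.Z, c.j₁, c.j₀, c.pr, c.cof₁, c.cof₀, c.W_pr, c.j₁_pr, c.j₀_pr⟩, H, h1, h0⟩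

lemma Htpy.trans {X Y : C} {f g h : X ⟶ Y} (h1 : S.Htpy f g) (h2 : S.Htpy g h) :
    S.Htpy f h := by
  obtain ⟨c, H, h10, h11⟩ := h1
  obtain ⟨c', H', h20, h21⟩ := h2
  have : HasPushout c.j₁ c'.j₀ := S.hasPushout _ _ c.cof₁
  have sq : IsPushout c.j₁ c'.j₀ (pushout.inl c.j₁ c'.j₀) (pushout.inr c.j₁ c'.j₀) :=
    IsPushout.of_hasPushout _ _
  have hcl : S.cof (pushout.inl c.j₁ c'.j₀) := S.cof_of_isPushout sq.flip c'.cof₀
  have hwl : S.W (pushout.inl c.j₁ c'.j₀) := S.W_of_isPushout sq.flip c'.cof₀ c'.W₀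
  have hcr : S.cof (pushout.inr c.j₁ c'.j₀) := S.cof_of_isPushout sq c.cof₁
  let pr : pushout c.j₁ c'.j₀ ⟶ X := sq.desc c.pr c'.pr (by simp)
  have hl : pushout.inl c.j₁ c'.j₀ ≫ pr = c.pr := sq.inl_desc _ _ _
  have hr : pushout.inr c.j₁ c'.j₀ ≫ pr = c'.pr := sq.inr_desc _ _ _
  refine ⟨⟨pushout c.j₁ c'.j₀, c.j₀ ≫ pushout.inl _ _, c'.j₁ ≫ pushout.inr _ _, pr,
    S.cof_comp _ _ c.cof₀ hcl, S.cof_comp _ _ c'.cof₁ hcr,
    S.W_of_precomp _ _ hwl (by rw [hl]; exact c.W_pr), by simp [hl], by simp [hr]⟩,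
    sq.desc H H' (h11.trans h20.symm), ?_, ?_⟩
  · simpa using h10
  · simpa using h21

lemma Htpy.postcomp {X Y Z : C} {f g : X ⟶ Y} (h : S.Htpy f g) (k : Y ⟶ Z) :
    S.Htpy (f ≫ k) (g ≫ k) := by
  obtain ⟨c, H, h0, h1⟩ := h
  exact ⟨c, H ≫ k, by simp [reassoc_of% h0], by simp [reassoc_of% h1]⟩

lemma ElHtpy.htpy {X Y : C} {f g : X ⟶ Y} (h : S.ElHtpy f g) : S.Htpy f g := by
  obtain ⟨H, h0, h1⟩ := h
  exact ⟨S.stdCyl X, H, h0, h1⟩

lemma ElHtpy.precomp {X Y Z : C} {f g : X ⟶ Y} (h : S.ElHtpy f g) (k : Z ⟶ X) :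
    S.ElHtpy (k ≫ f) (k ≫ g) := by
  obtain ⟨H, h0, h1⟩ := h
  refine ⟨S.Cyl.map k ≫ H, ?_, ?_⟩
  · rw [← h0, S.i₀_nat_assoc]
  · rw [← h1, S.i₁_nat_assoc]

lemma ElHtpy.postcomp {X Y Z : C} {f g : X ⟶ Y} (h : S.ElHtpy f g) (k : Y ⟶ Z) :
    S.ElHtpy (f ≫ k) (g ≫ k) := by
  obtain ⟨H, h0, h1⟩ := h
  exact ⟨H ≫ k, by simp [reassoc_of% h0], by simp [reassoc_of% h1]⟩

variable (S) in
/-- the equivalence relation generated by elementary homotopies -/
def rel : HomRel C := fun _ _ f g => Relation.EqvGen (fun f g => S.ElHtpy f g) f g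

lemma ElHtpy.rel {X Y : C} {f g : X ⟶ Y} (h : S.ElHtpy f g) : S.rel f g :=
  Relation.EqvGen.rel _ _ h

instance : Congruence S.rel where
  equivalence := Relation.EqvGen.is_equivalence _
  comp_left f g g' h := by
    induction h with
    | rel x y h => exact (h.precomp f).rel
    | refl x => exact Relation.EqvGen.refl _
    | symm x y _ ih => exact Relation.EqvGen.symm _ _ ih
    | trans x y z _ _ ih1 ih2 => exact Relation.EqvGen.trans _ _ _ ih1 ih2
  comp_right g h := by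
    induction h with
    | rel x y h => exact (h.postcomp g).rel
    | refl x => exact Relation.EqvGen.refl _
    | symm x y _ ih => exact Relation.EqvGen.symm _ _ ih
    | trans x y z _ _ ih1 ih2 => exact Relation.EqvGen.trans _ _ _ ih1 ih2

lemma rel.htpy {X Y : C} {f g : X ⟶ Y} (h : S.rel f g) : S.Htpy f g := by
  induction h with
  | rel x y h => exact h.htpy
  | refl x => exact Htpy.refl x
  | symm x y _ ih => exact ih.symm
  | trans x y z _ _ ih1 ih2 => exact ih1.trans ih2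

/-- `mcInl` is an elementary homotopy from the front inclusion to `s ≫ back`. -/
lemma mc_elHtpy {X Y : C} (s : X ⟶ Y) : S.ElHtpy (S.mcFront s) (s ≫ S.mcBack s) :=
  ⟨S.mcInl s, rfl, (S.mc_isPushout s).w⟩

/-- Two maps equalized by a weak equivalence `q` become homotopic after composing with the
front inclusion of the mapping cylinder of `q`. -/
lemma rel_of_comp_eq {X P Q : C} (u v : X ⟶ P) (q : P ⟶ Q) (h : u ≫ q = v ≫ q) :
    S.rel (u ≫ S.mcFront q) (v ≫ S.mcFront q) := by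
  have h1 := ((S.mc_elHtpy q).precomp u).rel
  have h2 := ((S.mc_elHtpy q).precomp v).rel
  have e : u ≫ q ≫ S.mcBack q = v ≫ q ≫ S.mcBack q := by
    rw [← Category.assoc, h, Category.assoc]
  rw [e] at h1
  exact Relation.EqvGen.trans _ _ _ h1 (Relation.EqvGen.symm _ _ h2)

end homotopy

section calculus

/-- The homotopy category (naive). -/
abbrev HoC := Quotient S.rel

/-- The quotient functor. -/
abbrev toHo : C ⥤ S.HoC := Quotient.functor S.rel

/-- the image of the weak equivalences in the naive homotopy category -/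
def WHo : MorphismProperty S.HoC := fun X Y f =>
  ∃ g : X.as ⟶ Y.as, S.W g ∧ S.toHo.map g = f

variable {S} in
lemma Htpy.W_iff {X Y : C} {f g : X ⟶ Y} (h : S.Htpy f g) : S.W f ↔ S.W g := by
  obtain ⟨c, H, rfl, rfl⟩ := h
  constructor
  · intro h
    exact S.W_comp _ _ c.W₁ (S.W_of_precomp _ _ c.W₀ h)
  · intro h
    exact S.W_comp _ _ c.W₀ (S.W_of_precomp _ _ c.W₁ h)

lemma toHo_map_eq_iff {X Y : C} (f g : X ⟶ Y) : S.toHo.map f = S.toHo.map g ↔ S.rel f g :=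
  Quotient.functor_map_eq_iff _ _ _

lemma W_eq : S.W = S.WHo.inverseImage S.toHo := by
  ext X Y f
  simp only [MorphismProperty.inverseImage_iff]
  constructor
  · intro h
    exact ⟨f, h, rfl⟩
  · rintro ⟨g, hg, h⟩
    rw [toHo_map_eq_iff] at h
    exact (h.htpy.W_iff).1 hg

lemma WHo_map {X Y : C} (f : X ⟶ Y) (h : S.W f) : S.WHo (S.toHo.map f) := ⟨f, h, rfl⟩

instance : S.WHo.IsMultiplicative where
  id_mem X := ⟨𝟙 _, S.W_id _, rfl⟩
  comp_mem := by
    rintro X Y Z _ _ ⟨f, hf, rfl⟩ ⟨g, hg, rfl⟩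
    exact ⟨f ≫ g, S.W_comp _ _ hf hg, by simp⟩

/-- Cancellation: for an acyclic cofibration `s`, maps which become homotopic after
precomposition with `s` become homotopic after composing with a weak equivalence. -/
lemma exists_rel_of_acyclic_cof {X' X Y : C} (s : X' ⟶ X) (hs : S.cof s) (hw : S.W s)
    (f g : X ⟶ Y) (h : S.Htpy (s ≫ f) (s ≫ g)) :
    ∃ (Y' : C) (t : Y ⟶ Y'), S.W t ∧ S.rel (f ≫ t) (g ≫ t) := by
  obtain ⟨c, H, h0, h1⟩ := h
  have : HasPushout c.j₀ s := S.hasPushout _ _ c.cof₀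
  have sq1 : IsPushout c.j₀ s (pushout.inl c.j₀ s) (pushout.inr c.j₀ s) :=
    IsPushout.of_hasPushout _ _
  set P1 := pushout c.j₀ s
  set a : c.Z ⟶ P1 := pushout.inl c.j₀ s
  set b : X ⟶ P1 := pushout.inr c.j₀ s
  have ha : S.cof a := S.cof_of_isPushout sq1.flip hs
  have haw : S.W a := S.W_of_isPushout sq1.flip hs hw
  have hb : S.cof b := S.cof_of_isPushout sq1 c.cof₀
  have hbw : S.W b := S.W_of_isPushout sq1 c.cof₀ c.W₀
  have hc : S.cof (c.j₁ ≫ a) := S.cof_comp _ _ c.cof₁ ha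
  have hcw : S.W (c.j₁ ≫ a) := S.W_comp _ _ c.W₁ haw
  have : HasPushout (c.j₁ ≫ a) s := S.hasPushout _ _ hc
  have sq2 : IsPushout (c.j₁ ≫ a) s (pushout.inl (c.j₁ ≫ a) s) (pushout.inr (c.j₁ ≫ a) s) :=
    IsPushout.of_hasPushout _ _
  set P := pushout (c.j₁ ≫ a) s
  set a' : P1 ⟶ P := pushout.inl (c.j₁ ≫ a) s
  set b' : X ⟶ P := pushout.inr (c.j₁ ≫ a) s
  have ha' : S.W a' := S.W_of_isPushout sq2.flip hs hw
  -- the map to `Y`
  let k1 : P1 ⟶ Y := sq1.desc H f h0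
  have k1a : a ≫ k1 = H := sq1.inl_desc _ _ _
  have k1b : b ≫ k1 = f := sq1.inr_desc _ _ _
  let k : P ⟶ Y := sq2.desc k1 g (by rw [Category.assoc, k1a, h1])
  have ka : a' ≫ k = k1 := sq2.inl_desc _ _ _
  have kb : b' ≫ k = g := sq2.inr_desc _ _ _
  -- the map to `X`
  let r1 : P1 ⟶ X := sq1.desc (c.pr ≫ s) (𝟙 X) (by simp)
  have r1a : a ≫ r1 = c.pr ≫ s := sq1.inl_desc _ _ _
  have r1b : b ≫ r1 = 𝟙 X := sq1.inr_desc _ _ _
  let r : P ⟶ X := sq2.desc r1 (𝟙 X) (by rw [Category.assoc, r1a]; simp)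
  have ra : a' ≫ r = r1 := sq2.inl_desc _ _ _
  have rb : b' ≫ r = 𝟙 X := sq2.inr_desc _ _ _
  have hr : S.W r := S.W_of_precomp (b ≫ a') _ (S.W_comp _ _ hbw ha') (by
    rw [Category.assoc, ra, r1b]; exact S.W_id X)
  have key := rel_of_comp_eq (S := S) (b ≫ a') b' r (by rw [Category.assoc, ra, r1b, rb])
  have hfc : S.cof (S.mcFront r) := S.cof_mcFront r
  have hfw : S.W (S.mcFront r) := S.W_mcFront r hr
  have : HasPushout (S.mcFront r) k := S.hasPushout _ _ hfc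
  have sq3 : IsPushout (S.mcFront r) k (pushout.inl (S.mcFront r) k)
    (pushout.inr (S.mcFront r) k) := IsPushout.of_hasPushout _ _
  refine ⟨pushout (S.mcFront r) k, pushout.inr (S.mcFront r) k, S.W_of_isPushout sq3 hfc hfw, ?_⟩
  have := HomRel.comp_right (r := S.rel) (pushout.inl (S.mcFront r) k) key
  simp only [Category.assoc] at this
  rw [sq3.w, reassoc_of% ka, reassoc_of% k1b, reassoc_of% kb] at this
  exact this

instance : S.WHo.HasLeftCalculusOfFractions where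
  exists_leftFraction := by
    rintro ⟨X⟩ ⟨Y⟩ ⟨_, ⟨s, hs, rfl⟩, f⟩
    obtain ⟨f, rfl⟩ := S.toHo.map_surjective f
    have : HasPushout (S.mcFront s) f := S.hasPushout _ _ (S.cof_mcFront s)
    have sq : IsPushout (S.mcFront s) f (pushout.inl (S.mcFront s) f)
      (pushout.inr (S.mcFront s) f) := IsPushout.of_hasPushout _ _
    refine ⟨⟨S.toHo.map (S.mcBack s ≫ pushout.inl (S.mcFront s) f),
      S.toHo.map (pushout.inr (S.mcFront s) f),
      S.WHo_map _ (S.W_of_isPushout sq (S.cof_mcFront s) (S.W_mcFront s hs))⟩, ?_⟩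
    change S.toHo.map f ≫ S.toHo.map _ = S.toHo.map s ≫ S.toHo.map _
    rw [← Functor.map_comp, ← Functor.map_comp, toHo_map_eq_iff, ← sq.w, ← Category.assoc]
    exact HomRel.comp_right (r := S.rel) _ (S.mc_elHtpy s).rel
  ext := by
    rintro ⟨X'⟩ ⟨X⟩ ⟨Y⟩ f₁ f₂ _ ⟨s, hs, rfl⟩ h
    obtain ⟨f₁, rfl⟩ := S.toHo.map_surjective f₁
    obtain ⟨f₂, rfl⟩ := S.toHo.map_surjective f₂
    change S.toHo.map s ≫ S.toHo.map f₁ = S.toHo.map s ≫ S.toHo.map f₂ at h
    rw [← Functor.map_comp, ← Functor.map_comp, toHo_map_eq_iff] at h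
    obtain ⟨Y', t, ht, h'⟩ := exists_rel_of_acyclic_cof (S := S) (S.mcFront s) (S.cof_mcFront s)
      (S.W_mcFront s hs) (S.mcRet s ≫ f₁) (S.mcRet s ≫ f₂) (by simpa using h.htpy)
    refine ⟨⟨Y'⟩, S.toHo.map t, S.WHo_map t ht, ?_⟩
    change S.toHo.map f₁ ≫ S.toHo.map t = S.toHo.map f₂ ≫ S.toHo.map t
    rw [← Functor.map_comp, ← Functor.map_comp, toHo_map_eq_iff]
    have := HomRel.comp_left (r := S.rel) (S.mcBack s) h'
    simpa using this

end calculus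

section localization

variable {D : Type u'} [Category.{v'} D] (L : C ⥤ D) [L.IsLocalization S.W]

variable {S} in
lemma map_eq_of_htpy {X Y : C} {f g : X ⟶ Y} (h : S.Htpy f g) : L.map f = L.map g := by
  obtain ⟨c, H, rfl, rfl⟩ := h
  have : IsIso (L.map c.pr) := Localization.inverts L S.W _ c.W_pr
  rw [Functor.map_comp, Functor.map_comp]
  congr 1
  rw [← cancel_mono (L.map c.pr), ← L.map_comp, ← L.map_comp, c.j₀_pr, c.j₁_pr]

/-- the functor from the naive homotopy category -/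
def liftHo : S.HoC ⥤ D :=
  CategoryTheory.Quotient.lift S.rel L (fun _ _ _ _ h => map_eq_of_htpy L h.htpy)

lemma factors : S.rel.FactorsThroughLocalization S.W := fun _ _ _ _ h =>
  map_eq_of_htpy S.W.Q h.htpy

instance : (S.liftHo L).IsLocalization S.WHo := by
  have h1 : (LocalizerMorphism.ofEq S.W_eq).IsLocalizedEquivalence :=
    S.factors.isLocalizedEquivalence S.W_eq
  have h2 : (S.toHo ⋙ S.WHo.Q).IsLocalization S.W :=
    LocalizerMorphism.IsLocalizedEquivalence.isLocalization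
      (Φ := LocalizerMorphism.ofEq S.W_eq) (L₂ := S.WHo.Q)
  let e := Localization.uniq (S.toHo ⋙ S.WHo.Q) L S.W
  let i : S.WHo.Q ⋙ e.functor ≅ S.liftHo L :=
    CategoryTheory.Quotient.natIsoLift _ (Localization.compUniqFunctor (S.toHo ⋙ S.WHo.Q) L S.W)
  exact Functor.IsLocalization.of_equivalence_target S.WHo.Q S.WHo (S.liftHo L) e i

/-- Every morphism in the localization is a left fraction. -/
lemma exists_frac {X Y : C} (φ : L.obj X ⟶ L.obj Y) :
    ∃ (Z : C) (f : X ⟶ Z) (s : Y ⟶ Z), S.W s ∧ φ ≫ L.map s = L.map f := by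
  obtain ⟨⟨f, s, hs⟩, h⟩ := Localization.exists_leftFraction (S.liftHo L) S.WHo
    (X := S.toHo.obj X) (Y := S.toHo.obj Y) φ
  obtain ⟨f, rfl⟩ := S.toHo.map_surjective f
  obtain ⟨s, hs', rfl⟩ := hs
  refine ⟨_, f, s, hs', ?_⟩
  rw [h]
  exact MorphismProperty.LeftFraction.map_comp_map_s _ _ _

/-- Two maps with the same image become homotopic after composing with a weak equivalence. -/
lemma exists_htpy {X Y : C} (f g : X ⟶ Y) (h : L.map f = L.map g) :
    ∃ (Z : C) (t : Y ⟶ Z), S.W t ∧ S.Htpy (f ≫ t) (g ≫ t) := by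
  obtain ⟨Z, t, ht, h'⟩ := (MorphismProperty.map_eq_iff_postcomp (S.liftHo L) S.WHo
    (S.toHo.map f) (S.toHo.map g)).1 h
  obtain ⟨t, ht', rfl⟩ := ht
  refine ⟨_, t, ht', ?_⟩
  change S.toHo.map f ≫ S.toHo.map t = S.toHo.map g ≫ S.toHo.map t at h'
  rw [← Functor.map_comp, ← Functor.map_comp, toHo_map_eq_iff] at h'
  exact h'.htpy

/-- Every morphism in the localization is a left fraction whose denominator is an acyclic
cofibration. -/
lemma exists_frac_cof {X Y : C} (φ : L.obj X ⟶ L.obj Y) :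
    ∃ (Z : C) (f : X ⟶ Z) (s : Y ⟶ Z), S.W s ∧ S.cof s ∧ φ ≫ L.map s = L.map f := by
  obtain ⟨Z, f, s, hs, h⟩ := S.exists_frac L φ
  refine ⟨S.MC s, f ≫ S.mcBack s, S.mcFront s, S.W_mcFront s hs, S.cof_mcFront s, ?_⟩
  have : IsIso (L.map (S.mcRet s)) := Localization.inverts L S.W _ (S.W_mcRet s)
  rw [← cancel_mono (L.map (S.mcRet s))]
  simp only [Category.assoc, ← Functor.map_comp, mcFront_ret, mcBack_ret, Category.comp_id, h]

/-- Strictification of commutative squares of the localization. -/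
lemma exists_strict {X Y X' Y' : C} (f : X ⟶ Y) (f' : X' ⟶ Y') (a : L.obj X ⟶ L.obj X')
    (b : L.obj Y ⟶ L.obj Y') (h : L.map f ≫ b = a ≫ L.map f') :
    ∃ (M : C) (m : X ⟶ M) (w : M ⟶ Y) (X₂ Y₂ : C) (f₂ : X₂ ⟶ Y₂) (α : X ⟶ X₂) (β : M ⟶ Y₂)
      (s : X' ⟶ X₂) (t : Y' ⟶ Y₂), S.W w ∧ m ≫ w = f ∧ m ≫ β = α ≫ f₂ ∧ S.W s ∧ S.W t ∧
      s ≫ f₂ = f' ≫ t ∧ a ≫ L.map s = L.map α ∧ L.map w ≫ b ≫ L.map t = L.map β := by
  obtain ⟨X₁, a₁, s, hs, hsc, ha⟩ := S.exists_frac_cof L a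
  obtain ⟨Y₁, b₁, t, ht, htc, hb⟩ := S.exists_frac_cof L b
  have : HasPushout s (f' ≫ t) := S.hasPushout _ _ hsc
  have sq : IsPushout s (f' ≫ t) (pushout.inl s (f' ≫ t)) (pushout.inr s (f' ≫ t)) :=
    IsPushout.of_hasPushout _ _
  set Q := pushout s (f' ≫ t)
  set f₁ : X₁ ⟶ Q := pushout.inl s (f' ≫ t)
  set u : Y₁ ⟶ Q := pushout.inr s (f' ≫ t)
  have hu : S.W u := S.W_of_isPushout sq hsc hs
  have e : L.map (a₁ ≫ f₁) = L.map (f ≫ b₁ ≫ u) := by
    rw [Functor.map_comp, Functor.map_comp, Functor.map_comp, ← ha, ← hb, Category.assoc,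
      Category.assoc, ← L.map_comp s, sq.w, reassoc_of% h]
    simp
  obtain ⟨Q', v, hv, c, H, h0, h1⟩ := S.exists_htpy L _ _ e
  have : HasPushout c.j₁ f := S.hasPushout _ _ c.cof₁
  have sq' : IsPushout c.j₁ f (pushout.inl c.j₁ f) (pushout.inr c.j₁ f) :=
    IsPushout.of_hasPushout _ _
  set M := pushout c.j₁ f
  set l : c.Z ⟶ M := pushout.inl c.j₁ f
  set r : Y ⟶ M := pushout.inr c.j₁ f
  have hr : S.W r := S.W_of_isPushout sq' c.cof₁ c.W₁
  let w : M ⟶ Y := sq'.desc (c.pr ≫ f) (𝟙 Y) (by simp)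
  have lw : l ≫ w = c.pr ≫ f := sq'.inl_desc _ _ _
  have rw' : r ≫ w = 𝟙 Y := sq'.inr_desc _ _ _
  have hw : S.W w := S.W_of_precomp r w hr (by rw [rw']; exact S.W_id Y)
  let β : M ⟶ Q' := sq'.desc H (b₁ ≫ u ≫ v) (by simpa using h1)
  have lβ : l ≫ β = H := sq'.inl_desc _ _ _
  have rβ : r ≫ β = b₁ ≫ u ≫ v := sq'.inr_desc _ _ _
  refine ⟨M, c.j₀ ≫ l, w, X₁, Q', f₁ ≫ v, a₁, β, s, t ≫ u ≫ v, hw, ?_, ?_, hs, ?_, ?_, ha, ?_⟩
  · rw [Category.assoc, lw, c.j₀_pr_assoc]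
  · rw [Category.assoc, lβ, h0, Category.assoc]
  · exact S.W_comp _ _ ht (S.W_comp _ _ hu hv)
  · rw [reassoc_of% sq.w]
  · have : IsIso (L.map r) := Localization.inverts L S.W _ hr
    rw [← cancel_epi (L.map r), ← L.map_comp r β, rβ, ← L.map_comp_assoc, rw']
    simp [← hb]

end localization

end CylStr

end Vale.Agent.P251.H
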