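import Vale.Agent.P251.H.TriPre
import Mathlib.CategoryTheory.Triangulated.Triangulated

/-!
# P251.H: the localization of a stable cofibration category is triangulated
-/

set_option linter.unusedSectionVars false

open CategoryTheory Limits Pretriangulated

universe v u v' u'

namespace Vale.Agent.P251.H

open ZeroObject

namespace CylStr

variable {C : Type u} [Category.{v} C] [HasZeroObject C] [HasZeroMorphisms C]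
  [HasBinaryCoproducts C] (S : CylStr C)
  {D : Type u'} [Category.{v'} D] (L : C ⥤ D) [L.IsLocalization S.W]
  [HasShift D ℤ] (e : S.Susp ⋙ L ≅ L ⋙ shiftFunctor D (1 : ℤ))

lemma mem_of_iso {T₁ T₂ : Triangle D} (h : T₁ ∈ S.distSet L e) (i : T₂ ≅ T₁) :
    T₂ ∈ S.distSet L e := by
  obtain ⟨X, Y, f, ⟨j⟩⟩ := h
  exact ⟨X, Y, f, ⟨i ≪≫ j⟩⟩

include S in
/-- Every morphism of `D` is isomorphic to the image of a morphism of `C`. -/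
lemma exists_arrow {X Y : D} (f : X ⟶ Y) :
    ∃ (X' Y' : C) (f' : X' ⟶ Y') (i : X ≅ L.obj X') (j : Y ≅ L.obj Y'),
      f ≫ j.hom = i.hom ≫ L.map f' := by
  have := Localization.essSurj L S.W
  obtain ⟨Z, g, s, hs, h⟩ := S.exists_frac L
    ((L.objObjPreimageIso X).hom ≫ f ≫ (L.objObjPreimageIso Y).inv)
  have := S.isIso_map L _ hs
  refine ⟨_, _, g, (L.objObjPreimageIso X).symm,
    (L.objObjPreimageIso Y).symm ≪≫ asIso (L.map s), ?_⟩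
  simp only [Iso.trans_hom, Iso.symm_hom, asIso_hom, ← h, Category.assoc, Iso.inv_hom_id_assoc]

lemma cocone_mem {X Y : D} (f : X ⟶ Y) :
    ∃ (Z : D) (g : Y ⟶ Z) (h : Z ⟶ X⟦(1 : ℤ)⟧), Triangle.mk f g h ∈ S.distSet L e := by
  obtain ⟨X', Y', f', i, j, h⟩ := S.exists_arrow L f
  refine ⟨L.obj (S.mcone f'), j.hom ≫ L.map (S.inY f'),
    (L.map (S.δ f') ≫ (S.eh L e X').hom) ≫ i.inv⟦(1 : ℤ)⟧', X', Y', f', ⟨?_⟩⟩
  refine Triangle.isoMk _ _ i j (Iso.refl _) h ?_ ?_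
  · exact Category.comp_id _
  · change ((L.map (S.δ f') ≫ (S.eh L e X').hom) ≫ i.inv⟦(1 : ℤ)⟧') ≫ i.hom⟦(1 : ℤ)⟧' =
      𝟙 _ ≫ L.map (S.δ f') ≫ (S.eh L e X').hom
    rw [Category.assoc, ← Functor.map_comp, i.inv_hom_id, CategoryTheory.Functor.map_id,
      Category.id_comp, Category.comp_id]

lemma isZero_mcone_id (X : C) : IsZero (L.obj (S.mcone (𝟙 X))) := by
  have : IsIso (S.inC (𝟙 X)) := (S.mcone_isPushout (𝟙 X)).isIso_inl_of_isIso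
  exact (S.isZero_cone L X).of_iso (L.mapIso (asIso (S.inC (𝟙 X)))).symm

section

variable [HasZeroObject D] [Preadditive D] [∀ n : ℤ, (shiftFunctor D n).Additive]

lemma contractible_mem (X : D) : contractibleTriangle X ∈ S.distSet L e := by
  have := Localization.essSurj L S.W
  let X' := L.objPreimage X
  let i : L.obj X' ≅ X := L.objObjPreimageIso X
  refine ⟨X', X', 𝟙 X', ⟨?_⟩⟩
  refine Triangle.isoMk _ _ i.symm i.symm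
    ((isZero_zero D).iso (S.isZero_mcone_id L X')) ?_ ?_ ?_
  · change 𝟙 X ≫ i.inv = i.inv ≫ L.map (𝟙 X')
    simp
  · exact (S.isZero_mcone_id L X').eq_of_tgt _ _
  · exact (isZero_zero D).eq_of_src _ _

lemma rotate_tri_mem {X Y : C} (f : X ⟶ Y) : (S.tri L e f).rotate ∈ S.distSet L e := by
  refine S.mem_of_iso L e (S.triQ_mem L e (S.inY f) (S.δ f) (S.cof_inY f) (S.isQuot_δ f)) ?_
  refine Triangle.isoMk _ _ (Iso.refl _) (Iso.refl _) (S.eh L e X).symm ?_ ?_ ?_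
  · exact (Category.comp_id _).trans (Category.id_comp _).symm
  · change (L.map (S.δ f) ≫ (S.eh L e X).hom) ≫ (S.eh L e X).inv = 𝟙 _ ≫ L.map (S.δ f)
    simp
  · change (-(L.map f)⟦(1 : ℤ)⟧') ≫ (𝟙 (L.obj Y))⟦(1 : ℤ)⟧' =
      (S.eh L e X).inv ≫ S.dq L e (S.inY f) (S.δ f) (S.cof_inY f) (S.isQuot_δ f)
    rw [dq_inY, ν_eq_neg]
    simp

lemma rotate_mem {T : Triangle D} (h : T ∈ S.distSet L e) : T.rotate ∈ S.distSet L e := by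
  obtain ⟨X, Y, f, ⟨i⟩⟩ := h
  exact S.mem_of_iso L e (S.rotate_tri_mem L e f) ((rotate D).mapIso i)

/-- exactness of `Hom (-, W)` on a distinguished triangle -/
lemma dist_exact {T : Triangle D} (hT : T ∈ S.distSet L e) {W : D} (φ : T.obj₂ ⟶ W)
    (h : T.mor₁ ≫ φ = 0) : ∃ ψ : T.obj₃ ⟶ W, φ = T.mor₂ ≫ ψ := by
  obtain ⟨X, Y, f, ⟨i⟩⟩ := hT
  -- use completion against the triangle `0 → W → W → 0`
  have := Localization.essSurj L S.W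
  let j := L.objObjPreimageIso W
  obtain ⟨c, hc, -⟩ := S.complete_dist L e T _ ⟨X, Y, f, ⟨i⟩⟩
    (S.triQ_mem L e _ _ (S.cof_zero _) (isQuot_id (L.objPreimage W)))
    (0 : T.obj₁ ⟶ L.obj (0 : C)) (φ ≫ j.inv) (by
      change T.mor₁ ≫ φ ≫ j.inv = 0 ≫ L.map _
      rw [reassoc_of% h, zero_comp, zero_comp])
  let c' : T.obj₃ ⟶ L.obj (L.objPreimage W) := c
  have hc' : T.mor₂ ≫ c' = (φ ≫ j.inv) ≫ L.map (𝟙 _) := hc
  refine ⟨c' ≫ j.hom, ?_⟩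
  rw [reassoc_of% hc']
  simp

lemma isIso_of_endo {T : Triangle D} (hT : T ∈ S.distSet L e) (u : T.obj₃ ⟶ T.obj₃)
    (h2 : T.mor₂ ≫ u = T.mor₂) (h3 : u ≫ T.mor₃ = T.mor₃) : IsIso u := by
  obtain ⟨ψ, hψ⟩ : ∃ ψ : T.obj₁⟦(1 : ℤ)⟧ ⟶ T.obj₃, u - 𝟙 _ = T.mor₃ ≫ ψ :=
    S.dist_exact L e (S.rotate_mem L e hT) (u - 𝟙 _) (by
      change T.mor₂ ≫ (u - 𝟙 _) = 0
      rw [Preadditive.comp_sub, h2, Category.comp_id, sub_self])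
  have hn : (u - 𝟙 _) ≫ (u - 𝟙 _) = 0 := by
    refine (congrArg ((u - 𝟙 _) ≫ ·) hψ).trans ?_
    rw [← Category.assoc, Preadditive.sub_comp, h3, Category.id_comp, sub_self, zero_comp]
  refine ⟨⟨𝟙 _ - (u - 𝟙 _), ?_, ?_⟩⟩
  · have : u = 𝟙 _ + (u - 𝟙 _) := by abel
    rw [Preadditive.comp_sub, Category.comp_id]
    nth_rw 2 [this]
    rw [Preadditive.add_comp, hn, Category.id_comp]
    abel
  · have : u = 𝟙 _ + (u - 𝟙 _) := by abel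
    rw [Preadditive.sub_comp, Category.id_comp]
    nth_rw 3 [this]
    rw [Preadditive.comp_add, hn, Category.comp_id]
    abel

lemma isIso_of_mor {T₁ T₂ : Triangle D} (h₁ : T₁ ∈ S.distSet L e) (h₂ : T₂ ∈ S.distSet L e)
    (a : T₁.obj₁ ⟶ T₂.obj₁) (b : T₁.obj₂ ⟶ T₂.obj₂) (c : T₁.obj₃ ⟶ T₂.obj₃) (ia : IsIso a) (ib : IsIso b)
    (hab : T₁.mor₁ ≫ b = a ≫ T₂.mor₁) (hbc : T₁.mor₂ ≫ c = b ≫ T₂.mor₂)
    (hca : T₁.mor₃ ≫ a⟦(1 : ℤ)⟧' = c ≫ T₂.mor₃) : IsIso c := by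
  obtain ⟨c', h1, h2⟩ := S.complete_dist L e T₂ T₁ h₂ h₁ (inv a) (inv b) (by
    rw [← cancel_epi a, IsIso.hom_inv_id_assoc, ← reassoc_of% hab, IsIso.hom_inv_id,
      Category.comp_id])
  have i1 : IsIso (c ≫ c') := S.isIso_of_endo L e h₁ _
    (by rw [reassoc_of% hbc, h1, IsIso.hom_inv_id_assoc])
    (by rw [Category.assoc, ← h2, ← reassoc_of% hca, ← Functor.map_comp, IsIso.hom_inv_id,
      CategoryTheory.Functor.map_id, Category.comp_id])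
  have i2 : IsIso (c' ≫ c) := S.isIso_of_endo L e h₂ _
    (by rw [reassoc_of% h1, hbc, IsIso.inv_hom_id_assoc])
    (by rw [Category.assoc, ← hca, ← reassoc_of% h2, ← Functor.map_comp, IsIso.inv_hom_id,
      CategoryTheory.Functor.map_id, Category.comp_id])
  have s1 : IsSplitMono c := ⟨⟨⟨c' ≫ inv (c ≫ c'), by
    rw [← Category.assoc, IsIso.hom_inv_id]⟩⟩⟩
  have s2 : IsSplitEpi c := ⟨⟨⟨inv (c' ≫ c) ≫ c', by
    rw [Category.assoc, IsIso.inv_hom_id]⟩⟩⟩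
  exact isIso_of_mono_of_isSplitEpi c

lemma mem_of_rotate_mem (T : Triangle D) (h : T.rotate ∈ S.distSet L e) :
    T ∈ S.distSet L e := by
  obtain ⟨Z', g', h', hT'⟩ := S.cocone_mem L e T.mor₁
  have r1 := S.rotate_mem L e (S.rotate_mem L e h)
  have r2 := S.rotate_mem L e (S.rotate_mem L e (S.rotate_mem L e hT'))
  obtain ⟨c, hc1, hc2⟩ := S.complete_dist L e _ _ r1 r2 (𝟙 (T.obj₁⟦(1 : ℤ)⟧))
    (𝟙 (T.obj₂⟦(1 : ℤ)⟧)) (by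
      change (-T.mor₁⟦(1 : ℤ)⟧') ≫ 𝟙 _ = 𝟙 _ ≫ (-T.mor₁⟦(1 : ℤ)⟧')
      simp)
  have i1 : IsIso c := S.isIso_of_mor L e r1 r2 (𝟙 (T.obj₁⟦(1 : ℤ)⟧)) (𝟙 (T.obj₂⟦(1 : ℤ)⟧)) c
    (inferInstanceAs (IsIso (𝟙 (T.obj₁⟦(1 : ℤ)⟧)))) (inferInstanceAs (IsIso (𝟙 (T.obj₂⟦(1 : ℤ)⟧))))
    (by
      change (-T.mor₁⟦(1 : ℤ)⟧') ≫ 𝟙 _ = 𝟙 _ ≫ (-T.mor₁⟦(1 : ℤ)⟧')
      simp) hc1 hc2
  let c₀ : T.obj₃⟦(1 : ℤ)⟧ ⟶ Z'⟦(1 : ℤ)⟧ := c
  have i2 : IsIso c₀ := i1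
  have hc1' : (-T.mor₂⟦(1 : ℤ)⟧') ≫ c₀ = 𝟙 _ ≫ (-g'⟦(1 : ℤ)⟧') := hc1
  have hc2' : (-T.mor₃⟦(1 : ℤ)⟧') ≫ (𝟙 (T.obj₁⟦(1 : ℤ)⟧))⟦(1 : ℤ)⟧' = c₀ ≫ (-h'⟦(1 : ℤ)⟧') :=
    hc2
  obtain ⟨d, hd⟩ := (shiftFunctor D (1 : ℤ)).map_surjective c₀
  have i3 : IsIso d := by
    have : IsIso ((shiftFunctor D (1 : ℤ)).map d) := by rw [hd]; exact i2
    exact isIso_of_reflects_iso d (shiftFunctor D (1 : ℤ))
  rw [← hd] at hc1' hc2'
  refine S.mem_of_iso L e hT' (Triangle.isoMk _ _ (Iso.refl _) (Iso.refl _) (@asIso _ _ _ _ d i3) ?_ ?_ ?_)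
  · exact (Category.comp_id _).trans (Category.id_comp _).symm
  · change T.mor₂ ≫ d = 𝟙 _ ≫ g'
    apply (shiftFunctor D (1 : ℤ)).map_injective
    simpa using hc1'
  · change T.mor₃ ≫ (𝟙 T.obj₁)⟦(1 : ℤ)⟧' = d ≫ h'
    apply (shiftFunctor D (1 : ℤ)).map_injective
    simpa using hc2'

/-- The pretriangulated structure on the localization. -/
@[instance_reducible]
def pretriangulated : Pretriangulated D where
  distinguishedTriangles := S.distSet L e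
  isomorphic_distinguished _ h _ i := S.mem_of_iso L e h i
  contractible_distinguished X := S.contractible_mem L e X
  distinguished_cocone_triangle f := S.cocone_mem L e f
  rotate_distinguished_triangle T := ⟨fun h => S.rotate_mem L e h, S.mem_of_rotate_mem L e T⟩
  complete_distinguished_triangle_morphism T₁ T₂ h₁ h₂ a b h :=
    S.complete_dist L e T₁ T₂ h₁ h₂ a b h

/-- chosen quotients of cofibrations -/
lemma exists_quot {A B : C} {j : A ⟶ B} (hj : S.cof j) : ∃ (Q : C) (q : B ⟶ Q), IsQuot j q := by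
  have : HasPushout j (0 : A ⟶ (0 : C)) := S.hasPushout _ _ hj
  refine ⟨pushout j (0 : A ⟶ (0 : C)), pushout.inl _ _, ?_⟩
  have h := IsPushout.of_hasPushout j (0 : A ⟶ (0 : C))
  rwa [(isZero_zero C).eq_of_src (pushout.inr j (0 : A ⟶ (0 : C))) 0] at h

include S in
/-- Every composable pair of `D` comes from a composable pair of cofibrations of `C`. -/
lemma exists_pair {X₁ X₂ X₃ : D} (u : X₁ ⟶ X₂) (v : X₂ ⟶ X₃) :
    ∃ (A B E : C) (i : A ⟶ B) (j : B ⟶ E) (_ : S.cof i) (_ : S.cof j) (e₁ : X₁ ≅ L.obj A)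
      (e₂ : X₂ ≅ L.obj B) (e₃ : X₃ ≅ L.obj E), u ≫ e₂.hom = e₁.hom ≫ L.map i ∧
      v ≫ e₃.hom = e₂.hom ≫ L.map j := by
  have := Localization.essSurj L S.W
  obtain ⟨A, Z, f, e₁, e₂, h⟩ := S.exists_arrow L u
  obtain ⟨W, g, s, hs, hg⟩ := S.exists_frac L (e₂.inv ≫ v ≫ (L.objObjPreimageIso X₃).inv)
  let g' := S.mcRet f ≫ g
  have i1 := S.isIso_map L _ (S.W_mcRet f)
  have i2 := S.isIso_map L _ (S.W_mcRet g')
  have i3 := S.isIso_map L _ hs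
  refine ⟨A, S.MC f, S.MC g', S.mcFront f, S.mcFront g', S.cof_mcFront f, S.cof_mcFront g', e₁,
    e₂ ≪≫ (asIso (L.map (S.mcRet f))).symm,
    (L.objObjPreimageIso X₃).symm ≪≫ asIso (L.map s) ≪≫ (asIso (L.map (S.mcRet g'))).symm, ?_, ?_⟩
  · rw [← cancel_mono (L.map (S.mcRet f))]
    simp only [Iso.trans_hom, Iso.symm_hom, asIso_inv, Category.assoc, IsIso.inv_hom_id,
      Category.comp_id, ← L.map_comp, mcFront_ret, h]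
  · rw [← cancel_mono (L.map (S.mcRet g'))]
    simp only [Iso.trans_hom, Iso.symm_hom, asIso_inv, asIso_hom, Category.assoc,
      IsIso.inv_hom_id, Category.comp_id, ← L.map_comp, mcFront_ret]
    rw [L.map_comp, IsIso.inv_hom_id_assoc, ← hg]
    simp

lemma octahedron {A B E : C} (i : A ⟶ B) (j : B ⟶ E) (hi : S.cof i) (hj : S.cof j)
    {Q₁₂ Q₂₃ Q₁₃ : C} {q₁₂ : B ⟶ Q₁₂} {q₂₃ : E ⟶ Q₂₃} {q₁₃ : E ⟶ Q₁₃} (h₁₂ : IsQuot i q₁₂)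
    (h₂₃ : IsQuot j q₂₃) (h₁₃ : IsQuot (i ≫ j) q₁₃) :
    ∃ (m₁ : L.obj Q₁₂ ⟶ L.obj Q₁₃) (m₃ : L.obj Q₁₃ ⟶ L.obj Q₂₃),
      L.map q₁₂ ≫ m₁ = L.map j ≫ L.map q₁₃ ∧
      m₁ ≫ S.dq L e (i ≫ j) q₁₃ (S.cof_comp _ _ hi hj) h₁₃ = S.dq L e i q₁₂ hi h₁₂ ∧
      L.map q₁₃ ≫ m₃ = L.map q₂₃ ∧
      S.dq L e (i ≫ j) q₁₃ (S.cof_comp _ _ hi hj) h₁₃ ≫ (L.map i)⟦(1 : ℤ)⟧' =
        m₃ ≫ S.dq L e j q₂₃ hj h₂₃ ∧
      Triangle.mk m₁ m₃ (S.dq L e j q₂₃ hj h₂₃ ≫ (L.map q₁₂)⟦(1 : ℤ)⟧') ∈ S.distSet L e := by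
  let m₁ : Q₁₂ ⟶ Q₁₃ := h₁₂.desc (j ≫ q₁₃) 0 (by rw [← Category.assoc, h₁₃.zero, comp_zero])
  have e1 : q₁₂ ≫ m₁ = j ≫ q₁₃ := h₁₂.inl_desc _ _ _
  let m₃ : Q₁₃ ⟶ Q₂₃ := h₁₃.desc q₂₃ 0 (by rw [Category.assoc, h₂₃.zero, comp_zero, comp_zero])
  have e3 : q₁₃ ≫ m₃ = q₂₃ := h₁₃.inl_desc _ _ _
  have sq : IsPushout j q₁₂ q₁₃ m₁ := by
    refine IsPushout.of_left (h₁₁ := i) (h₂₁ := (0 : (0 : C) ⟶ Q₁₂)) (v₁₁ := (0 : A ⟶ (0 : C)))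
      ?_ e1.symm h₁₂
    rw [zero_comp]
    exact h₁₃
  have hm₁ : S.cof m₁ := S.cof_of_isPushout sq hj
  have hm₃ : IsQuot m₁ m₃ := by
    refine IsPushout.of_top (h₁₁ := j) (v₁₁ := q₁₂) (v₁₂ := q₁₃) ?_ ?_ sq
    · rw [comp_zero, e3]
      exact h₂₃
    · rw [zero_comp]
      apply h₁₂.ext
      rw [reassoc_of% e1, e3, h₂₃.zero, comp_zero]
  refine ⟨L.map m₁, L.map m₃, ?_, ?_, ?_, ?_, ?_⟩
  · rw [← L.map_comp, ← L.map_comp, e1]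
  · rw [← S.dq_nat L e hi h₁₂ (S.cof_comp _ _ hi hj) h₁₃ (𝟙 A) j m₁ (by simp) e1]
    simp
  · rw [← L.map_comp, e3]
  · exact S.dq_nat L e (S.cof_comp _ _ hi hj) h₁₃ hj h₂₃ i (𝟙 E) m₃ (by simp) (by simp [e3])
  · rw [S.dq_nat L e hj h₂₃ hm₁ hm₃ q₁₂ q₁₃ (𝟙 _) sq.w (by simp [e3]), L.map_id,
      Category.id_comp]
    exact S.triQ_mem L e m₁ m₃ hm₁ hm₃

/-- The octahedral axiom. -/
lemma isTriangulated :
    letI := S.pretriangulated L e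
    IsTriangulated D := by
  let := S.pretriangulated L e
  refine IsTriangulated.mk' ?_
  intro X₁' X₂' X₃' u v
  obtain ⟨A, B, E, i, j, hi, hj, e₁, e₂, e₃, h1, h2⟩ := S.exists_pair L u v
  obtain ⟨Q₁₂, q₁₂, h₁₂⟩ := S.exists_quot hi
  obtain ⟨Q₂₃, q₂₃, h₂₃⟩ := S.exists_quot hj
  obtain ⟨Q₁₃, q₁₃, h₁₃⟩ := S.exists_quot (S.cof_comp _ _ hi hj)
  obtain ⟨m₁, m₃, c1, c2, c3, c4, c5⟩ := S.octahedron L e i j hi hj h₁₂ h₂₃ h₁₃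
  have m13 := S.triQ_mem L e (i ≫ j) q₁₃ (S.cof_comp _ _ hi hj) h₁₃
  rw [L.map_comp] at m13
  exact ⟨_, _, _, _, _, _, L.map i, L.map j, e₁, e₂, e₃, h1, h2,
    L.map q₁₂, S.dq L e i q₁₂ hi h₁₂, S.triQ_mem L e i q₁₂ hi h₁₂,
    L.map q₂₃, S.dq L e j q₂₃ hj h₂₃, S.triQ_mem L e j q₂₃ hj h₂₃,
    L.map q₁₃, S.dq L e (i ≫ j) q₁₃ (S.cof_comp _ _ hi hj) h₁₃, m13,
    ⟨⟨m₁, m₃, c1, c2, c3, c4, c5⟩⟩⟩

end

end CylStr

end Vale.Agent.P251.H
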