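import Vale.Agent.P251.H.TriBip

/-!
# P251.H: the preadditive structure on the localization of a stable cofibration category
-/

set_option linter.unusedSectionVars false

open CategoryTheory Limits Pretriangulated

universe v u v' u'

namespace Vale.Agent.P251.H

open ZeroObject

namespace CylStr

variable {C : Type u} [Category.{v} C] [HasZeroObject C] [HasZeroMorphisms C]
  [HasBinaryCoproducts C] (S : CylStr C)
  {D : Type u'} [Category.{v'} D] (L : C ⥤ D) [L.IsLocalization S.W]
  [HasShift D ℤ] (e : S.Susp ⋙ L ≅ L ⋙ shiftFunctor D (1 : ℤ))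

section semiadditive

variable [HasZeroMorphisms D] [HasBinaryBiproducts D]

attribute [local instance] SemiadditiveOfBinaryBiproducts.addCommMonoidHomOfHasBinaryBiproducts

include S in
lemma id_coprod_eq (X Y : C) : 𝟙 (L.obj (X ⨿ Y)) =
    L.map (coprod.desc (𝟙 X) 0) ≫ L.map coprod.inl +
      L.map (coprod.desc 0 (𝟙 Y)) ≫ L.map coprod.inr := by
  apply S.coprod_hom_ext L
  · rw [SemiadditiveOfBinaryBiproducts.comp_add, ← L.map_comp_assoc, ← L.map_comp_assoc,
      coprod.inl_desc, coprod.inl_desc, S.L_map_zero L]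
    simp
  · rw [SemiadditiveOfBinaryBiproducts.comp_add, ← L.map_comp_assoc, ← L.map_comp_assoc,
      coprod.inr_desc, coprod.inr_desc, S.L_map_zero L]
    simp

lemma dv_eq {X : C} {Z : D} (a b : L.obj (S.Susp.obj X) ⟶ Z) :
    S.dv L a b = a + S.ν' L X ≫ b := by
  rw [dv, ← Category.id_comp (S.cdesc L a b), S.id_coprod_eq L,
    SemiadditiveOfBinaryBiproducts.add_comp, SemiadditiveOfBinaryBiproducts.comp_add]
  simp only [Category.assoc, inl_cdesc, inr_cdesc]
  rw [← Category.assoc, kap_left, ← Category.assoc, kap_right, Category.id_comp]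

include e in
lemma exists_neg {P Q : D} (f : P ⟶ Q) : ∃ g : P ⟶ Q, g + f = 0 := by
  obtain ⟨V, ⟨i⟩⟩ := S.exists_susp L e P
  refine ⟨i.hom ≫ S.ν' L V ≫ i.inv ≫ f, ?_⟩
  have h := S.dv_self L (i.inv ≫ f)
  rw [dv_eq] at h
  have h2 : f = i.hom ≫ i.inv ≫ f := by simp
  conv_lhs => rw [h2]
  simp only [Iso.inv_hom_id_assoc]
  rw [← SemiadditiveOfBinaryBiproducts.comp_add, add_comm, h, comp_zero]

end semiadditive

/-- The preadditive structure on the localization. -/
@[instance_reducible]
noncomputable def preadditive [HasZeroMorphisms D] : Preadditive D :=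
  haveI := S.hasBinaryBiproducts_D L e
  { homGroup := fun P Q =>
      letI : AddCommMonoid (P ⟶ Q) :=
        SemiadditiveOfBinaryBiproducts.addCommMonoidHomOfHasBinaryBiproducts P Q
      { (inferInstance : AddCommMonoid (P ⟶ Q)) with
        neg := fun f => (S.exists_neg L e f).choose
        neg_add_cancel := fun f => (S.exists_neg L e f).choose_spec
        zsmul := letI : Neg (P ⟶ Q) := ⟨fun f => (S.exists_neg L e f).choose⟩; zsmulRec }
    add_comp := fun P Q R f f' g => SemiadditiveOfBinaryBiproducts.add_comp f f' g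
    comp_add := fun P Q R f g g' => SemiadditiveOfBinaryBiproducts.comp_add f g g' }

/-- In any preadditive structure, the automorphism `ν'` is `-1`. -/
lemma ν'_eq_neg [Preadditive D] (X : C) : S.ν' L X = -𝟙 _ := by
  have h0 : 𝟙 (L.obj (S.Susp.obj X ⨿ S.Susp.obj X)) =
      L.map (coprod.desc (𝟙 _) 0) ≫ L.map coprod.inl +
      L.map (coprod.desc 0 (𝟙 _)) ≫ L.map coprod.inr := by
    apply S.coprod_hom_ext L
    · rw [Preadditive.comp_add, ← L.map_comp_assoc, ← L.map_comp_assoc,
        coprod.inl_desc, coprod.inl_desc, S.L_map_zero L]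
      simp
    · rw [Preadditive.comp_add, ← L.map_comp_assoc, ← L.map_comp_assoc,
        coprod.inr_desc, coprod.inr_desc, S.L_map_zero L]
      simp
  have h1 := S.dv_self L (𝟙 (L.obj (S.Susp.obj X)))
  rw [dv, ← Category.id_comp (S.cdesc L _ _), h0, Preadditive.add_comp, Preadditive.comp_add] at h1
  simp only [Category.assoc, inl_cdesc, inr_cdesc, Category.comp_id] at h1
  rw [kap_left, kap_right] at h1
  exact eq_neg_of_add_eq_zero_right h1

lemma ν_eq_neg [Preadditive D] (X : C) : S.ν L e X = -(S.eh L e X).hom := by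
  rw [ν_eq, ν'_eq_neg]
  simp

include S L e in
/-- shift functors are additive -/
lemma shift_additive [Preadditive D] (n : ℤ) : (shiftFunctor D n).Additive := by
  have := S.hasBinaryBiproducts_D L e
  have : (shiftFunctor D n).PreservesZeroMorphisms := by
    have := S.hasZeroObject_D L
    infer_instance
  have := preservesBinaryBiproducts_of_preservesBinaryProducts (shiftFunctor D n)
  exact Functor.additive_of_preservesBinaryBiproducts _

end CylStr

end Vale.Agent.P251.H
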