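import Vale.Agent.P251.H.TriCone

/-!
# P251.H: cofibre sequences as triangles in the localization; completion of morphisms
-/

open CategoryTheory Limits Pretriangulated

universe v u v' u'

namespace Vale.Agent.P251.H

open ZeroObject

namespace CylStr

variable {C : Type u} [Category.{v} C] [HasZeroObject C] [HasZeroMorphisms C]
  [HasBinaryCoproducts C] (S : CylStr C)
  {D : Type u'} [Category.{v'} D] (L : C ⥤ D) [L.IsLocalization S.W]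
  [HasShift D ℤ] (e : S.Susp ⋙ L ≅ L ⋙ shiftFunctor D (1 : ℤ))

/-- the comparison of suspensions, for one object -/
def eh (X : C) : L.obj (S.Susp.obj X) ≅ (L.obj X)⟦(1 : ℤ)⟧ := e.app X

omit [L.IsLocalization S.W] in
/-- naturality of the comparison of suspensions -/
@[reassoc]
lemma e_nat {X Y : C} (f : X ⟶ Y) :
    L.map (S.Susp.map f) ≫ (S.eh L e Y).hom = (S.eh L e X).hom ≫ (L.map f)⟦(1 : ℤ)⟧' :=
  e.hom.naturality f

omit [HasShift D ℤ] in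
include S in
lemma isIso_map {X Y : C} (f : X ⟶ Y) (h : S.W f) : IsIso (L.map f) :=
  Localization.inverts L S.W _ h

/-- the triangle of a morphism of `C` -/
noncomputable abbrev tri {X Y : C} (f : X ⟶ Y) : Triangle D :=
  Triangle.mk (L.map f) (L.map (S.inY f)) (L.map (S.δ f) ≫ (S.eh L e X).hom)

/-- distinguished triangles: those isomorphic to the triangle of a morphism of `C` -/
def distSet : Set (Triangle D) :=
  {T | ∃ (X Y : C) (f : X ⟶ Y), Nonempty (T ≅ S.tri L e f)}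

section quotients

variable {A B Q : C} (j : A ⟶ B) (q : B ⟶ Q) (hj : S.cof j) (hq : IsQuot j q)

/-- connecting map of a cofibration `j` with quotient `q` -/
noncomputable def dq : L.obj Q ⟶ (L.obj A)⟦(1 : ℤ)⟧ :=
  haveI := S.isIso_map L _ (S.W_ρ hj hq)
  inv (L.map (S.ρ j q hq.zero)) ≫ L.map (S.δ j) ≫ (S.eh L e A).hom

@[reassoc]
lemma ρ_dq : L.map (S.ρ j q hq.zero) ≫ S.dq L e j q hj hq = L.map (S.δ j) ≫ (S.eh L e A).hom := by
  simp [dq]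

/-- the triangle of a cofibration with quotient is isomorphic to the mapping cone triangle -/
noncomputable def triQIso :
    S.tri L e j ≅ Triangle.mk (L.map j) (L.map q) (S.dq L e j q hj hq) :=
  Triangle.isoMk _ _ (Iso.refl _) (Iso.refl _)
    (@asIso _ _ _ _ (L.map (S.ρ j q hq.zero)) (S.isIso_map L _ (S.W_ρ hj hq)))
    ((Category.comp_id (L.map j)).trans (Category.id_comp _).symm)
    (by
      change L.map (S.inY j) ≫ L.map (S.ρ j q hq.zero) = 𝟙 _ ≫ L.map q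
      rw [← Functor.map_comp, inY_ρ, Category.id_comp])
    (by
      change (L.map (S.δ j) ≫ (S.eh L e A).hom) ≫ (𝟙 (L.obj A))⟦(1 : ℤ)⟧' =
        L.map (S.ρ j q hq.zero) ≫ S.dq L e j q hj hq
      rw [ρ_dq, CategoryTheory.Functor.map_id, Category.comp_id])

lemma triQ_mem : Triangle.mk (L.map j) (L.map q) (S.dq L e j q hj hq) ∈ S.distSet L e :=
  ⟨_, _, j, ⟨(S.triQIso L e j q hj hq).symm⟩⟩

variable {j q} in
@[reassoc]
lemma dq_nat {A' B' Q' : C} {j' : A' ⟶ B'} {q' : B' ⟶ Q'} (hj' : S.cof j') (hq' : IsQuot j' q')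
    (a : A ⟶ A') (b : B ⟶ B') (c : Q ⟶ Q') (hab : j ≫ b = a ≫ j') (hbc : q ≫ c = b ≫ q') :
    S.dq L e j q hj hq ≫ (L.map a)⟦(1 : ℤ)⟧' = L.map c ≫ S.dq L e j' q' hj' hq' := by
  have := S.isIso_map L _ (S.W_ρ hj hq)
  rw [← cancel_epi (L.map (S.ρ j q hq.zero)), ρ_dq_assoc, ← Functor.map_comp_assoc,
    ← S.ρ_nat hq.zero hq'.zero a b c hab hbc, Functor.map_comp_assoc, ρ_dq, ← e_nat,
    ← Functor.map_comp_assoc, ← Functor.map_comp_assoc, mconeMap_δ]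

end quotients

/-- Completion of morphisms, for mapping cone triangles. -/
lemma complete_tri {X Y X' Y' : C} (f : X ⟶ Y) (f' : X' ⟶ Y') (a : L.obj X ⟶ L.obj X')
    (b : L.obj Y ⟶ L.obj Y') (h : L.map f ≫ b = a ≫ L.map f') :
    ∃ c : L.obj (S.mcone f) ⟶ L.obj (S.mcone f'),
      L.map (S.inY f) ≫ c = b ≫ L.map (S.inY f') ∧
      (L.map (S.δ f) ≫ (S.eh L e X).hom) ≫ a⟦(1 : ℤ)⟧' = c ≫ L.map (S.δ f') ≫ (S.eh L e X').hom := by
  obtain ⟨M, m, w, X₂, Y₂, f₂, α, β, s, t, hw, hmw, hmβ, hs, ht, hst, ha, hb⟩ :=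
    S.exists_strict L f f' a b h
  let K1 := S.mconeMap m f (𝟙 X) w (by simpa using hmw)
  let K2 := S.mconeMap m f₂ α β hmβ
  let K3 := S.mconeMap f' f₂ s t hst.symm
  have i1 : IsIso (L.map K1) := S.isIso_map L _ (S.W_mconeMap _ _ _ _ _ (S.W_id X) hw)
  have i3 : IsIso (L.map K3) := S.isIso_map L _ (S.W_mconeMap _ _ _ _ _ hs ht)
  have iw : IsIso (L.map w) := S.isIso_map L _ hw
  have is : IsIso (L.map s) := S.isIso_map L _ hs
  refine ⟨inv (L.map K1) ≫ L.map K2 ≫ inv (L.map K3), ?_, ?_⟩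
  · rw [← cancel_epi (L.map w), ← cancel_mono (L.map K3)]
    have e1 : L.map w ≫ L.map (S.inY f) = L.map (S.inY m) ≫ L.map K1 := by
      rw [← Functor.map_comp, ← Functor.map_comp, inY_mconeMap]
    have e3 : L.map (S.inY f') ≫ L.map K3 = L.map t ≫ L.map (S.inY f₂) := by
      rw [← Functor.map_comp, ← Functor.map_comp, inY_mconeMap]
    simp only [Category.assoc, IsIso.inv_hom_id, Category.comp_id, e3]
    rw [reassoc_of% e1, IsIso.hom_inv_id_assoc, ← Functor.map_comp, inY_mconeMap,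
      Functor.map_comp, ← hb]
    simp
  · rw [← cancel_mono ((L.map s)⟦(1 : ℤ)⟧'), ← cancel_epi (L.map K1)]
    simp only [Category.assoc, IsIso.hom_inv_id_assoc]
    rw [← Functor.map_comp, ha, ← e_nat, ← e_nat, ← Functor.map_comp_assoc,
      ← Functor.map_comp_assoc, ← Functor.map_comp_assoc, ← mconeMap_δ S f' f₂ s t hst.symm]
    rw [show K1 ≫ S.δ f = S.δ m by simp [K1]]
    rw [show S.δ m ≫ S.Susp.map α = K2 ≫ S.δ f₂ by simp [K2]]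
    change _ = L.map K2 ≫ inv (L.map K3) ≫ L.map (K3 ≫ S.δ f₂) ≫ (S.eh L e X₂).hom
    rw [Functor.map_comp, Functor.map_comp]
    simp

/-- Transport of the completion property along isomorphisms of triangles. -/
lemma complete_of_iso {D : Type u'} [Category.{v'} D] [HasShift D ℤ]
    {T₁ T₂ T₁' T₂' : Triangle D} (e₁ : T₁ ≅ T₁') (e₂ : T₂ ≅ T₂')
    (H : ∀ (a : T₁'.obj₁ ⟶ T₂'.obj₁) (b : T₁'.obj₂ ⟶ T₂'.obj₂), T₁'.mor₁ ≫ b = a ≫ T₂'.mor₁ →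
      ∃ c : T₁'.obj₃ ⟶ T₂'.obj₃, T₁'.mor₂ ≫ c = b ≫ T₂'.mor₂ ∧
        T₁'.mor₃ ≫ a⟦(1 : ℤ)⟧' = c ≫ T₂'.mor₃)
    (a : T₁.obj₁ ⟶ T₂.obj₁) (b : T₁.obj₂ ⟶ T₂.obj₂) (h : T₁.mor₁ ≫ b = a ≫ T₂.mor₁) :
    ∃ c : T₁.obj₃ ⟶ T₂.obj₃, T₁.mor₂ ≫ c = b ≫ T₂.mor₂ ∧
      T₁.mor₃ ≫ a⟦(1 : ℤ)⟧' = c ≫ T₂.mor₃ := by
  have comm₁ := e₁.inv.comm₁
  have comm₂ := e₁.hom.comm₂
  have comm₃ := e₁.hom.comm₃
  have comm₁' := e₂.hom.comm₁
  have comm₂' := e₂.inv.comm₂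
  have comm₃' := e₂.inv.comm₃
  obtain ⟨c, hc1, hc2⟩ := H (e₁.inv.hom₁ ≫ a ≫ e₂.hom.hom₁)
    (e₁.inv.hom₂ ≫ b ≫ e₂.hom.hom₂) (by
      rw [reassoc_of% comm₁, reassoc_of% h, Category.assoc, Category.assoc, comm₁'])
  refine ⟨e₁.hom.hom₃ ≫ c ≫ e₂.inv.hom₃, ?_, ?_⟩
  · rw [reassoc_of% comm₂, reassoc_of% hc1, comm₂']
    simp
  · rw [Category.assoc, Category.assoc, ← comm₃', ← reassoc_of% hc2, ← reassoc_of% comm₃]
    simp only [← Functor.map_comp]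
    simp

/-- Completion of morphisms, for distinguished triangles. -/
lemma complete_dist (T₁ T₂ : Triangle D) (hT₁ : T₁ ∈ S.distSet L e) (hT₂ : T₂ ∈ S.distSet L e)
    (a : T₁.obj₁ ⟶ T₂.obj₁) (b : T₁.obj₂ ⟶ T₂.obj₂) (h : T₁.mor₁ ≫ b = a ≫ T₂.mor₁) :
    ∃ c : T₁.obj₃ ⟶ T₂.obj₃, T₁.mor₂ ≫ c = b ≫ T₂.mor₂ ∧
      T₁.mor₃ ≫ a⟦(1 : ℤ)⟧' = c ≫ T₂.mor₃ := by
  obtain ⟨X, Y, f, ⟨e₁⟩⟩ := hT₁
  obtain ⟨X', Y', f', ⟨e₂⟩⟩ := hT₂
  exact complete_of_iso e₁ e₂ (fun a b h => S.complete_tri L e f f' a b h) a b h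

end CylStr

end Vale.Agent.P251.H
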