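import Vale.Agent.P251.H.LocCpt
import Vale.Agent.P251.H.FlatModel
import Vale.Agent.P251.H.MonLoc.Final
import Vale.Agent.P251.H.BrownApp

/-!
# P251, part H: the unit of the localization is a compact generator

`D` is a tensor triangulated category with a monoidal localization functor
`L : FlatCat (piW GG) ⥤ D` and an isomorphism `κ : L S ≅ 𝟙⟦1⟧`.
* `isCpt_unit`: the unit is compact;
* `small_unit`: the Hom sets `𝟙⟦n⟧ ⟶ X` are small;
* `isZero_of_cells`: an object `X` is zero if all maps `(L (J K))⟦n⟧ ⟶ X` are zero, `K` in the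
  class `AA` of spaces (`GG = cells AA`).
-/

open CategoryTheory MonoidalCategory Limits Pretriangulated ZeroObject

namespace Vale.Agent.P251.H

open Vale.Agent.P251.G Vale.Agent.P251.G.LC

universe v u v' u'

namespace StabInput

variable {M : Type u} [Category.{v} M] [MonoidalCategory M] [SymmetricCategory M]
    [MonoidalClosed M] [HasZeroMorphisms M] [HasColimitsOfSize.{0, 0} M] [StabInput M]
  {D : Type u'} [Category.{v'} D] [Preadditive D] [HasZeroObject D]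
  [HasShift D ℤ] [∀ n : ℤ, (shiftFunctor D n).Additive] [Pretriangulated D]
  [MonoidalCategory D] [SymmetricCategory D] [Vale.Agent.P251.T.TensorTriangulated D]

section

variable (W : MorphismProperty M) [GoodW W] (L : FlatCat W ⥤ D) [L.Monoidal]
  [L.IsLocalization (CofCat.W (C := FlatCat W))]
  (κ : L.obj (flatS W) ≅ (𝟙_ D)⟦(1 : ℤ)⟧)

/-- `L (S ⊗ A) ≅ (L A)⟦1⟧` -/
noncomputable def locSusp (A : FlatCat W) : L.obj (flatS W ⊗ A) ≅ (L.obj A)⟦(1 : ℤ)⟧ :=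
  (Functor.Monoidal.μIso L _ _).symm ≪≫ whiskerRightIso κ (L.obj A) ≪≫ β_ _ _ ≪≫
    Vale.Agent.P251.T.TensorTriangulated.e (L.obj A)

/-- the augmentation `L ⊗ S ⟶ 𝟙` of flat objects -/
noncomputable def flatLamS : flatL W ⊗ flatS W ⟶ 𝟙_ (FlatCat W) :=
  ObjectProperty.homMk (lam : (StabInput.L : M) ⊗ (J M).obj RR ⟶ 𝟙_ M)

variable (hlam : ∀ X : M, W (lamU M ▷ X ≫ (λ_ X).hom))

include hlam in
omit [Preadditive D] [HasZeroObject D] [HasShift D ℤ] [∀ n : ℤ, (shiftFunctor D n).Additive]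
  [Pretriangulated D] [MonoidalCategory D] [SymmetricCategory D] [Vale.Agent.P251.T.TensorTriangulated D]
  [L.Monoidal] in
theorem isIso_map_flatLamS (A : FlatCat W) :
    IsIso (L.map (flatLamS W ▷ A ≫ (λ_ A).hom)) :=
  Localization.inverts L (CofCat.W (C := FlatCat W)) _ (hlam A.obj)

include κ hlam in
/-- `L (L ⊗ A) ≅ (L A)⟦-1⟧` -/
theorem nonempty_locDesusp (A : FlatCat W) :
    Nonempty (L.obj (flatL W ⊗ A) ≅ (L.obj A)⟦(-1 : ℤ)⟧) := by
  have := isIso_map_flatLamS W L hlam A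
  let e : (L.obj (flatL W ⊗ A))⟦(1 : ℤ)⟧ ≅ L.obj A :=
    (locSusp W L κ (flatL W ⊗ A)).symm ≪≫
      L.mapIso ((α_ _ _ _).symm ≪≫ whiskerRightIso (β_ _ _) A) ≪≫
      asIso (L.map (flatLamS W ▷ A ≫ (λ_ A).hom))
  exact ⟨(shiftFunctorCompIsoId D (1 : ℤ) (-1) (by simp)).symm.app _ ≪≫
    (shiftFunctor D (-1 : ℤ)).mapIso e⟩

include κ hlam in
/-- `L (cell n K) ≅ (L (J K))⟦-n⟧` -/
theorem nonempty_locCell (n : ℕ) (K : LC) (hK : Flat W ((J M).obj K)) (hc : Flat W (cell n K)) :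
    Nonempty (L.obj ⟨cell n K, hc⟩ ≅ (L.obj ⟨(J M).obj K, hK⟩)⟦-(n : ℤ)⟧) := by
  induction n with
  | zero =>
    let e : (⟨cell 0 K, hc⟩ : FlatCat W) ≅ ⟨(J M).obj K, hK⟩ := (Flat W).isoMk (λ_ _)
    exact ⟨L.mapIso e ≪≫ (shiftFunctorZero' D (-((0 : ℕ) : ℤ)) (by simp)).symm.app _⟩
  | succ n ih =>
    have hn : Flat W (cell n K) := (flatInput W).flat_tensor
      ((flatInput W).flat_tpow (flatInput W).flat_L n) hK
    obtain ⟨e₁⟩ := ih hn
    obtain ⟨e₂⟩ := nonempty_locDesusp W L κ hlam ⟨cell n K, hn⟩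
    let e : (⟨cell (n + 1) K, hc⟩ : FlatCat W) ≅ flatL W ⊗ ⟨cell n K, hn⟩ :=
      (Flat W).isoMk (α_ _ _ _)
    exact ⟨L.mapIso e ≪≫ e₂ ≪≫ (shiftFunctor D (-1 : ℤ)).mapIso e₁ ≪≫
      (shiftFunctorAdd' D (-(n : ℤ)) (-1) (-((n + 1 : ℕ) : ℤ)) (by push_cast; ring)).symm.app _⟩

end

section

variable (GG : ObjectProperty M) [IsTest GG] [GoodW (piW GG)] (L : FlatCat (piW GG) ⥤ D)
  [L.Monoidal] [L.IsLocalization (CofCat.W (C := FlatCat (piW GG)))]
  (κ : L.obj (flatS (piW GG)) ≅ (𝟙_ D)⟦(1 : ℤ)⟧) (hunit : GG (𝟙_ M))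

include κ hunit in
/-- The spheres `𝟙⟦n⟧` are images of test objects. -/
theorem exists_test_sphere (n : ℤ) :
    ∃ A : FlatCat (piW GG), GG A.obj ∧ Nonempty (L.obj A ≅ (𝟙_ D)⟦n⟧) := by
  induction n using Int.induction_on with
  | zero =>
    exact ⟨𝟙_ _, hunit, ⟨(Functor.Monoidal.εIso L).symm ≪≫
      (shiftFunctorZero D ℤ).symm.app (𝟙_ D)⟩⟩
  | succ n ih =>
    obtain ⟨A, hA, ⟨e⟩⟩ := ih
    exact ⟨flatS _ ⊗ A, IsTest.susp (GG := GG) hA, ⟨locSusp _ L κ A ≪≫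
      (shiftFunctor D (1 : ℤ)).mapIso e ≪≫
      (shiftFunctorAdd' D (n : ℤ) 1 ((n : ℤ) + 1) rfl).symm.app _⟩⟩
  | pred n ih =>
    obtain ⟨A, hA, ⟨e⟩⟩ := ih
    obtain ⟨e'⟩ := nonempty_locDesusp _ L κ (fun X => piW_lam X) A
    exact ⟨flatL _ ⊗ A, IsTest.desusp (GG := GG) hA, ⟨e' ≪≫
      (shiftFunctor D (-1 : ℤ)).mapIso e ≪≫
      (shiftFunctorAdd' D (-(n : ℤ)) (-1) (-(n : ℤ) - 1) (by ring)).symm.app _⟩⟩

include κ hunit in
/-- **The unit is compact.** -/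
theorem isCpt_unit [HasCoproducts.{0} D] : IsCpt (𝟙_ D) := by
  intro n
  obtain ⟨A, hA, ⟨e⟩⟩ := exists_test_sphere GG L κ hunit n
  exact @FinFactor.of_iso _ _ _ _ _ (finFactor_loc GG L hA) e

include κ hunit in
/-- **Small Hom sets** out of the spheres. -/
theorem small_unit (n : ℤ) (X : D) : Small.{v} ((𝟙_ D)⟦n⟧ ⟶ X) := by
  obtain ⟨A, hA, ⟨e⟩⟩ := exists_test_sphere GG L κ hunit n
  have := small_loc GG L hA X
  exact small_map (e.homCongr (Iso.refl X)).symm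

end

section

variable (AA : ObjectProperty LC) [Fact (∀ K, AA K → AA (RR ⊗ K))]
  [GoodW (piW (cells AA : ObjectProperty M))]
  (L : FlatCat (piW (cells AA : ObjectProperty M)) ⥤ D)
  [L.Monoidal] [L.IsLocalization (CofCat.W (C := FlatCat (piW (cells AA : ObjectProperty M))))]
  (κ : L.obj (flatS (piW (cells AA : ObjectProperty M))) ≅ (𝟙_ D)⟦(1 : ℤ)⟧)

include κ in
/-- **Generation** by the images of the spaces in `AA`. -/
theorem isZero_of_cells (hAA : ∀ K, AA K → FC K) (X : D)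
    (h : ∀ (K : LC) (hK : AA K) (n : ℤ)
      (f : (L.obj ⟨(J M).obj K, (flatInput _).flat_J (hAA K hK)⟩)⟦n⟧ ⟶ X), f = 0) :
    IsZero X := by
  refine isZero_of_test (cells AA) L ?_ X ?_
  · rintro A ⟨n, K, hK, ⟨e⟩⟩
    exact (flatInput _).flat_of_iso e.symm ((flatInput _).flat_cell n (hAA K hK))
  · rintro A ⟨n, K, hK, ⟨e⟩⟩ f
    have hc := (flatInput (piW (cells AA : ObjectProperty M))).flat_cell n (hAA K hK)
    obtain ⟨e'⟩ := nonempty_locCell _ L κ (fun X => piW_lam X) n K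
      ((flatInput _).flat_J (hAA K hK)) hc
    let e₁ : A ≅ ⟨cell n K, hc⟩ := (Flat _).isoMk e
    have h1 := h K hK _ (e'.inv ≫ L.map e₁.inv ≫ f)
    rw [← cancel_epi (L.map e₁.inv), ← cancel_epi e'.inv, h1, comp_zero, comp_zero]

end

end StabInput

end Vale.Agent.P251.H
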